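import Vale.Agent.P006.LVC.Parts

/-!
# P006, block LV-C, part 5: products of two character sums, all ranges of `(k₁, k₂)`
-/

namespace Vale.Agent.P006.LVC

open Finset

/-- **CEN1** (block LV-A): the moment bound for one character sum over squarefree primary `k`. -/
def CEN1Hyp : Prop := ∀ d : ℝ, 0 < d → d ≤ 1 / 2 → ∃ κ : ℝ, 0 < κ ∧ ∃ η : ℝ, 0 < η ∧ ∃ C : ℝ, 1 ≤ C ∧
  ∀ B y K : ℝ, 1 ≤ B → d ≤ y → y ≤ 1 - d → 1 ≤ K → K ≤ B ^ (1 + κ) →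
  ∀ S : Finset O, (∀ n ∈ S, Primary n ∧ (N n : ℝ) ≤ B ^ y) →
  ∀ a : O → ℂ, (∀ n, ‖a n‖ ≤ 1) →
  ∑ k ∈ SPB K, ‖∑ n ∈ S, a n * toC (sym n k)‖ ^ (2 / y) ≤ C * B ^ (7 / 3 - η)

/-- the range `N k₂ ≤ B^{48θ}` by CEN1 -/
theorem part_alpha {κ η C d θ B x y1 y2 : ℝ}
    (h1 : ∀ B y K : ℝ, 1 ≤ B → d ≤ y → y ≤ 1 - d → 1 ≤ K → K ≤ B ^ (1 + κ) →
      ∀ S : Finset O, (∀ n ∈ S, Primary n ∧ (N n : ℝ) ≤ B ^ y) →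
      ∀ a : O → ℂ, (∀ n, ‖a n‖ ≤ 1) →
      ∑ k ∈ SPB K, ‖∑ n ∈ S, a n * toC (sym n k)‖ ^ (2 / y) ≤ C * B ^ (7 / 3 - η))
    (hC : 1 ≤ C) (hd : 0 < d) (hθ0 : 0 < θ) (hθη : 100 * θ ≤ η) (hθκ : θ ≤ κ)
    (hB : 1 ≤ B) (hx0 : 0 ≤ x) (hx1 : x ≤ 1 + θ) (hx2 : 1 - 24 * θ ≤ x)
    (hy1 : d ≤ y1) (hy2 : d ≤ y2) (hy : y1 + y2 = 1)
    (S1 S2 : Finset O) (hS1 : ∀ n ∈ S1, Primary n ∧ (N n : ℝ) ≤ B ^ y1)
    (hS2 : ∀ n ∈ S2, Primary n ∧ (N n : ℝ) ≤ B ^ y2)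
    (a b : O → ℂ) (ha : ∀ n, ‖a n‖ ≤ 1) (hb : ∀ n, ‖b n‖ ≤ 1)
    (T : Finset (O × O))
    (hT : ∀ p ∈ T, Primary p.1 ∧ Primary p.2 ∧ Squarefree (p.1 * p.2) ∧
      (N p.1 : ℝ) * (N p.2 : ℝ) ^ 2 ≤ B ^ x ∧ (N p.2 : ℝ) ≤ B ^ (48 * θ)) :
    ∑ p ∈ T, (‖∑ n ∈ S1, a n * psi2 p n‖ * ‖∑ n ∈ S2, b n * psi2 p n‖) ^ 2 ≤
      8 * C * B ^ (x / 3 + 2 - θ) := by
  have hB0 : 0 < B := by linarith
  have hH1 : 1 ≤ B ^ x := Real.one_le_rpow hB hx0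
  have hHle : B ^ x ≤ B ^ (1 + κ) := rle hB (by linarith)
  have hcover := sum_pairs_le_snd T
    (fun p => (‖∑ n ∈ S1, a n * psi2 p n‖ * ‖∑ n ∈ S2, b n * psi2 p n‖) ^ 2)
    (fun p => by positivity) (SPB (B ^ (48 * θ))) (fun _ => SPB (B ^ x)) (by
      intro p hp
      obtain ⟨h1, h2, h3, h4, h5⟩ := hT p hp
      rw [squarefree_mul_iff] at h3
      have hk1 : (1 : ℝ) ≤ N p.2 := h2.one_le_N'
      rw [mem_SPB, mem_SPB]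
      refine ⟨⟨⟨h2, h5⟩, h3.2.2⟩, ⟨⟨h1, ?_⟩, h3.2.1⟩⟩
      refine le_trans ?_ h4
      have h6 : (1 : ℝ) ≤ (N p.2 : ℝ) ^ 2 := one_le_pow₀ hk1
      have h7 : (0 : ℝ) ≤ N p.1 := Nat.cast_nonneg _
      nlinarith)
  refine hcover.trans ?_
  have hstep : ∀ k ∈ SPB (B ^ (48 * θ)), ∑ l ∈ SPB (B ^ x),
      (‖∑ n ∈ S1, a n * psi2 (l, k) n‖ * ‖∑ n ∈ S2, b n * psi2 (l, k) n‖) ^ 2 ≤
      2 * C * B ^ (7 / 3 - η) := by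
    intro k _
    have e1 := h1 B y1 (B ^ x) hB hy1 (by linarith) hH1 hHle S1 hS1
      (fun n => a n * toC (sym n k) ^ 2) (fun n => by
        rw [norm_mul]; exact mul_le_one₀ (ha n) (norm_nonneg _) (norm_psi_part _ _))
    have e2 := h1 B y2 (B ^ x) hB hy2 (by linarith) hH1 hHle S2 hS2
      (fun n => b n * toC (sym n k) ^ 2) (fun n => by
        rw [norm_mul]; exact mul_le_one₀ (hb n) (norm_nonneg _) (norm_psi_part _ _))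
    have e3 : ∀ l ∈ SPB (B ^ x),
        (‖∑ n ∈ S1, a n * psi2 (l, k) n‖ * ‖∑ n ∈ S2, b n * psi2 (l, k) n‖) ^ 2 ≤
        ‖∑ n ∈ S1, a n * toC (sym n k) ^ 2 * toC (sym n l)‖ ^ (2 / y1) +
        ‖∑ n ∈ S2, b n * toC (sym n k) ^ 2 * toC (sym n l)‖ ^ (2 / y2) := by
      intro l _
      have f1 : ∑ n ∈ S1, a n * psi2 (l, k) n =
          ∑ n ∈ S1, a n * toC (sym n k) ^ 2 * toC (sym n l) :=
        sum_congr rfl (fun n _ => by rw [psi2_apply]; ring)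
      have f2 : ∑ n ∈ S2, b n * psi2 (l, k) n =
          ∑ n ∈ S2, b n * toC (sym n k) ^ 2 * toC (sym n l) :=
        sum_congr rfl (fun n _ => by rw [psi2_apply]; ring)
      rw [f1, f2]
      exact young_sq (norm_nonneg _) (norm_nonneg _) (by linarith) (by linarith) hy
    calc _ ≤ ∑ l ∈ SPB (B ^ x), (‖∑ n ∈ S1, a n * toC (sym n k) ^ 2 * toC (sym n l)‖ ^ (2 / y1) +
        ‖∑ n ∈ S2, b n * toC (sym n k) ^ 2 * toC (sym n l)‖ ^ (2 / y2)) := sum_le_sum e3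
      _ ≤ C * B ^ (7 / 3 - η) + C * B ^ (7 / 3 - η) := by
          rw [sum_add_distrib]; exact add_le_add e1 e2
      _ = _ := by ring
  calc _ ≤ ∑ k ∈ SPB (B ^ (48 * θ)), 2 * C * B ^ (7 / 3 - η) := sum_le_sum hstep
    _ = ((SPB (B ^ (48 * θ))).card : ℝ) * (2 * C * B ^ (7 / 3 - η)) := by
        rw [sum_const, nsmul_eq_mul]
    _ ≤ (4 * B ^ (48 * θ)) * (2 * C * B ^ (7 / 3 - η)) := by
        apply mul_le_mul_of_nonneg_right (SPB_card_le (by positivity)) (by positivity)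
    _ = 8 * C * B ^ (48 * θ + (7 / 3 - η)) := by rw [Real.rpow_add hB0]; ring
    _ ≤ 8 * C * B ^ (x / 3 + 2 - θ) := by
        apply mul_le_mul_of_nonneg_left _ (by linarith)
        exact rle hB (by linarith)

/-- the range `N k₁ ~ N k₂`, `x` close to `1`, by CEN2 -/
theorem part_beta {η C d dl θ B x y1 y2 : ℝ}
    (h1 : ∀ (B y : ℝ), 1 ≤ B → d ≤ y → y ≤ 1 - d → ∀ (P : Finset (O × O)),
      (∀ p ∈ P, Primary p.1 ∧ Primary p.2 ∧ Squarefree (p.1 * p.2) ∧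
        (N (p.1 * p.2) : ℝ) ≤ B ^ (2 / 3 + η)) →
      ∀ (S : Finset O), (∀ n ∈ S, Primary n ∧ (N n : ℝ) ≤ B ^ y) →
      ∀ (a : O → ℂ), (∀ n, ‖a n‖ ≤ 1) →
      ∑ p ∈ P, ‖∑ n ∈ S, a n * psi2 p n‖ ^ (2 / y) ≤ C * B ^ (7 / 3 - η))
    (hC : 1 ≤ C) (hd : 0 < d) (hθ0 : 0 < θ) (hθη : 100 * θ ≤ η)
    (hB : 1 ≤ B) (hx1 : x ≤ 1 + θ) (hx2 : 1 - 24 * θ ≤ x)
    (hy1 : d ≤ y1) (hy2 : d ≤ y2) (hy : y1 + y2 = 1)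
    (S1 S2 : Finset O) (hS1 : ∀ n ∈ S1, Primary n ∧ (N n : ℝ) ≤ B ^ y1)
    (hS2 : ∀ n ∈ S2, Primary n ∧ (N n : ℝ) ≤ B ^ y2)
    (a b : O → ℂ) (ha : ∀ n, ‖a n‖ ≤ 1) (hb : ∀ n, ‖b n‖ ≤ 1)
    (T : Finset (O × O))
    (hT : ∀ p ∈ T, Primary p.1 ∧ Primary p.2 ∧ Squarefree (p.1 * p.2) ∧
      (N p.1 : ℝ) * (N p.2 : ℝ) ^ 2 ≤ B ^ x ∧ B ^ dl ≤ (N (p.1 * p.2) : ℝ) ∧
      B ^ (x / 3 - 4 * θ) ≤ (N p.1 : ℝ) ∧ B ^ (x / 3 - 4 * θ) ≤ (N p.2 : ℝ)) :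
    ∑ p ∈ T, (‖∑ n ∈ S1, a n * psi2 p n‖ * ‖∑ n ∈ S2, b n * psi2 p n‖) ^ 2 ≤
      2 * C * B ^ (x / 3 + 2 - θ) := by
  have hTQ := prod_bound hθ0 hB T hT
  have hTQ' : ∀ p ∈ T, Primary p.1 ∧ Primary p.2 ∧ Squarefree (p.1 * p.2) ∧
        (N (p.1 * p.2) : ℝ) ≤ B ^ (2 / 3 + η) := fun p hp =>
    ⟨(hT p hp).1, (hT p hp).2.1, (hT p hp).2.2.1, (hTQ p hp).trans (rle hB (by linarith))⟩
  have e1 := h1 B y1 hB hy1 (by linarith) T hTQ' S1 hS1 a ha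
  have e2 := h1 B y2 hB hy2 (by linarith) T hTQ' S2 hS2 b hb
  calc _ ≤ ∑ p ∈ T, (‖∑ n ∈ S1, a n * psi2 p n‖ ^ (2 / y1) +
        ‖∑ n ∈ S2, b n * psi2 p n‖ ^ (2 / y2)) := by
        refine sum_le_sum (fun p _ => ?_)
        exact young_sq (norm_nonneg _) (norm_nonneg _) (by linarith) (by linarith) hy
    _ ≤ C * B ^ (7 / 3 - η) + C * B ^ (7 / 3 - η) := by
        rw [sum_add_distrib]; exact add_le_add e1 e2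
    _ = 2 * C * B ^ (7 / 3 - η) := by ring
    _ ≤ 2 * C * B ^ (x / 3 + 2 - θ) := by
        apply mul_le_mul_of_nonneg_left _ (by linarith)
        exact rle hB (by linarith)

theorem G_sq {Ct B θ : ℝ} (hB0 : 0 < B) : (Ct * B ^ (θ / 4)) ^ 2 = Ct ^ 2 * B ^ (θ / 2) := by
  rw [mul_pow, ← Real.rpow_natCast (B ^ (θ / 4)), ← Real.rpow_mul hB0.le]
  congr 2; push_cast; ring

theorem G_fin {Ct B θ x : ℝ} (hB0 : 0 < B) (D : ℝ) :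
    (Ct * B ^ (θ / 4)) ^ 2 * D * B ^ (θ / 2) * B ^ (x / 3 + 2 - 2 * θ) =
      Ct ^ 2 * D * B ^ (x / 3 + 2 - θ) := by
  rw [G_sq hB0]
  have : B ^ (θ / 2) * B ^ (θ / 2) * B ^ (x / 3 + 2 - 2 * θ) = B ^ (x / 3 + 2 - θ) := by
    rw [← Real.rpow_add hB0, ← Real.rpow_add hB0]; congr 1; ring
  calc _ = Ct ^ 2 * D * (B ^ (θ / 2) * B ^ (θ / 2) * B ^ (x / 3 + 2 - 2 * θ)) := by ring
    _ = _ := by rw [this]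

theorem range_b {C4 Ct θ B x : ℝ} (h4 : LS4At C4 (θ / 6)) (hC4 : 0 ≤ C4)
    (hθ0 : 0 < θ) (hθ1 : θ ≤ 1 / 100) (hB : 1 ≤ B) (hx0 : 0 ≤ x) (hx1 : x ≤ 1 + θ)
    (hCt : 0 < Ct) (c : O → ℂ) (hc : ∀ n ∈ PB B, ‖c n‖ ≤ Ct * B ^ (θ / 4)) (T : Finset (O × O))
    (hT : ∀ p ∈ T, Primary p.1 ∧ Primary p.2 ∧ Squarefree (p.1 * p.2) ∧
      (N p.1 : ℝ) * (N p.2 : ℝ) ^ 2 ≤ B ^ x ∧ (N p.1 : ℝ) ≤ B ^ (x / 3 - 4 * θ)) :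
    ∑ p ∈ T, ‖FF B c p‖ ^ 2 ≤ 18 * (Ct ^ 2 * C4) * B ^ (x / 3 + 2 - θ) := by
  have hB0 : 0 < B := by linarith
  have := part_b h4 hC4 (by positivity) hθ0 hθ1 (by linarith) hB hx0 hx1 (by positivity) c hc T hT
  rw [G_fin hB0] at this
  linarith

theorem range_a {C4 Ct θ B x : ℝ} (h4 : LS4At C4 (θ / 6)) (hC4 : 0 ≤ C4)
    (hθ0 : 0 < θ) (hθ1 : θ ≤ 1 / 100) (hB : 1 ≤ B) (hx0 : 0 ≤ x) (hx1 : x ≤ 1 + θ)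
    (hCt : 0 < Ct) (c : O → ℂ) (hc : ∀ n ∈ PB B, ‖c n‖ ≤ Ct * B ^ (θ / 4)) (T : Finset (O × O))
    (hT : ∀ p ∈ T, Primary p.1 ∧ Primary p.2 ∧ Squarefree (p.1 * p.2) ∧
      (N p.1 : ℝ) * (N p.2 : ℝ) ^ 2 ≤ B ^ x ∧ (N p.2 : ℝ) ≤ B ^ (x / 3 - 4 * θ))
    (hT2 : x ≤ 1 - 24 * θ ∨ ∀ p ∈ T, B ^ (48 * θ) ≤ (N p.2 : ℝ)) :
    ∑ p ∈ T, ‖FF B c p‖ ^ 2 ≤ 40 * (Ct ^ 2 * C4) * B ^ (x / 3 + 2 - θ) := by
  have hB0 : 0 < B := by linarith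
  have := part_a h4 hC4 (by positivity) hθ0 hθ1 (by linarith) hB hx0 hx1 (by positivity) c hc T hT
    hT2
  rw [G_fin hB0] at this
  linarith

theorem range_c {Ct θ dl B x : ℝ}
    (hθ0 : 0 < θ) (hθ1 : θ ≤ 1 / 100) (hdl : 100 * θ ≤ dl)
    (hB : 1 ≤ B) (hx0 : 0 ≤ x) (hx1 : x ≤ 1 - 24 * θ) (hCt : 0 < Ct) (c : O → ℂ)
    (hc : ∀ n ∈ PB B, ‖c n‖ ≤ Ct * B ^ (θ / 4)) (T : Finset (O × O))
    (hT : ∀ p ∈ T, Primary p.1 ∧ Primary p.2 ∧ Squarefree (p.1 * p.2) ∧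
      (N p.1 : ℝ) * (N p.2 : ℝ) ^ 2 ≤ B ^ x ∧ B ^ dl ≤ (N (p.1 * p.2) : ℝ) ∧
      B ^ (x / 3 - 4 * θ) ≤ (N p.1 : ℝ) ∧ B ^ (x / 3 - 4 * θ) ≤ (N p.2 : ℝ)) :
    ∑ p ∈ T, ‖FF B c p‖ ^ 2 ≤ 8 * (CLS.cLS2 * Ct ^ 2) * B ^ (x / 3 + 2 - θ) := by
  have hB0 : 0 < B := by linarith
  have hc0 := CLS.cLS2_nonneg
  have := part_c hθ0 hθ1 hdl hB hx0 hx1 (by positivity) c hc T hT
  refine this.trans ?_
  rw [G_sq hB0]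
  calc 8 * (CLS.cLS2 * (Ct ^ 2 * B ^ (θ / 2)) * B ^ (x / 3 + 2 - 2 * θ))
      = 8 * (CLS.cLS2 * Ct ^ 2) * B ^ (θ / 2 + (x / 3 + 2 - 2 * θ)) := by
        rw [Real.rpow_add hB0]; ring
    _ ≤ _ := by
        apply mul_le_mul_of_nonneg_left _ (by positivity)
        exact rle hB (by linarith)

/-- the data of a product of two character sums -/
structure PData (d θ B x y1 y2 : ℝ) (S1 S2 : Finset O) (a b : O → ℂ) : Prop where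
  hB : 1 ≤ B
  hx0 : 0 ≤ x
  hx1 : x ≤ 1 + θ
  hd : 0 < d
  hθ0 : 0 < θ
  hθ1 : θ ≤ 1 / 100
  hy1 : d ≤ y1
  hy2 : d ≤ y2
  hy : y1 + y2 = 1
  hS1 : ∀ n ∈ S1, Primary n ∧ (N n : ℝ) ≤ B ^ y1
  hS2 : ∀ n ∈ S2, Primary n ∧ (N n : ℝ) ≤ B ^ y2
  ha : ∀ n, ‖a n‖ ≤ 1
  hb : ∀ n, ‖b n‖ ≤ 1

/-- the product of the squares -/
noncomputable def pf (S1 S2 : Finset O) (a b : O → ℂ) (p : O × O) : ℝ :=
  (‖∑ n ∈ S1, a n * psi2 p n‖ * ‖∑ n ∈ S2, b n * psi2 p n‖) ^ 2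

theorem pf_nonneg (S1 S2 : Finset O) (a b : O → ℂ) (p : O × O) : 0 ≤ pf S1 S2 a b p := by
  unfold pf; positivity

theorem PData.pf_eq {d θ B x y1 y2 : ℝ} {S1 S2 : Finset O} {a b : O → ℂ}
    (h : PData d θ B x y1 y2 S1 S2 a b) (p : O × O) :
    pf S1 S2 a b p = ‖FF B (mulCoef S1 S2 a b) p‖ ^ 2 := by
  have hB0 : 0 < B := by linarith [h.hB]
  unfold pf FF
  rw [← norm_mul, mul_sum_eq h.hS1 h.hS2 (by positivity)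
      (show B ^ y1 * B ^ y2 ≤ B by rw [← Real.rpow_add hB0, h.hy, Real.rpow_one]) a b (psi2 p)]

theorem PData.sum_eq {d θ B x y1 y2 : ℝ} {S1 S2 : Finset O} {a b : O → ℂ}
    (h : PData d θ B x y1 y2 S1 S2 a b) (T : Finset (O × O)) :
    ∑ p ∈ T, pf S1 S2 a b p = ∑ p ∈ T, ‖FF B (mulCoef S1 S2 a b) p‖ ^ 2 :=
  sum_congr rfl (fun p _ => h.pf_eq p)

theorem PData.coef_le {d θ B x y1 y2 Ct : ℝ} {S1 S2 : Finset O} {a b : O → ℂ}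
    (h : PData d θ B x y1 y2 S1 S2 a b) (hCt : 0 < Ct)
    (ht : ∀ n : O, Primary n → (tau n : ℝ) ≤ Ct * (N n : ℝ) ^ (θ / 4)) :
    ∀ n ∈ PB B, ‖mulCoef S1 S2 a b n‖ ≤ Ct * B ^ (θ / 4) := by
  intro n hn
  rw [mem_PB] at hn
  refine (norm_mulCoef_le (fun n hn => (h.hS1 n hn).1) h.ha h.hb hn.1).trans
    ((ht n hn.1).trans ?_)
  apply mul_le_mul_of_nonneg_left _ (by linarith)
  exact Real.rpow_le_rpow (Nat.cast_nonneg _) hn.2 (by linarith [h.hθ0])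

/-- the range `N k₂ ≤ L` -/
theorem PData.range_a' {d θ B x y1 y2 Ct C4 C1 κ1 η1 : ℝ} {S1 S2 : Finset O} {a b : O → ℂ}
    (h : PData d θ B x y1 y2 S1 S2 a b) (hCt : 0 < Ct)
    (ht : ∀ n : O, Primary n → (tau n : ℝ) ≤ Ct * (N n : ℝ) ^ (θ / 4))
    (h4 : LS4At C4 (θ / 6)) (hC4 : 0 ≤ C4)
    (h1 : ∀ B y K : ℝ, 1 ≤ B → d ≤ y → y ≤ 1 - d → 1 ≤ K → K ≤ B ^ (1 + κ1) →
      ∀ S : Finset O, (∀ n ∈ S, Primary n ∧ (N n : ℝ) ≤ B ^ y) →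
      ∀ a : O → ℂ, (∀ n, ‖a n‖ ≤ 1) →
      ∑ k ∈ SPB K, ‖∑ n ∈ S, a n * toC (sym n k)‖ ^ (2 / y) ≤ C1 * B ^ (7 / 3 - η1))
    (hC1 : 1 ≤ C1) (hθκ : 100 * θ ≤ κ1) (hθη : 100 * θ ≤ η1)
    (T : Finset (O × O))
    (hT : ∀ p ∈ T, Primary p.1 ∧ Primary p.2 ∧ Squarefree (p.1 * p.2) ∧
      (N p.1 : ℝ) * (N p.2 : ℝ) ^ 2 ≤ B ^ x ∧ (N p.2 : ℝ) ≤ B ^ (x / 3 - 4 * θ)) :
    ∑ p ∈ T, pf S1 S2 a b p ≤ (40 * (Ct ^ 2 * C4) + 8 * C1) * B ^ (x / 3 + 2 - θ) := by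
  classical
  have hB0 : 0 < B := by linarith [h.hB]
  have hpos : 0 ≤ B ^ (x / 3 + 2 - θ) := by positivity
  have hpos2 : 0 ≤ Ct ^ 2 * C4 := by positivity
  have hc := h.coef_le hCt ht
  have hθ0 := h.hθ0
  by_cases hx : x ≤ 1 - 24 * θ
  · have e := range_a h4 hC4 h.hθ0 h.hθ1 h.hB h.hx0 h.hx1 hCt _ hc T hT (Or.inl hx)
    rw [← h.sum_eq] at e
    refine e.trans (mul_le_mul_of_nonneg_right (by linarith) hpos)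
  · have e1 : ∑ p ∈ T.filter (fun p => B ^ (48 * θ) ≤ (N p.2 : ℝ)), pf S1 S2 a b p ≤
        40 * (Ct ^ 2 * C4) * B ^ (x / 3 + 2 - θ) := by
      rw [h.sum_eq]
      exact range_a h4 hC4 h.hθ0 h.hθ1 h.hB h.hx0 h.hx1 hCt _ hc _
        (fun p hp => hT p (mem_filter.1 hp).1) (Or.inr (fun p hp => (mem_filter.1 hp).2))
    have e2 : ∑ p ∈ T.filter (fun p => ¬ B ^ (48 * θ) ≤ (N p.2 : ℝ)), pf S1 S2 a b p ≤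
        8 * C1 * B ^ (x / 3 + 2 - θ) := by
      refine part_alpha h1 hC1 h.hd h.hθ0 hθη (by linarith) h.hB h.hx0 h.hx1 (not_le.1 hx).le
        h.hy1 h.hy2 h.hy S1 S2 h.hS1 h.hS2 a b h.ha h.hb _ ?_
      intro p hp
      rw [mem_filter] at hp
      obtain ⟨q1, q2, q3, q4, _⟩ := hT p hp.1
      exact ⟨q1, q2, q3, q4, (not_le.1 hp.2).le⟩
    rw [← sum_filter_add_sum_filter_not T (fun p => B ^ (48 * θ) ≤ (N p.2 : ℝ)), add_mul]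
    exact add_le_add e1 e2

/-- the range where both `N k₁`, `N k₂` are `≥ L` -/
theorem PData.range_c' {d dl θ B x y1 y2 Ct C2 η2 : ℝ} {S1 S2 : Finset O} {a b : O → ℂ}
    (h : PData d θ B x y1 y2 S1 S2 a b) (hCt : 0 < Ct)
    (ht : ∀ n : O, Primary n → (tau n : ℝ) ≤ Ct * (N n : ℝ) ^ (θ / 4))
    (h2 : ∀ (B y : ℝ), 1 ≤ B → d ≤ y → y ≤ 1 - d → ∀ (P : Finset (O × O)),
      (∀ p ∈ P, Primary p.1 ∧ Primary p.2 ∧ Squarefree (p.1 * p.2) ∧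
        (N (p.1 * p.2) : ℝ) ≤ B ^ (2 / 3 + η2)) →
      ∀ (S : Finset O), (∀ n ∈ S, Primary n ∧ (N n : ℝ) ≤ B ^ y) →
      ∀ (a : O → ℂ), (∀ n, ‖a n‖ ≤ 1) →
      ∑ p ∈ P, ‖∑ n ∈ S, a n * psi2 p n‖ ^ (2 / y) ≤ C2 * B ^ (7 / 3 - η2))
    (hC2 : 1 ≤ C2) (hθη : 100 * θ ≤ η2) (hdl : 100 * θ ≤ dl)
    (T : Finset (O × O))
    (hT : ∀ p ∈ T, Primary p.1 ∧ Primary p.2 ∧ Squarefree (p.1 * p.2) ∧
      (N p.1 : ℝ) * (N p.2 : ℝ) ^ 2 ≤ B ^ x ∧ B ^ dl ≤ (N (p.1 * p.2) : ℝ) ∧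
      B ^ (x / 3 - 4 * θ) ≤ (N p.1 : ℝ) ∧ B ^ (x / 3 - 4 * θ) ≤ (N p.2 : ℝ)) :
    ∑ p ∈ T, pf S1 S2 a b p ≤ (8 * (CLS.cLS2 * Ct ^ 2) + 2 * C2) * B ^ (x / 3 + 2 - θ) := by
  have hB0 : 0 < B := by linarith [h.hB]
  have hpos : 0 ≤ B ^ (x / 3 + 2 - θ) := by positivity
  have hcLS := CLS.cLS2_nonneg
  have hpos2 : 0 ≤ CLS.cLS2 * Ct ^ 2 := by positivity
  have hc := h.coef_le hCt ht
  by_cases hx : x ≤ 1 - 24 * θ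
  · have e := range_c h.hθ0 h.hθ1 hdl h.hB h.hx0 hx hCt _ hc T hT
    rw [← h.sum_eq] at e
    refine e.trans (mul_le_mul_of_nonneg_right (by linarith) hpos)
  · have e := part_beta h2 hC2 h.hd h.hθ0 hθη h.hB h.hx1 (not_le.1 hx).le h.hy1 h.hy2 h.hy
      S1 S2 h.hS1 h.hS2 a b h.ha h.hb T hT
    refine le_trans e (mul_le_mul_of_nonneg_right (by linarith) hpos)

/-- all ranges together, for `H = B^x` and `y₁ + y₂ = 1` -/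
theorem PData.all {d dl θ B x y1 y2 Ct C4 C1 C2 κ1 η1 η2 : ℝ} {S1 S2 : Finset O} {a b : O → ℂ}
    (h : PData d θ B x y1 y2 S1 S2 a b) (hCt : 0 < Ct)
    (ht : ∀ n : O, Primary n → (tau n : ℝ) ≤ Ct * (N n : ℝ) ^ (θ / 4))
    (h4 : LS4At C4 (θ / 6)) (hC4 : 0 ≤ C4)
    (h1 : ∀ B y K : ℝ, 1 ≤ B → d ≤ y → y ≤ 1 - d → 1 ≤ K → K ≤ B ^ (1 + κ1) →
      ∀ S : Finset O, (∀ n ∈ S, Primary n ∧ (N n : ℝ) ≤ B ^ y) →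
      ∀ a : O → ℂ, (∀ n, ‖a n‖ ≤ 1) →
      ∑ k ∈ SPB K, ‖∑ n ∈ S, a n * toC (sym n k)‖ ^ (2 / y) ≤ C1 * B ^ (7 / 3 - η1))
    (hC1 : 1 ≤ C1) (hθκ : 100 * θ ≤ κ1) (hθη1 : 100 * θ ≤ η1)
    (h2 : ∀ (B y : ℝ), 1 ≤ B → d ≤ y → y ≤ 1 - d → ∀ (P : Finset (O × O)),
      (∀ p ∈ P, Primary p.1 ∧ Primary p.2 ∧ Squarefree (p.1 * p.2) ∧
        (N (p.1 * p.2) : ℝ) ≤ B ^ (2 / 3 + η2)) →
      ∀ (S : Finset O), (∀ n ∈ S, Primary n ∧ (N n : ℝ) ≤ B ^ y) →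
      ∀ (a : O → ℂ), (∀ n, ‖a n‖ ≤ 1) →
      ∑ p ∈ P, ‖∑ n ∈ S, a n * psi2 p n‖ ^ (2 / y) ≤ C2 * B ^ (7 / 3 - η2))
    (hC2 : 1 ≤ C2) (hθη2 : 100 * θ ≤ η2) (hdl : 100 * θ ≤ dl)
    (T : Finset (O × O))
    (hT : ∀ p ∈ T, Primary p.1 ∧ Primary p.2 ∧ Squarefree (p.1 * p.2) ∧
      (N p.1 : ℝ) * (N p.2 : ℝ) ^ 2 ≤ B ^ x ∧ B ^ dl ≤ (N (p.1 * p.2) : ℝ)) :
    ∑ p ∈ T, pf S1 S2 a b p ≤
      (18 * (Ct ^ 2 * C4) + (40 * (Ct ^ 2 * C4) + 8 * C1) + (8 * (CLS.cLS2 * Ct ^ 2) + 2 * C2)) *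
        B ^ (x / 3 + 2 - θ) := by
  classical
  have hc := h.coef_le hCt ht
  have eb : ∑ p ∈ T.filter (fun p => (N p.1 : ℝ) ≤ B ^ (x / 3 - 4 * θ)), pf S1 S2 a b p ≤
      18 * (Ct ^ 2 * C4) * B ^ (x / 3 + 2 - θ) := by
    rw [h.sum_eq]
    refine range_b h4 hC4 h.hθ0 h.hθ1 h.hB h.hx0 h.hx1 hCt _ hc _ ?_
    intro p hp
    rw [mem_filter] at hp
    obtain ⟨q1, q2, q3, q4, q5⟩ := hT p hp.1
    exact ⟨q1, q2, q3, q4, hp.2⟩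
  set Tr := T.filter (fun p => ¬ (N p.1 : ℝ) ≤ B ^ (x / 3 - 4 * θ)) with hTr
  have ea : ∑ p ∈ Tr.filter (fun p => (N p.2 : ℝ) ≤ B ^ (x / 3 - 4 * θ)), pf S1 S2 a b p ≤
      (40 * (Ct ^ 2 * C4) + 8 * C1) * B ^ (x / 3 + 2 - θ) := by
    refine h.range_a' hCt ht h4 hC4 h1 hC1 hθκ hθη1 _ ?_
    intro p hp
    rw [mem_filter, hTr, mem_filter] at hp
    obtain ⟨q1, q2, q3, q4, q5⟩ := hT p hp.1.1
    exact ⟨q1, q2, q3, q4, hp.2⟩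
  have ec : ∑ p ∈ Tr.filter (fun p => ¬ (N p.2 : ℝ) ≤ B ^ (x / 3 - 4 * θ)), pf S1 S2 a b p ≤
      (8 * (CLS.cLS2 * Ct ^ 2) + 2 * C2) * B ^ (x / 3 + 2 - θ) := by
    refine h.range_c' hCt ht h2 hC2 hθη2 hdl _ ?_
    intro p hp
    rw [mem_filter, hTr, mem_filter] at hp
    obtain ⟨q1, q2, q3, q4, q5⟩ := hT p hp.1.1
    exact ⟨q1, q2, q3, q4, q5, (not_le.1 hp.1.2).le, (not_le.1 hp.2).le⟩
  rw [← sum_filter_add_sum_filter_not T (fun p => (N p.1 : ℝ) ≤ B ^ (x / 3 - 4 * θ)),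
    ← sum_filter_add_sum_filter_not Tr (fun p => (N p.2 : ℝ) ≤ B ^ (x / 3 - 4 * θ)), add_mul,
    add_mul, add_assoc]
  exact add_le_add eb (add_le_add ea ec)

/-- **[PROD], pair form**: for `F = F₁ F₂` with arbitrary bounded coefficients,
`∑_{(k₁,k₂)} |F₁ F₂|² ≤ C B^{2-θ} H^{1/3}` over pairs with `N k₁ (N k₂)² ≤ H ≤ B^{1+θ}` and
`N(k₁ k₂) ≥ B^{dl}`. -/
theorem prod_pairs (hLS4 : LS4Hyp) (hCEN1 : CEN1Hyp) {d dl : ℝ} (hd : 0 < d) (hd1 : d ≤ 1 / 2)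
    (hdl : 0 < dl) :
    ∃ θ : ℝ, 0 < θ ∧ θ ≤ 1 / 100 ∧ ∃ C : ℝ, 1 ≤ C ∧ ∀ (B H y1 y2 : ℝ), 1 ≤ B → 1 ≤ H →
      H ≤ B ^ (1 + θ) → d ≤ y1 → d ≤ y2 → y1 + y2 ≤ 1 →
      ∀ S1 S2 : Finset O, (∀ n ∈ S1, Primary n ∧ (N n : ℝ) ≤ B ^ y1) →
      (∀ n ∈ S2, Primary n ∧ (N n : ℝ) ≤ B ^ y2) →
      ∀ a b : O → ℂ, (∀ n, ‖a n‖ ≤ 1) → (∀ n, ‖b n‖ ≤ 1) →
      ∀ T : Finset (O × O), (∀ p ∈ T, Primary p.1 ∧ Primary p.2 ∧ Squarefree (p.1 * p.2) ∧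
        (N p.1 : ℝ) * (N p.2 : ℝ) ^ 2 ≤ H ∧ B ^ dl ≤ (N (p.1 * p.2) : ℝ)) →
      ∑ p ∈ T, pf S1 S2 a b p ≤ C * B ^ (2 - θ) * H ^ (1 / 3 : ℝ) := by
  classical
  obtain ⟨κ1, hκ1, η1, hη1, C1, hC1, h1⟩ := hCEN1 d hd hd1
  obtain ⟨η2, hη2, C2, hC2, h2⟩ := cen2 hd hd1
  obtain ⟨θ, hθ0, hθκ, hθη1, hθη2, hθdl, hθ1⟩ : ∃ θ : ℝ, 0 < θ ∧ 100 * θ ≤ κ1 ∧
      100 * θ ≤ η1 ∧ 100 * θ ≤ η2 ∧ 100 * θ ≤ dl ∧ θ ≤ 1 / 100 := by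
    have hpos : 0 < min (min κ1 η1) (min η2 (min dl 1)) := by
      simp only [lt_min_iff]; exact ⟨⟨hκ1, hη1⟩, hη2, hdl, one_pos⟩
    refine ⟨min (min κ1 η1) (min η2 (min dl 1)) / 100, by positivity, ?_, ?_, ?_, ?_, ?_⟩
    · have := (min_le_left (min κ1 η1) (min η2 (min dl 1))).trans (min_le_left _ _); linarith
    · have := (min_le_left (min κ1 η1) (min η2 (min dl 1))).trans (min_le_right _ _); linarith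
    · have := (min_le_right (min κ1 η1) (min η2 (min dl 1))).trans (min_le_left _ _); linarith
    · have := (min_le_right (min κ1 η1) (min η2 (min dl 1))).trans
        ((min_le_right _ _).trans (min_le_left _ _)); linarith
    · have := (min_le_right (min κ1 η1) (min η2 (min dl 1))).trans
        ((min_le_right _ _).trans (min_le_right _ _)); linarith
  obtain ⟨C4, hC4, h4⟩ := hLS4 (θ / 6) (by positivity)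
  obtain ⟨Ct, hCt, ht⟩ := exists_tau_le (show 0 < θ / 4 by positivity)
  have hcLS := CLS.cLS2_nonneg
  refine ⟨θ, hθ0, hθ1, 18 * (Ct ^ 2 * C4) + (40 * (Ct ^ 2 * C4) + 8 * C1) +
    (8 * (CLS.cLS2 * Ct ^ 2) + 2 * C2), ?_, ?_⟩
  · have e1 : 0 ≤ Ct ^ 2 * C4 := by positivity
    have e2 : 0 ≤ CLS.cLS2 * Ct ^ 2 := by positivity
    linarith
  intro B H y1 y2 hB hH hHB hy1 hy2 hy S1 S2 hS1 hS2 a b ha hb T hT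
  have hB0 : 0 < B := by linarith
  obtain ⟨x, hx0, hx1, hHx⟩ := exists_exp hB hH (by linarith) hHB
  subst hHx
  have hP : PData d θ B x y1 (1 - y1) S1 S2 a b :=
    ⟨hB, hx0, hx1, hd, hθ0, hθ1, hy1, by linarith, by ring, hS1, fun n hn =>
      ⟨(hS2 n hn).1, (hS2 n hn).2.trans (rle hB (by linarith))⟩, ha, hb⟩
  have e := hP.all (by linarith) ht (fun K M hK hM => h4 K M hK hM) (by linarith) h1 hC1 hθκ hθη1 h2 hC2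
    hθη2 hθdl T hT
  refine e.trans (le_of_eq ?_)
  have hfinal : B ^ (x / 3 + 2 - θ) = B ^ (2 - θ) * (B ^ x) ^ (1 / 3 : ℝ) := by
    rw [← Real.rpow_mul hB0.le, ← Real.rpow_add hB0]; congr 1; ring
  rw [hfinal]; ring

end Vale.Agent.P006.LVC
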