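import Vale.Agent.P006.LVC.Pairs
import Vale.Agent.P006.H357.Dual
import Vale.Agent.P006.H357.Inst

/-!
# P006, block LV-C: `LS4Hyp` from Heath-Brown's large sieve
-/

namespace Vale.Agent.P006.LVC

open Finset

theorem ls4Hyp_of_PStar (hP : HB.PStar HB.symC) : LS4Hyp := by
  classical
  intro ε hε
  obtain ⟨C, hC, h⟩ := HB.large_sieve_dual HB.csym_symC hP ε hε
  refine ⟨max C 1, le_max_right _ _, ?_⟩
  intro K M hK hM c hc
  have h1 := h K M hK hM (fun n => if n ∈ PB M then c n else 0) (fun n => by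
    split_ifs
    · exact hc n
    · simp)
  have hsub : PB M ⊆ HB.Hn M := by
    intro n hn
    rw [mem_PB] at hn
    rw [HB.mem_Hn]
    exact ⟨hn.2, hn.1.ne_zero⟩
  have hSF : HB.SF K = SPB K := by
    ext k
    rw [HB.mem_SF, mem_SPB, HB.prim_iff]
    tauto
  have h2 : ∀ k, ∑ n ∈ HB.Hn M, (if n ∈ PB M then c n else 0) * HB.symC k n =
      ∑ n ∈ PB M, c n * toC (sym n k) := by
    intro k
    rw [← sum_subset hsub (fun n _ hn => by rw [if_neg hn, zero_mul])]
    exact sum_congr rfl (fun n hn => by rw [if_pos hn]; rfl)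
  simp only [h2, hSF] at h1
  refine h1.trans ?_
  have e : M * (K + M + (K * M) ^ (2 / 3 : ℝ)) =
      M ^ 2 + K * M + K ^ (2 / 3 : ℝ) * M ^ (5 / 3 : ℝ) := by
    rw [Real.mul_rpow (by linarith) (by linarith),
      show (5 / 3 : ℝ) = 2 / 3 + 1 by norm_num, Real.rpow_add_one (by linarith)]
    ring
  rw [e]
  have h0 : 0 ≤ M ^ 2 + K * M + K ^ (2 / 3 : ℝ) * M ^ (5 / 3 : ℝ) := by positivity
  gcongr
  exact le_max_left _ _

end Vale.Agent.P006.LVC
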