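import Vale.Agent.P006.LVC.ProdPairs
import Vale.Agent.P006.DEC.Sum

/-!
# P006, block LV-C, part 6: sums over all nonzero `k` from sums over squarefree pairs
-/

namespace Vale.Agent.P006.LVC

open Finset

/-- the part of `(k/n)` coming from the unit, `λ` and the cube -/
noncomputable def twist (u : O) (j : ℕ) (c n : O) : ℂ := toC (sym (u * lam ^ j * c ^ 3) n)

theorem norm_twist_le (u : O) (j : ℕ) (c n : O) : ‖twist u j c n‖ ≤ 1 := norm_sym_le _ _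

theorem sym_twist {u : O} {j : ℕ} {a b c n : O} (ha : Primary a) (hb : Primary b)
    (hn : Primary n) :
    toC (sym (u * lam ^ j * (a * b ^ 2 * c ^ 3)) n) = twist u j c n * psi2 (a, b) n := by
  rw [twist, psi2_apply, ← map_pow, ← map_mul, ← map_mul]
  congr 1
  rw [show u * lam ^ j * (a * b ^ 2 * c ^ 3) = (u * lam ^ j * c ^ 3) * (a * b ^ 2) by ring,
    sym_mul_left, sym_mul_left a, sym_pow_left, recip ha hn, recip hb hn]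

/-- the product of squares for a general `k` -/
noncomputable def kf (S1 S2 : Finset O) (a b : O → ℂ) (k : O) : ℝ :=
  (‖∑ n ∈ S1, a n * toC (sym k n)‖ * ‖∑ n ∈ S2, b n * toC (sym k n)‖) ^ 2

theorem kf_nonneg (S1 S2 : Finset O) (a b : O → ℂ) (k : O) : 0 ≤ kf S1 S2 a b k := by
  unfold kf; positivity

theorem kf_val {S1 S2 : Finset O} (h1 : ∀ n ∈ S1, Primary n) (h2 : ∀ n ∈ S2, Primary n)
    (a b : O → ℂ) {u : O} {j : ℕ} {k1 k2 c : O} (hk1 : Primary k1) (hk2 : Primary k2) :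
    kf S1 S2 a b (u * lam ^ j * (k1 * k2 ^ 2 * c ^ 3)) =
      pf S1 S2 (fun n => a n * twist u j c n) (fun n => b n * twist u j c n) (k1, k2) := by
  have e1 : ∑ n ∈ S1, a n * toC (sym (u * lam ^ j * (k1 * k2 ^ 2 * c ^ 3)) n) =
      ∑ n ∈ S1, a n * twist u j c n * psi2 (k1, k2) n :=
    sum_congr rfl (fun n hn => by rw [sym_twist hk1 hk2 (h1 n hn), ← mul_assoc])
  have e2 : ∑ n ∈ S2, b n * toC (sym (u * lam ^ j * (k1 * k2 ^ 2 * c ^ 3)) n) =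
      ∑ n ∈ S2, b n * twist u j c n * psi2 (k1, k2) n :=
    sum_congr rfl (fun n hn => by rw [sym_twist hk1 hk2 (h2 n hn), ← mul_assoc])
  unfold kf pf
  rw [e1, e2]

/-- the six units times the geometric series -/
theorem geom_third (J : ℕ) : ∑ j ∈ range J, ((3 : ℝ) ^ j) ^ (-(1 / 3) : ℝ) ≤ 4 := by
  have h0 : (0 : ℝ) ≤ (3 : ℝ) ^ (-(1 / 3) : ℝ) := by positivity
  have h1 : (3 : ℝ) ^ (-(1 / 3) : ℝ) ≤ 3 / 4 := by
    have e1 : ((3 : ℝ) ^ (-(1 / 3) : ℝ)) ^ 3 = 1 / 3 := by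
      rw [← Real.rpow_natCast, ← Real.rpow_mul (by norm_num)]
      norm_num [Real.rpow_neg_one]
    by_contra hlt
    push Not at hlt
    have e2 : (3 / 4 : ℝ) ^ 3 < ((3 : ℝ) ^ (-(1 / 3) : ℝ)) ^ 3 :=
      pow_lt_pow_left₀ hlt (by norm_num) (by norm_num)
    rw [e1] at e2
    norm_num at e2
  have h2 : ∀ j ∈ range J, ((3 : ℝ) ^ j) ^ (-(1 / 3) : ℝ) ≤ (3 / 4 : ℝ) ^ j := by
    intro j _
    rw [← Real.rpow_natCast, ← Real.rpow_mul (by norm_num), mul_comm, Real.rpow_mul (by norm_num),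
      Real.rpow_natCast]
    exact pow_le_pow_left₀ h0 h1 j
  refine (sum_le_sum h2).trans ?_
  have h3 := Summable.sum_le_tsum (range J) (fun j _ => by positivity)
    (summable_geometric_of_lt_one (show (0 : ℝ) ≤ 3 / 4 by norm_num) (by norm_num))
  rw [tsum_geometric_of_lt_one (by norm_num) (by norm_num)] at h3
  norm_num at h3
  exact h3

/-- `∑_{c ∈ PB K} 1/N c ≤ C K^ε` -/
theorem harm_eps {ε : ℝ} (hε : 0 < ε) {K : ℝ} (hK : 1 ≤ K) :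
    ∑ c ∈ PB K, ((N c : ℝ) ^ 3) ^ (-(1 / 3) : ℝ) ≤ 4 * (1 + 1 / ε) * K ^ ε := by
  have h1 : ∀ c ∈ PB K, ((N c : ℝ) ^ 3) ^ (-(1 / 3) : ℝ) ≤ K ^ ε * (N c : ℝ) ^ (-(1 + ε)) := by
    intro c hc
    rw [mem_PB] at hc
    have hc1 : (1 : ℝ) ≤ N c := hc.1.one_le_N'
    have hc0 : (0 : ℝ) < N c := by linarith
    rw [← Real.rpow_natCast, ← Real.rpow_mul hc0.le]
    have e : (N c : ℝ) ^ (((3 : ℕ) : ℝ) * -(1 / 3)) = (N c : ℝ) ^ ε * (N c : ℝ) ^ (-(1 + ε)) := by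
      rw [← Real.rpow_add hc0]; congr 1; push_cast; ring
    rw [e]
    apply mul_le_mul_of_nonneg_right _ (by positivity)
    exact Real.rpow_le_rpow hc0.le hc.2 hε.le
  refine (sum_le_sum h1).trans ?_
  rw [← mul_sum]
  have h2 := sum_PB_rpow_neg_le' (s := 1 + ε) (by linarith) K
  rw [show 1 + ε - 1 = ε by ring] at h2
  rw [mul_comm]
  exact mul_le_mul_of_nonneg_right h2 (by positivity)

/-- General transfer from pairs to all `k`: if for every twist the pair sum with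
`N k₁ (N k₂)² ≤ H`, `N (k₁ k₂) ≥ Q` is `≤ D H^{1/3}` for `1 ≤ H ≤ K`, then the sum over `k`,
`0 < N k ≤ K`, `cond k ≥ Q`, is `≤ 96 (1+1/ε) K^ε D K^{1/3}`. -/
theorem transfer {K Q D ε : ℝ} (hK : 1 ≤ K) (hD : 0 ≤ D) (hε : 0 < ε) (f : O → ℝ)
    (g : O → ℕ → O → O × O → ℝ)
    (hfg : ∀ (u : O) (j : ℕ) (c k1 k2 : O), Primary k1 → Primary k2 → Primary c →
      f (u * lam ^ j * (k1 * k2 ^ 2 * c ^ 3)) = g u j c (k1, k2))
    (hg : ∀ (u : O) (j : ℕ) (c : O) (H : ℝ), 1 ≤ H → H ≤ K → ∀ T : Finset (O × O),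
      (∀ p ∈ T, Primary p.1 ∧ Primary p.2 ∧ Squarefree (p.1 * p.2) ∧
        (N p.1 : ℝ) * (N p.2 : ℝ) ^ 2 ≤ H ∧ Q ≤ (N (p.1 * p.2) : ℝ)) →
      ∑ p ∈ T, g u j c p ≤ D * H ^ (1 / 3 : ℝ)) :
    ∑ k ∈ (HB.Hn K).filter (fun k => Q ≤ (DEC.cond k : ℝ)), f k ≤
      96 * (1 + 1 / ε) * K ^ ε * (D * K ^ (1 / 3 : ℝ)) := by
  classical
  rw [DEC.sum_Hn_cond K (fun n => Q ≤ (n : ℝ)) f]
  have hKpos : 0 ≤ K ^ (1 / 3 : ℝ) := by positivity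
  have hin : ∀ u ∈ DEC.U6, ∀ j ∈ range (⌊K⌋₊ + 1),
      (∑ a ∈ SPB K, ∑ b ∈ SPB K, ∑ c ∈ PB K, if (Squarefree (a * b) ∧
        (3 : ℝ) ^ j * (N a * (N b : ℝ) ^ 2 * (N c : ℝ) ^ 3) ≤ K) ∧ Q ≤ ((N a * N b : ℕ) : ℝ)
        then f (u * lam ^ j * (a * b ^ 2 * c ^ 3)) else 0) ≤
      ((3 : ℝ) ^ j) ^ (-(1 / 3) : ℝ) * (4 * (1 + 1 / ε) * K ^ ε * (D * K ^ (1 / 3 : ℝ))) := by
    intro u _ j _
    have e1 : (∑ a ∈ SPB K, ∑ b ∈ SPB K, ∑ c ∈ PB K, if (Squarefree (a * b) ∧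
        (3 : ℝ) ^ j * (N a * (N b : ℝ) ^ 2 * (N c : ℝ) ^ 3) ≤ K) ∧ Q ≤ ((N a * N b : ℕ) : ℝ)
        then f (u * lam ^ j * (a * b ^ 2 * c ^ 3)) else 0) =
        ∑ c ∈ PB K, ∑ p ∈ (SPB K ×ˢ SPB K).filter (fun p => (Squarefree (p.1 * p.2) ∧
        (3 : ℝ) ^ j * (N p.1 * (N p.2 : ℝ) ^ 2 * (N c : ℝ) ^ 3) ≤ K) ∧
          Q ≤ ((N p.1 * N p.2 : ℕ) : ℝ)), f (u * lam ^ j * (p.1 * p.2 ^ 2 * c ^ 3)) := by
      rw [← sum_product', sum_comm]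
      refine sum_congr rfl (fun c _ => ?_)
      rw [sum_filter]
    rw [e1]
    have e2 : ∀ c ∈ PB K, ∑ p ∈ (SPB K ×ˢ SPB K).filter (fun p => (Squarefree (p.1 * p.2) ∧
        (3 : ℝ) ^ j * (N p.1 * (N p.2 : ℝ) ^ 2 * (N c : ℝ) ^ 3) ≤ K) ∧
          Q ≤ ((N p.1 * N p.2 : ℕ) : ℝ)), f (u * lam ^ j * (p.1 * p.2 ^ 2 * c ^ 3)) ≤
        ((N c : ℝ) ^ 3) ^ (-(1 / 3) : ℝ) *
          (((3 : ℝ) ^ j) ^ (-(1 / 3) : ℝ) * (D * K ^ (1 / 3 : ℝ))) := by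
      intro c hc
      rw [mem_PB] at hc
      have hc1 : (1 : ℝ) ≤ N c := hc.1.one_le_N'
      have hc3 : (1 : ℝ) ≤ (N c : ℝ) ^ 3 := one_le_pow₀ hc1
      have hj1 : (1 : ℝ) ≤ (3 : ℝ) ^ j := one_le_pow₀ (by norm_num)
      set T := (SPB K ×ˢ SPB K).filter (fun p => (Squarefree (p.1 * p.2) ∧
        (3 : ℝ) ^ j * (N p.1 * (N p.2 : ℝ) ^ 2 * (N c : ℝ) ^ 3) ≤ K) ∧
          Q ≤ ((N p.1 * N p.2 : ℕ) : ℝ)) with hT
      have hTm : ∀ p ∈ T, (Primary p.1 ∧ Primary p.2) ∧ Squarefree (p.1 * p.2) ∧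
          (3 : ℝ) ^ j * (N p.1 * (N p.2 : ℝ) ^ 2 * (N c : ℝ) ^ 3) ≤ K ∧
          Q ≤ (N (p.1 * p.2) : ℝ) := by
        intro p hp
        rw [hT, mem_filter, mem_product, mem_SPB, mem_SPB] at hp
        refine ⟨⟨hp.1.1.1.1, hp.1.2.1.1⟩, hp.2.1.1, hp.2.1.2, ?_⟩
        rw [N_mul]; exact hp.2.2
      rcases T.eq_empty_or_nonempty with h0 | ⟨p0, hp0⟩
      · rw [h0, sum_empty]; positivity
      have hden : (0 : ℝ) < (3 : ℝ) ^ j * (N c : ℝ) ^ 3 := by positivity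
      have hH1 : 1 ≤ K / ((3 : ℝ) ^ j * (N c : ℝ) ^ 3) := by
        rw [one_le_div hden]
        obtain ⟨⟨q1, q2⟩, q3, q4, q5⟩ := hTm p0 hp0
        refine le_trans ?_ q4
        have r1 := q1.one_le_N'
        have r2 := q2.one_le_N'
        have r3 : (1 : ℝ) ≤ (N p0.1 : ℝ) * (N p0.2 : ℝ) ^ 2 :=
          one_le_mul_of_one_le_of_one_le r1 (one_le_pow₀ r2)
        calc (3 : ℝ) ^ j * (N c : ℝ) ^ 3 = (3 : ℝ) ^ j * (1 * (N c : ℝ) ^ 3) := by ring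
          _ ≤ _ := by gcongr
      have hHK : K / ((3 : ℝ) ^ j * (N c : ℝ) ^ 3) ≤ K :=
        div_le_self (by linarith) (one_le_mul_of_one_le_of_one_le hj1 hc3)
      have h3 := hg u j c _ hH1 hHK T (fun p hp => by
        obtain ⟨⟨q1, q2⟩, q3, q4, q5⟩ := hTm p hp
        refine ⟨q1, q2, q3, ?_, q5⟩
        rw [le_div_iff₀ hden]
        calc _ = (3 : ℝ) ^ j * (N p.1 * (N p.2 : ℝ) ^ 2 * (N c : ℝ) ^ 3) := by ring
          _ ≤ K := q4)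
      have h4 : ∑ p ∈ T, f (u * lam ^ j * (p.1 * p.2 ^ 2 * c ^ 3)) = ∑ p ∈ T, g u j c p :=
        sum_congr rfl (fun p hp => hfg u j c p.1 p.2 (hTm p hp).1.1 (hTm p hp).1.2 hc.1)
      rw [h4]
      refine h3.trans (le_of_eq ?_)
      rw [div_rpow' (by linarith) hden.le, Real.mul_rpow (by positivity) (by positivity)]
      ring
    refine (sum_le_sum e2).trans ?_
    rw [← sum_mul]
    have e3 := harm_eps hε hK
    calc _ ≤ (4 * (1 + 1 / ε) * K ^ ε) *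
          (((3 : ℝ) ^ j) ^ (-(1 / 3) : ℝ) * (D * K ^ (1 / 3 : ℝ))) :=
          mul_le_mul_of_nonneg_right e3 (by positivity)
      _ = _ := by ring
  have hpos : 0 ≤ 4 * (1 + 1 / ε) * K ^ ε * (D * K ^ (1 / 3 : ℝ)) := by positivity
  calc _ ≤ ∑ u ∈ DEC.U6, ∑ j ∈ range (⌊K⌋₊ + 1),
        ((3 : ℝ) ^ j) ^ (-(1 / 3) : ℝ) * (4 * (1 + 1 / ε) * K ^ ε * (D * K ^ (1 / 3 : ℝ))) :=
        sum_le_sum (fun u hu => sum_le_sum (fun j hj => hin u hu j hj))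
    _ = 6 * ((∑ j ∈ range (⌊K⌋₊ + 1), ((3 : ℝ) ^ j) ^ (-(1 / 3) : ℝ)) *
          (4 * (1 + 1 / ε) * K ^ ε * (D * K ^ (1 / 3 : ℝ)))) := by
        rw [sum_const, DEC.card_U6, ← sum_mul, nsmul_eq_mul]; norm_num
    _ ≤ 6 * (4 * (4 * (1 + 1 / ε) * K ^ ε * (D * K ^ (1 / 3 : ℝ)))) := by
        apply mul_le_mul_of_nonneg_left _ (by norm_num)
        exact mul_le_mul_of_nonneg_right (geom_third _) hpos
    _ = _ := by ring

/-- **[PROD]**: for `F = F₁ F₂` with arbitrary bounded coefficients supported on primary `n`, with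
`N n ≤ B^{y₁}`, `N n ≤ B^{y₂}`, `y₁ + y₂ ≤ 1`, `y₁, y₂ ≥ d`: the sum of `|F₁ F₂|²` over nonzero `k`,
`N k ≤ K ≤ B^{1+θ}`, `cond k ≥ B^{dl}`, is at most `C B^{2-θ} K^{1/3}`. -/
theorem prod_total (hLS4 : LS4Hyp) (hCEN1 : CEN1Hyp) {d dl : ℝ} (hd : 0 < d) (hd1 : d ≤ 1 / 2)
    (hdl : 0 < dl) :
    ∃ θ : ℝ, 0 < θ ∧ θ ≤ 1 / 100 ∧ ∃ C : ℝ, 1 ≤ C ∧ ∀ (B K y1 y2 : ℝ), 1 ≤ B → 1 ≤ K →
      K ≤ B ^ (1 + θ) → d ≤ y1 → d ≤ y2 → y1 + y2 ≤ 1 →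
      ∀ S1 S2 : Finset O, (∀ n ∈ S1, Primary n ∧ (N n : ℝ) ≤ B ^ y1) →
      (∀ n ∈ S2, Primary n ∧ (N n : ℝ) ≤ B ^ y2) →
      ∀ a b : O → ℂ, (∀ n, ‖a n‖ ≤ 1) → (∀ n, ‖b n‖ ≤ 1) →
      ∑ k ∈ (HB.Hn K).filter (fun k => B ^ dl ≤ (DEC.cond k : ℝ)),
        (‖∑ n ∈ S1, a n * toC (sym k n)‖ * ‖∑ n ∈ S2, b n * toC (sym k n)‖) ^ 2 ≤
        C * B ^ (2 - θ) * K ^ (1 / 3 : ℝ) := by
  obtain ⟨θ, hθ0, hθ1, C, hC, h⟩ := prod_pairs hLS4 hCEN1 hd hd1 hdl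
  refine ⟨θ / 2, by positivity, by linarith, 96 * (1 + 1 / (θ / 4)) * C, ?_, ?_⟩
  · have : 0 < 1 / (θ / 4) := by positivity
    nlinarith
  intro B K y1 y2 hB hK hKB hy1 hy2 hy S1 S2 hS1 hS2 a b ha hb
  have hB0 : 0 < B := by linarith
  have hKB' : K ≤ B ^ (1 + θ) := hKB.trans (rle hB (by linarith))
  have h1 := transfer (K := K) (Q := B ^ dl) (D := C * B ^ (2 - θ)) (ε := θ / 4) hK (by positivity)
    (by positivity) (kf S1 S2 a b)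
    (fun u j c p => pf S1 S2 (fun n => a n * twist u j c n) (fun n => b n * twist u j c n) p)
    (fun u j c k1 k2 hk1 hk2 _ => kf_val (fun n hn => (hS1 n hn).1) (fun n hn => (hS2 n hn).1)
      a b hk1 hk2)
    (fun u j c H hH hHK T hT => h B H y1 y2 hB hH (hHK.trans hKB') hy1 hy2 hy S1 S2 hS1 hS2
      _ _ (fun n => by
        rw [norm_mul]; exact mul_le_one₀ (ha n) (norm_nonneg _) (norm_twist_le _ _ _ _))
      (fun n => by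
        rw [norm_mul]; exact mul_le_one₀ (hb n) (norm_nonneg _) (norm_twist_le _ _ _ _)) T hT)
  refine h1.trans ?_
  have h2 : K ^ (θ / 4) ≤ B ^ (θ / 2) := by
    calc K ^ (θ / 4) ≤ (B ^ (2 : ℝ)) ^ (θ / 4) :=
          Real.rpow_le_rpow (by linarith) (hKB'.trans (rle hB (by linarith))) (by positivity)
      _ = B ^ (θ / 2) := by rw [← Real.rpow_mul hB0.le]; congr 1; ring
  have h3 : B ^ (θ / 2) * B ^ (2 - θ) = B ^ (2 - θ / 2) := by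
    rw [← Real.rpow_add hB0]; congr 1; ring
  calc 96 * (1 + 1 / (θ / 4)) * K ^ (θ / 4) * (C * B ^ (2 - θ) * K ^ (1 / 3 : ℝ))
      ≤ 96 * (1 + 1 / (θ / 4)) * B ^ (θ / 2) * (C * B ^ (2 - θ) * K ^ (1 / 3 : ℝ)) := by
        gcongr
    _ = 96 * (1 + 1 / (θ / 4)) * C * (B ^ (θ / 2) * B ^ (2 - θ)) * K ^ (1 / 3 : ℝ) := by ring
    _ = _ := by rw [h3]

end Vale.Agent.P006.LVC
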