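import Vale.Agent.P006.LVC.NCcen2
import Vale.Agent.P006.H206.Tail

/-!
# P006, block LV-C, part 16: the non-cube bound in the centre
-/

namespace Vale.Agent.P006.LVC

open Finset

/-- large values for the rough part of the sequence `g X` in the centre -/
def CenLV (g : ℝ → O → ℂ) (η q : ℝ) : Prop :=
  ∃ κ : ℝ, 0 < κ ∧ ∃ θ : ℝ, 0 < θ ∧ ∃ C : ℝ, 1 ≤ C ∧ ∃ X0 : ℝ, 3 ≤ X0 ∧ ∀ X A H δ : ℝ, X0 ≤ X →
    1 ≤ A → X ^ (1 / 2 - κ) ≤ 2 * A → A ≤ X ^ (1 / 2 + κ) → H ≤ A ^ (1 + κ) → 0 < δ → δ ≤ 1 / 9 →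
    LVP (open Classical in fun c => if Rough (X ^ η) c then g X c else 0) A δ H
      (C * Real.log X ^ 2 * A ^ (2 - θ)) q

/-- the family of blocks of the centre -/
noncomputable def fam (g : ℝ → O → ℂ) (η X y1 y2 : ℝ) (ρ : ℂ) (i l s : ℕ) : O → ℂ :=
  blk (fun a => ρ * cut (X ^ η) y1 y2 (g X) a) i l s

theorem fam_eq (g : ℝ → O → ℂ) (η X y1 y2 : ℝ) (ρ : ℂ) (i l s : ℕ) :
    fam g η X y1 y2 ρ i l s = blk (cutf ρ y1 y2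
      (open Classical in fun c => if Rough (X ^ η) c then g X c else 0)) i l s := by
  classical
  funext a
  unfold fam blk
  by_cases ha : a ∈ H611.DB i ∧ N a / 2 ^ l = s
  · rw [if_pos ha, if_pos ha]
    have h1 := H611.mem_DB.1 ha.1
    have e1 : cut (X ^ η) y1 y2 (g X) a =
        if y1 < (N a : ℝ) ∧ (N a : ℝ) ≤ y2 then (if Rough (X ^ η) a then g X a else 0) else 0 := by
      unfold cut
      by_cases h2 : Rough (X ^ η) a <;> by_cases h3 : y1 < (N a : ℝ) ∧ (N a : ℝ) ≤ y2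
      · rw [if_pos h3, if_pos h2, if_pos ⟨h1.1, h1.2.1, h2, h3.1, h3.2⟩]
      · rw [if_neg h3, if_neg (fun hh => h3 ⟨hh.2.2.2.1, hh.2.2.2.2⟩)]
      · rw [if_neg h2, if_neg (fun hh => h2 hh.2.2.1), ite_self]
      · rw [if_neg h3, if_neg (fun hh => h2 hh.2.2.1)]
    unfold cutf
    simp only [e1]
    split_ifs <;> simp
  · rw [if_neg ha, if_neg ha]

/-- **the non-cube bound in the centre** for the blocks of the rough part of `g X` -/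
def NCcen (g : ℝ → O → ℂ) (η q : ℝ) : Prop :=
  ∃ κ : ℝ, 0 < κ ∧ ∃ e : ℝ, 0 < e ∧ ∃ C : ℝ, 0 < C ∧ ∀ (X y1 y2 σ t : ℝ) (i l : ℕ) (ρ : ℂ)
    (S : Finset ℕ), 3 ≤ X → X ^ (1 / 2 - κ) ≤ (2 : ℝ) ^ i → (2 : ℝ) ^ i ≤ X ^ (1 / 2 + κ) →
    (2 : ℝ) ^ i ≤ X ^ e * 2 ^ l → |σ| ≤ 3 / 2 → ‖ρ‖ ≤ 1 → ∀ A : ℝ, A = 2 ^ i - 1 / 2 →
    (∀ a, ∑ s ∈ S, ‖DN.twc (fam g η X y1 y2 ρ i l s) A σ t a‖ ≤ 1) →
    ∀ H Q0 J0 sw : ℝ, 1 ≤ H → H ≤ A ^ (1 + κ) → 1 ≤ Q0 → 1 ≤ J0 → 0 ≤ sw →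
    NC.SWhyp S (fun s => DN.twc (fam g η X y1 y2 ρ i l s) A σ t) (2 * A) H Q0 J0 sw →
    ∑ s ∈ S, DN.NCQ (DN.twc (fam g η X y1 y2 ρ i l s) A σ t) (2 * A) H ≤
      C * A ^ 2 * H ^ (1 / 3 : ℝ) * (Q0 ^ 3 * (J0 ^ 2 * sw + J0 ^ (-(1 / 2 : ℝ))) +
        (1 + Real.log (2 * A)) ^ 3 * Q0 ^ (-(1 / 3 : ℝ)) + (1 + |t|) ^ q * A ^ (-e))

/-- the trivial bound for bounded `A` -/
theorem small_case {A0 : ℝ} (hA0 : 1 ≤ A0) : ∃ C : ℝ, 0 < C ∧ ∀ (S : Finset ℕ)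
    (α : ℕ → O → ℂ), (∀ a, ∑ s ∈ S, ‖α s a‖ ≤ 1) → ∀ A H : ℝ, 1 ≤ A → A ≤ A0 → 1 ≤ H →
      H ≤ A ^ (2 : ℝ) → ∑ s ∈ S, DN.NCQ (α s) (2 * A) H ≤ C := by
  obtain ⟨C, hC, h⟩ := NC.nc_tail_DN (ε := 1) one_pos
  refine ⟨C * (2 * A0 * A0 ^ 2) ^ (1 : ℝ) * (2 * A0 * A0 ^ 2 + (2 * A0) ^ 2 * (A0 ^ 2) ^ (1 / 3 : ℝ) +
    (2 * A0) ^ (5 / 3 : ℝ) * (A0 ^ 2) ^ (2 / 3 : ℝ)), by positivity, ?_⟩
  intro S α hF A H hA hAA hH hHA
  have h1 := h ℕ S α hF (2 * A) H (by linarith) hH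
  refine h1.trans ?_
  have h2 : H ≤ A0 ^ 2 := by
    refine hHA.trans ?_
    rw [Real.rpow_two]
    exact pow_le_pow_left₀ (by linarith) hAA 2
  have hA' : 0 ≤ A := by linarith
  have hH' : 0 ≤ H := by linarith
  gcongr

/-- powers of `X` and `A` in the centre -/
theorem X_le {X A κ : ℝ} (hX : 1 ≤ X) (_hA : 1 ≤ A) (_hκ0 : 0 < κ) (hκ : κ ≤ 1 / 100)
    (h : X ^ (1 / 2 - κ) ≤ 2 * A) : X ≤ (2 * A) ^ (3 : ℝ) := by
  have hX0 : 0 < X := by linarith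
  calc X ≤ (X ^ (1 / 2 - κ)) ^ (3 : ℝ) := by
        rw [← Real.rpow_mul hX0.le]
        conv_lhs => rw [← Real.rpow_one X]
        exact rle hX (by linarith)
    _ ≤ (2 * A) ^ (3 : ℝ) := Real.rpow_le_rpow (by positivity) h (by norm_num)

/-- the exponents of the large value term -/
theorem big_exp {X A C κ θ e nb T : ℝ} (hX : 3 ≤ X) (hA : 1 ≤ A) (hκ0 : 0 < κ)
    (hκ : κ ≤ 1 / 100) (h : X ^ (1 / 2 - κ) ≤ 2 * A) (hθ0 : 0 < θ) (hθ1 : θ ≤ 1) (he : e = θ / 40)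
    (hC : 0 ≤ C) (hnb0 : 0 ≤ nb) (hnb : nb ≤ 3 * X ^ e)
    (hT : 0 ≤ T) :
    (1 + Real.log (2 * A)) ^ 3 *
      (nb * (128 ^ 2 * (C * Real.log X ^ 2 * A ^ (2 - θ)) * T) / (2 * A) ^ 2) ≤
      ((1 + 1 / e) ^ 3 * (3 * 128 ^ 2 * C * (1 / e) ^ 2 * 2)) * (T * A ^ (-e)) := by
  have he0 : 0 < e := by rw [he]; positivity
  have hA0 : 0 < A := by linarith
  have h2A : 1 ≤ 2 * A := by linarith
  have h2A0 : 0 < 2 * A := by linarith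
  have hX1 : 1 ≤ X := by linarith
  have hX0 : 0 < X := by linarith
  have hXA := X_le hX1 hA hκ0 hκ h
  have hXe : X ^ e ≤ (2 * A) ^ (3 * e) := by
    rw [Real.rpow_mul h2A0.le]
    exact Real.rpow_le_rpow hX0.le hXA he0.le
  have hlog0 : 0 ≤ Real.log X := Real.log_nonneg hX1
  have hlog : Real.log X ^ 2 ≤ (1 / e) ^ 2 * (2 * A) ^ (6 * e) := by
    have e1 : Real.log X ≤ (1 / e) * (2 * A) ^ (3 * e) := by
      calc Real.log X ≤ X ^ e / e := Real.log_le_rpow_div hX0.le he0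
        _ = (1 / e) * X ^ e := by ring
        _ ≤ (1 / e) * (2 * A) ^ (3 * e) := mul_le_mul_of_nonneg_left hXe (by positivity)
    calc Real.log X ^ 2 ≤ ((1 / e) * (2 * A) ^ (3 * e)) ^ 2 := pow_le_pow_left₀ hlog0 e1 2
      _ = (1 / e) ^ 2 * (2 * A) ^ (6 * e) := by
          rw [mul_pow, ← Real.rpow_natCast ((2 * A) ^ (3 * e)), ← Real.rpow_mul h2A0.le]
          congr 2; push_cast; ring
  have hcube : (1 + Real.log (2 * A)) ^ 3 ≤ (1 + 1 / e) ^ 3 * (2 * A) ^ (3 * e) := by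
    refine (NC.log_cube_le h2A he0).trans (le_of_eq ?_)
    rw [← Real.rpow_natCast ((2 * A) ^ e), ← Real.rpow_mul h2A0.le]
    congr 2; push_cast; ring
  have hnb2 : nb ≤ 3 * (2 * A) ^ (3 * e) := hnb.trans (by linarith)
  have hpow : A ^ (2 - θ) / (2 * A) ^ 2 ≤ A ^ (-θ) := by
    rw [div_le_iff₀ (by positivity)]
    have e1 : A ^ (2 - θ) = A ^ (-θ) * A ^ 2 := by
      rw [← Real.rpow_two, ← Real.rpow_add hA0]; congr 1; ring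
    rw [e1]
    apply mul_le_mul_of_nonneg_left _ (by positivity)
    nlinarith
  have hfin : (2 * A) ^ (12 * e) * A ^ (-θ) ≤ 2 * A ^ (-e) := by
    rw [Real.mul_rpow (by norm_num) hA0.le, mul_assoc, ← Real.rpow_add hA0]
    apply mul_le_mul _ _ (by positivity) (by norm_num)
    · calc (2 : ℝ) ^ (12 * e) ≤ 2 ^ (1 : ℝ) :=
            Real.rpow_le_rpow_of_exponent_le (by norm_num) (by rw [he]; linarith)
        _ = 2 := by norm_num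
    · exact rle hA (by rw [he]; linarith)
  have hlog3 : 0 ≤ Real.log (2 * A) := Real.log_nonneg h2A
  calc (1 + Real.log (2 * A)) ^ 3 *
      (nb * (128 ^ 2 * (C * Real.log X ^ 2 * A ^ (2 - θ)) * T) / (2 * A) ^ 2)
      = (1 + Real.log (2 * A)) ^ 3 * nb * (128 ^ 2 * C * Real.log X ^ 2 * T) *
        (A ^ (2 - θ) / (2 * A) ^ 2) := by ring
    _ ≤ ((1 + 1 / e) ^ 3 * (2 * A) ^ (3 * e)) * (3 * (2 * A) ^ (3 * e)) *
        (128 ^ 2 * C * ((1 / e) ^ 2 * (2 * A) ^ (6 * e)) * T) * A ^ (-θ) := by gcongr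
    _ = ((1 + 1 / e) ^ 3 * (3 * 128 ^ 2 * C * (1 / e) ^ 2)) * T *
        (((2 * A) ^ (3 * e) * (2 * A) ^ (3 * e) * (2 * A) ^ (6 * e)) * A ^ (-θ)) := by ring
    _ = ((1 + 1 / e) ^ 3 * (3 * 128 ^ 2 * C * (1 / e) ^ 2)) * T *
        ((2 * A) ^ (12 * e) * A ^ (-θ)) := by
        rw [← Real.rpow_add h2A0, ← Real.rpow_add h2A0]
        congr 3; ring
    _ ≤ ((1 + 1 / e) ^ 3 * (3 * 128 ^ 2 * C * (1 / e) ^ 2)) * T * (2 * A ^ (-e)) :=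
        mul_le_mul_of_nonneg_left hfin (by positivity)
    _ = _ := by ring

end Vale.Agent.P006.LVC
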