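import Vale.Agent.P006.LVC.Power

/-!
# P006, block LV-C, part 2: the theorem CEN2 (family K₁ ~ K₂ ~ B^{1/3})
-/

namespace Vale.Agent.P006.LVC

open Finset

/-- number of pairs with bounded product -/
theorem card_pairs_le {ε : ℝ} (hε : 0 < ε) :
    ∃ C : ℝ, 1 ≤ C ∧ ∀ Q : ℝ, 1 ≤ Q → ∀ P : Finset (O × O),
      (∀ p ∈ P, Primary p.1 ∧ Primary p.2 ∧ (N (p.1 * p.2) : ℝ) ≤ Q) →
      (P.card : ℝ) ≤ C * Q ^ (1 + ε) := by
  obtain ⟨C1, hC1, hC⟩ := exists_tau_le hε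
  refine ⟨4 * C1, by linarith, ?_⟩
  intro Q hQ P hP
  have hQ0 : 0 < Q := by linarith
  have hmap : Set.MapsTo (fun p : O × O => p.1 * p.2) (P : Set (O × O)) (PB Q) := by
    intro p hp
    obtain ⟨h1, h2, h3⟩ := hP p (mem_coe.1 hp)
    rw [mem_coe, mem_PB]
    exact ⟨h1.mul h2, h3⟩
  have h1 := Finset.card_eq_sum_card_fiberwise hmap
  have h2 : ∀ m ∈ PB Q, (((P.filter (fun p => p.1 * p.2 = m)).card : ℕ) : ℝ) ≤ C1 * Q ^ ε := by
    intro m hm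
    rw [mem_PB] at hm
    have h3 : (P.filter (fun p => p.1 * p.2 = m)).card ≤ tau m := by
      unfold tau
      refine card_le_card_of_injOn (fun p => p.1) ?_ ?_
      · intro p hp
        rw [mem_coe, mem_filter] at hp
        rw [mem_coe, mem_dvs hm.1.ne_zero]
        exact ⟨(hP p hp.1).1, ⟨p.2, hp.2.symm⟩⟩
      · intro p hp q hq hpq
        rw [mem_coe, mem_filter] at hp hq
        have h4 : p.1 = q.1 := hpq
        have h5 : p.1 * p.2 = p.1 * q.2 := by rw [hp.2, h4, hq.2]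
        exact Prod.ext h4 (mul_left_cancel₀ (hP p hp.1).1.ne_zero h5)
    calc (((P.filter (fun p => p.1 * p.2 = m)).card : ℕ) : ℝ) ≤ (tau m : ℝ) := by exact_mod_cast h3
      _ ≤ C1 * (N m : ℝ) ^ ε := hC m hm.1
      _ ≤ C1 * Q ^ ε := by
          apply mul_le_mul_of_nonneg_left _ (by linarith)
          exact Real.rpow_le_rpow (Nat.cast_nonneg _) hm.2 hε.le
  calc (P.card : ℝ) = ∑ m ∈ PB Q, (((P.filter (fun p => p.1 * p.2 = m)).card : ℕ) : ℝ) := by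
        rw [h1]; push_cast; rfl
    _ ≤ ∑ m ∈ PB Q, C1 * Q ^ ε := sum_le_sum h2
    _ = ((PB Q).card : ℝ) * (C1 * Q ^ ε) := by rw [sum_const, nsmul_eq_mul]
    _ ≤ (4 * Q) * (C1 * Q ^ ε) :=
        mul_le_mul_of_nonneg_right (card_PB_le hQ0.le) (by positivity)
    _ = 4 * C1 * Q ^ (1 + ε) := by rw [Real.rpow_add hQ0, Real.rpow_one]; ring


/-- exponent bookkeeping -/
theorem exp1 {η1 η : ℝ} (h0 : 0 < η1) (h1 : η1 ≤ 1 / 96) (h2 : η = η1 / 2) :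
    (2 / 3 + η) * (1 + η) + 2 * (5 / 6 - η1) ≤ 7 / 3 - η := by
  subst h2
  nlinarith

theorem exp2 {d' η1 η m : ℝ} (h0 : 0 < d') (h3 : d' ≤ 1 / 4) (h1 : η1 = d' / 24) (h2 : η = η1 / 2)
    (hm2 : m ≤ 2 - d') :
    2 * (5 / 6 - η1) * (1 - m) + m + (m + η) ≤ 7 / 3 - η := by
  have h4 : 2 * (5 / 6 - η1) * (1 - m) + m + (m + η) =
      2 * (5 / 6 - η1) + m * (1 / 3 + 2 * η1) + η := by ring
  have h5 : m * (1 / 3 + 2 * η1) ≤ (2 - d') * (1 / 3 + 2 * η1) :=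
    mul_le_mul_of_nonneg_right hm2 (by rw [h1]; positivity)
  rw [h4]
  subst h2 h1
  nlinarith

theorem exp3 {d' η1 η m : ℝ} (h0 : 0 < d') (h3 : d' ≤ 1 / 4) (h1 : η1 = d' / 24) (h2 : η = η1 / 2)
    (hm1 : 1 + d' ≤ m) :
    2 * (5 / 6 - η1) * (1 - m) + (4 / 3 + 2 * η) + (m + η) ≤ 7 / 3 - η := by
  have h4 : 2 * (5 / 6 - η1) * (1 - m) + (4 / 3 + 2 * η) + (m + η) =
      2 * (5 / 6 - η1) + 4 / 3 - m * (2 / 3 - 2 * η1) + 3 * η := by ring
  have h5 : (1 + d') * (2 / 3 - 2 * η1) ≤ m * (2 / 3 - 2 * η1) :=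
    mul_le_mul_of_nonneg_right hm1 (by rw [h1]; linarith)
  rw [h4]
  subst h2 h1
  nlinarith

/-- splitting at the threshold `V` -/
theorem rpow_split {G V y : ℝ} (hG : 0 ≤ G) (hV : 0 < V) (hy : 0 < y) (j : ℕ)
    (hj : 1 ≤ (j : ℝ) * y) :
    G ^ (2 / y) ≤ V ^ (2 / y) + V ^ (2 / y - 2 * j) * G ^ (2 * j) := by
  rcases le_or_gt G V with h | h
  · have h1 : G ^ (2 / y) ≤ V ^ (2 / y) := Real.rpow_le_rpow hG h (by positivity)
    have h2 : 0 ≤ V ^ (2 / y - 2 * j) * G ^ (2 * j) := by positivity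
    linarith
  · have hGp : 0 < G := hV.trans h
    have h1 : G ^ (2 / y) = G ^ (2 / y - 2 * j) * G ^ (2 * j) := by
      rw [← Real.rpow_natCast G (2 * j), ← Real.rpow_add hGp]
      congr 1
      push_cast
      ring
    have h2 : G ^ (2 / y - 2 * j) ≤ V ^ (2 / y - 2 * j) := by
      apply Real.rpow_le_rpow_of_nonpos hV h.le
      have h3 : 2 / y * y ≤ 2 * j * y := by
        have : 2 / y * y = 2 := by field_simp
        rw [this]
        linarith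
      have h4 := le_of_mul_le_mul_right h3 hy
      linarith
    have h3 : 0 ≤ V ^ (2 / y) := by positivity
    rw [h1]
    have h4 : 0 ≤ G ^ (2 * j) := by positivity
    have h5 := mul_le_mul_of_nonneg_right h2 h4
    linarith

/-- choice of the power -/
theorem exists_power {d y : ℝ} (hd : 0 < d) (hy1 : d ≤ y) (hy2 : y ≤ 1 - d) :
    1 + d / 2 ≤ (⌈(1 + d / 2) / y⌉₊ : ℝ) * y ∧ (⌈(1 + d / 2) / y⌉₊ : ℝ) * y ≤ 2 - d / 2 ∧
      ⌈(1 + d / 2) / y⌉₊ ≤ ⌈2 / d⌉₊ + 2 := by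
  have hy0 : 0 < y := by linarith
  refine ⟨?_, ?_, ?_⟩
  · have := Nat.le_ceil ((1 + d / 2) / y)
    calc 1 + d / 2 = (1 + d / 2) / y * y := by field_simp
      _ ≤ _ := mul_le_mul_of_nonneg_right this hy0.le
  · have h1 := Nat.ceil_lt_add_one (show 0 ≤ (1 + d / 2) / y by positivity)
    have h2 := mul_lt_mul_of_pos_right h1 hy0
    have h3 : ((1 + d / 2) / y + 1) * y = 1 + d / 2 + y := by field_simp
    rw [h3] at h2
    linarith
  · apply Nat.ceil_le.2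
    push_cast
    have h1 := Nat.le_ceil (2 / d)
    have h2 : (1 + d / 2) / y ≤ 2 / d := by
      rw [div_le_div_iff₀ hy0 hd]
      nlinarith
    linarith

/-- **CEN2**: moments of character sums over pairs `(k₁, k₂)` with `N(k₁ k₂) ≤ B^{2/3+η}`. -/
theorem cen2 {d : ℝ} (hd : 0 < d) (hd1 : d ≤ 1 / 2) :
    ∃ η : ℝ, 0 < η ∧ ∃ C : ℝ, 1 ≤ C ∧ ∀ (B y : ℝ), 1 ≤ B → d ≤ y → y ≤ 1 - d →
      ∀ (P : Finset (O × O)),
      (∀ p ∈ P, Primary p.1 ∧ Primary p.2 ∧ Squarefree (p.1 * p.2) ∧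
        (N (p.1 * p.2) : ℝ) ≤ B ^ (2 / 3 + η)) →
      ∀ (S : Finset O), (∀ n ∈ S, Primary n ∧ (N n : ℝ) ≤ B ^ y) →
      ∀ (a : O → ℂ), (∀ n, ‖a n‖ ≤ 1) →
      ∑ p ∈ P, ‖∑ n ∈ S, a n * psi2 p n‖ ^ (2 / y) ≤ C * B ^ (7 / 3 - η) := by
  set d' : ℝ := d / 2 with hd'
  set η1 : ℝ := d' / 24 with hη1
  set η : ℝ := η1 / 2 with hη
  have hd'0 : 0 < d' := by positivity
  have hη10 : 0 < η1 := by positivity
  have hη0 : 0 < η := by positivity
  have hd'4 : d' ≤ 1 / 4 := by rw [hd']; linarith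
  have hη_le : η ≤ 1 / 192 := by rw [hη, hη1]; linarith
  choose Cm hCm1 hCm using fun j : ℕ => moment j hη0
  obtain ⟨Cp, hCp1, hCp⟩ := card_pairs_le hη0
  set J : ℕ := ⌈2 / d⌉₊ + 2 with hJ
  set CJ : ℝ := ∑ j ∈ range (J + 1), Cm j with hCJ
  have hCJle : ∀ j ≤ J, Cm j ≤ CJ := by
    intro j hj
    exact single_le_sum (f := Cm) (fun i _ => by linarith [hCm1 i]) (mem_range.2 (by omega))
  have hCJ1 : 1 ≤ CJ := (hCm1 0).trans (hCJle 0 (by omega))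
  refine ⟨η, hη0, Cp + 2 * CJ, by linarith, ?_⟩
  intro B y hB hy1 hy2 P hP S hS a ha
  have hB0 : 0 < B := by linarith
  have hy0 : 0 < y := by linarith
  set Q : ℝ := B ^ (2 / 3 + η) with hQ
  have hQ1 : 1 ≤ Q := Real.one_le_rpow hB (by positivity)
  set Y : ℝ := B ^ y with hY
  have hY1 : 1 ≤ Y := Real.one_le_rpow hB hy0.le
  set σ : ℝ := 5 / 6 - η1 with hσ
  set V : ℝ := B ^ (y * σ) with hV
  have hV0 : 0 < V := by positivity
  set j : ℕ := ⌈(1 + d') / y⌉₊ with hj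
  set m : ℝ := j * y with hm
  obtain ⟨hm1', hm2', hjJ⟩ := exists_power hd hy1 hy2
  have hm1 : 1 + d' ≤ m := hm1'
  have hm2 : m ≤ 2 - d' := hm2'
  set G : O × O → ℝ := fun p => ‖∑ n ∈ S, a n * psi2 p n‖ with hG
  have hG0 : ∀ p, 0 ≤ G p := fun p => norm_nonneg _
  -- pointwise bound
  have hpt : ∀ p ∈ P, G p ^ (2 / y) ≤
      V ^ (2 / y) + V ^ (2 / y - 2 * j) * G p ^ (2 * j) :=
    fun p _ => rpow_split (hG0 p) hV0 hy0 j (by linarith)
  have hmom := hCm j Y Q hY1 hQ1 P hP S hS a ha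
  have hcard := hCp Q hQ1 P (fun p hp => ⟨(hP p hp).1, (hP p hp).2.1, (hP p hp).2.2.2⟩)
  -- exponents
  have e1 : Cp * Q ^ (1 + η) * V ^ (2 / y) ≤ Cp * B ^ (7 / 3 - η) := by
    rw [mul_assoc]
    apply mul_le_mul_of_nonneg_left _ (by linarith)
    rw [hQ, hV, ← Real.rpow_mul hB0.le, ← Real.rpow_mul hB0.le, ← Real.rpow_add hB0]
    apply Real.rpow_le_rpow_of_exponent_le hB
    have h1 : y * σ * (2 / y) = 2 * σ := by field_simp
    rw [h1, hσ]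
    exact exp1 hη10 (by rw [hη1]; linarith) hη
  have hVexp : V ^ (2 / y - 2 * j) = B ^ (2 * σ * (1 - m)) := by
    rw [hV, ← Real.rpow_mul hB0.le]
    congr 1
    rw [hm]
    field_simp
  have hYj : Y ^ (j : ℝ) = B ^ m := by
    rw [hY, ← Real.rpow_mul hB0.le, hm]; congr 1; ring
  have hYj2 : Y ^ ((j : ℝ) + η) ≤ B ^ (m + η) := by
    rw [hY, ← Real.rpow_mul hB0.le]
    apply Real.rpow_le_rpow_of_exponent_le hB
    rw [hm]
    have : y * η ≤ 1 * η := mul_le_mul_of_nonneg_right (by linarith) hη0.le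
    linarith
  have e2 : V ^ (2 / y - 2 * j) * (Cm j * ((Y ^ (j : ℝ) + Q ^ 2) * Y ^ ((j : ℝ) + η))) ≤
      2 * CJ * B ^ (7 / 3 - η) := by
    have hCj := hCJle j hjJ
    have hQ2 : Q ^ 2 = B ^ (4 / 3 + 2 * η) := by
      rw [hQ, ← Real.rpow_natCast, ← Real.rpow_mul hB0.le]; congr 1; push_cast; ring
    rw [hVexp, hYj, hQ2]
    have h1 : B ^ (2 * σ * (1 - m)) * B ^ m * B ^ (m + η) ≤ B ^ (7 / 3 - η) := by
      rw [← Real.rpow_add hB0, ← Real.rpow_add hB0]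
      apply Real.rpow_le_rpow_of_exponent_le hB
      rw [hσ]
      exact exp2 hd'0 hd'4 hη1 hη hm2
    have h2 : B ^ (2 * σ * (1 - m)) * B ^ (4 / 3 + 2 * η) * B ^ (m + η) ≤ B ^ (7 / 3 - η) := by
      rw [← Real.rpow_add hB0, ← Real.rpow_add hB0]
      apply Real.rpow_le_rpow_of_exponent_le hB
      rw [hσ]
      exact exp3 hd'0 hd'4 hη1 hη hm1
    have h3 : 0 < B ^ (2 * σ * (1 - m)) := by positivity
    have h4 : 0 < B ^ m := by positivity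
    have h5 : 0 < B ^ (4 / 3 + 2 * η) := by positivity
    have h6 : 0 < B ^ (7 / 3 - η) := by positivity
    calc B ^ (2 * σ * (1 - m)) * (Cm j * ((B ^ m + B ^ (4 / 3 + 2 * η)) * Y ^ ((j : ℝ) + η)))
        ≤ B ^ (2 * σ * (1 - m)) * (CJ * ((B ^ m + B ^ (4 / 3 + 2 * η)) * B ^ (m + η))) := by
          apply mul_le_mul_of_nonneg_left _ h3.le
          apply mul_le_mul hCj _ (by positivity) (by linarith)
          exact mul_le_mul_of_nonneg_left hYj2 (by positivity)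
      _ = CJ * (B ^ (2 * σ * (1 - m)) * B ^ m * B ^ (m + η) +
            B ^ (2 * σ * (1 - m)) * B ^ (4 / 3 + 2 * η) * B ^ (m + η)) := by ring
      _ ≤ CJ * (B ^ (7 / 3 - η) + B ^ (7 / 3 - η)) := by
          apply mul_le_mul_of_nonneg_left _ (by linarith)
          linarith
      _ = _ := by ring
  calc ∑ p ∈ P, G p ^ (2 / y)
      ≤ ∑ p ∈ P, (V ^ (2 / y) + V ^ (2 / y - 2 * j) * G p ^ (2 * j)) := sum_le_sum hpt
    _ = (P.card : ℝ) * V ^ (2 / y) + V ^ (2 / y - 2 * j) * ∑ p ∈ P, G p ^ (2 * j) := by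
        rw [sum_add_distrib, sum_const, nsmul_eq_mul, mul_sum]
    _ ≤ Cp * Q ^ (1 + η) * V ^ (2 / y) +
          V ^ (2 / y - 2 * j) * (Cm j * ((Y ^ (j : ℝ) + Q ^ 2) * Y ^ ((j : ℝ) + η))) := by
        apply add_le_add
        · exact mul_le_mul_of_nonneg_right hcard (by positivity)
        · exact mul_le_mul_of_nonneg_left hmom (by positivity)
    _ ≤ Cp * B ^ (7 / 3 - η) + 2 * CJ * B ^ (7 / 3 - η) := add_le_add e1 e2
    _ = _ := by ring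

end Vale.Agent.P006.LVC
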