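import Vale.Agent.P006.LVC.SepL2

/-!
# P006, block LV-C, part 8: bilinear sums with the condition `N m N l ≤ Y`
-/

namespace Vale.Agent.P006.LVC

open Finset

/-- the bilinear sum with a condition on the product of the norms -/
noncomputable def BL (S1 S2 : Finset O) (a b : O → ℂ) (Y : ℕ) (p : O × O) : ℂ :=
  ∑ s ∈ S1 ×ˢ S2, if N s.1 * N s.2 ≤ Y then a s.1 * b s.2 * psi2 p (s.1 * s.2) else 0

theorem bil_box {S1 S2 : Finset O} (T : Finset (O × O)) {D : ℝ} (hD0 : 0 ≤ D) (L : ℕ)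
    (h1 : ∀ n ∈ S1, n ≠ 0) (h2 : ∀ n ∈ S2, N n < 2 ^ L)
    (hD : ∀ a b : O → ℂ, (∀ n, ‖a n‖ ≤ 1) → (∀ n, ‖b n‖ ≤ 1) → ∑ p ∈ T, pf S1 S2 a b p ≤ D)
    (a b : O → ℂ) (ha : ∀ n, ‖a n‖ ≤ 1) (hb : ∀ n, ‖b n‖ ≤ 1) (Y : ℕ) :
    ∑ p ∈ T, ‖BL S1 S2 a b Y p‖ ^ 2 ≤ ((L : ℝ) + 1) ^ 2 * D := by
  classical
  set j : O × O → ℕ := fun s => min (Y / N s.1) (2 ^ L - 1) + 1 with hj
  set i : O × O → ℕ := fun s => N s.2 with hi
  have hpos : 0 < 2 ^ L := by positivity
  have hsucc : 2 ^ (L + 1) = 2 * 2 ^ L := by rw [pow_succ]; ring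
  have hij : ∀ s ∈ S1 ×ˢ S2, i s < 2 ^ (L + 1) ∧ j s < 2 ^ (L + 1) := by
    intro s hs
    rw [mem_product] at hs
    have e1 := h2 s.2 hs.2
    have e2 := min_le_right (Y / N s.1) (2 ^ L - 1)
    simp only [hi, hj]
    constructor <;> omega
  have hcond : ∀ s ∈ S1 ×ˢ S2, (i s < j s ↔ N s.1 * N s.2 ≤ Y) := by
    intro s hs
    rw [mem_product] at hs
    have e1 := h2 s.2 hs.2
    have e0 : 0 < N s.1 := N_pos (h1 s.1 hs.1)
    simp only [hi, hj]
    rw [Nat.lt_succ_iff, le_min_iff, Nat.le_div_iff_mul_le e0, mul_comm]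
    constructor
    · exact fun h => h.1
    · exact fun h => ⟨h, by omega⟩
  have hmain := sepL2 (S1 ×ˢ S2) T (fun p s => a s.1 * b s.2 * psi2 p (s.1 * s.2)) hD0 (L + 1)
    i j hij (by
      intro u v hu hv
      refine le_trans (le_of_eq (sum_congr rfl (fun p _ => ?_))) (hD
        (fun n => a n * v (min (Y / N n) (2 ^ L - 1) + 1)) (fun n => b n * u (N n))
        (fun n => by rw [norm_mul]; exact mul_le_one₀ (ha n) (norm_nonneg _) (hv _))
        (fun n => by rw [norm_mul]; exact mul_le_one₀ (hb n) (norm_nonneg _) (hu _)))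
      unfold pf
      rw [← norm_mul, sum_mul_sum, ← sum_product']
      congr 2
      refine sum_congr rfl (fun s _ => ?_)
      simp only [hi, hj]
      rw [map_mul]; ring)
  push_cast at hmain
  refine le_trans (le_of_eq (sum_congr rfl (fun p _ => ?_))) hmain
  unfold BL
  congr 2
  refine sum_congr rfl (fun s hs => ?_)
  by_cases hc : i s < j s
  · rw [if_pos hc, if_pos ((hcond s hs).1 hc)]
  · rw [if_neg hc, if_neg (fun h => hc ((hcond s hs).2 h))]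

end Vale.Agent.P006.LVC
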