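import Vale.Agent.P006.LVC.LvB1
import Vale.Agent.P006.LVC.Total

/-!
# P006, block LV-C, part 9: the terms `l ∣ m` of the products
-/

namespace Vale.Agent.P006.LVC

open Finset

/-- LS4 over pairs -/
theorem ls4_pairs {C ε : ℝ} (h : LS4At C ε) (hC : 0 ≤ C) (hε : 0 ≤ ε) {H M : ℝ} (hH : 1 ≤ H)
    (hM : 1 ≤ M) (T : Finset (O × O))
    (hT : ∀ p ∈ T, Primary p.1 ∧ Primary p.2 ∧ Squarefree (p.1 * p.2) ∧
      (N p.1 : ℝ) * (N p.2 : ℝ) ^ 2 ≤ H) (c : O → ℂ) (hc : ∀ n ∈ PB M, ‖c n‖ ≤ 1) :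
    ∑ p ∈ T, ‖∑ n ∈ PB M, c n * psi2 p n‖ ^ 2 ≤
      C * (H * M) ^ ε * (4 * H ^ (1 / 2 : ℝ) * M ^ 2 + 8 * (H * M) +
        16 * (H ^ (2 / 3 : ℝ) * M ^ (5 / 3 : ℝ))) := by
  classical
  have hH0 : 0 < H := by linarith
  have hM0 : 0 < M := by linarith
  have hsq : 0 < H ^ (1 / 2 : ℝ) := by positivity
  have hcover := sum_pairs_le_snd T (fun p => ‖∑ n ∈ PB M, c n * psi2 p n‖ ^ 2)
    (fun p => by positivity) (SPB (H ^ (1 / 2 : ℝ))) (fun k => SPB (H / (N k : ℝ) ^ 2)) (by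
      intro p hp
      obtain ⟨h1, h2, h3, h4⟩ := hT p hp
      rw [squarefree_mul_iff] at h3
      have hk1 : (1 : ℝ) ≤ N p.2 := h2.one_le_N'
      have hk0 : (0 : ℝ) < N p.2 := by linarith
      have hk2 : (1 : ℝ) ≤ N p.1 := h1.one_le_N'
      rw [mem_SPB, mem_SPB]
      refine ⟨⟨⟨h2, ?_⟩, h3.2.2⟩, ⟨⟨h1, ?_⟩, h3.2.1⟩⟩
      · rw [← Real.sqrt_eq_rpow]
        apply Real.le_sqrt_of_sq_le
        refine le_trans ?_ h4
        exact le_mul_of_one_le_left (by positivity) hk2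
      · rw [le_div_iff₀ (by positivity)]; exact h4)
  refine hcover.trans ?_
  have hstep : ∀ k ∈ SPB (H ^ (1 / 2 : ℝ)),
      ∑ l ∈ SPB (H / (N k : ℝ) ^ 2), ‖∑ n ∈ PB M, c n * psi2 (l, k) n‖ ^ 2 ≤
      C * (H * M) ^ ε * (M ^ 2 + H * M * (N k : ℝ) ^ (-2 : ℝ) +
        H ^ (2 / 3 : ℝ) * M ^ (5 / 3 : ℝ) * (N k : ℝ) ^ (-(4 / 3) : ℝ)) := by
    intro k hk
    rw [mem_SPB] at hk
    have hk1 : (1 : ℝ) ≤ N k := hk.1.1.one_le_N'
    have hk0 : (0 : ℝ) < N k := by linarith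
    have hk2 : (N k : ℝ) ^ 2 ≤ H := by
      calc (N k : ℝ) ^ 2 ≤ (H ^ (1 / 2 : ℝ)) ^ 2 := pow_le_pow_left₀ hk0.le hk.1.2 2
        _ = H := by rw [← Real.rpow_natCast, ← Real.rpow_mul hH0.le]; norm_num
    set K : ℝ := H / (N k : ℝ) ^ 2 with hK
    have hK1 : 1 ≤ K := by rw [hK, one_le_div (by positivity)]; exact hk2
    have hKH : K ≤ H := div_le_self hH0.le (one_le_pow₀ hk1)
    have h1 := ls4_snd (fun c' hc' => h K M hK1 hM c' hc') one_pos c hc k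
    refine h1.trans ?_
    have hN2 : ((N k : ℝ) ^ 2) = (N k : ℝ) ^ (2 : ℝ) := by norm_num
    have h3 : K * M = H * M * (N k : ℝ) ^ (-2 : ℝ) := by
      rw [hK, hN2, Real.rpow_neg hk0.le]; field_simp
    have h4 : K ^ (2 / 3 : ℝ) * M ^ (5 / 3 : ℝ) =
        H ^ (2 / 3 : ℝ) * M ^ (5 / 3 : ℝ) * (N k : ℝ) ^ (-(4 / 3) : ℝ) := by
      rw [hK, hN2, Real.div_rpow hH0.le (by positivity), ← Real.rpow_mul hk0.le,
        Real.rpow_neg hk0.le]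
      norm_num
      field_simp
    have h2 : (K * M) ^ ε ≤ (H * M) ^ ε :=
      Real.rpow_le_rpow (by positivity) (mul_le_mul_of_nonneg_right hKH hM0.le) hε
    have h5 : 0 ≤ M ^ 2 + K * M + K ^ (2 / 3 : ℝ) * M ^ (5 / 3 : ℝ) := by positivity
    rw [← h3, ← h4, one_pow, one_mul]
    exact mul_le_mul_of_nonneg_right (mul_le_mul_of_nonneg_left h2 hC) h5
  refine (sum_le_sum hstep).trans ?_
  rw [← mul_sum]
  apply mul_le_mul_of_nonneg_left _ (by positivity)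
  rw [sum_add_distrib, sum_add_distrib, sum_const, nsmul_eq_mul, ← mul_sum, ← mul_sum]
  have s1 : ∑ k ∈ SPB (H ^ (1 / 2 : ℝ)), (N k : ℝ) ^ (-2 : ℝ) ≤ 8 := by
    refine (sum_SPB_le_PB _ (fun n => by positivity)).trans ?_
    have := sum_PB_rpow_neg_le' (s := 2) (by norm_num) (H ^ (1 / 2 : ℝ))
    norm_num at this ⊢
    exact this
  have s2 : ∑ k ∈ SPB (H ^ (1 / 2 : ℝ)), (N k : ℝ) ^ (-(4 / 3) : ℝ) ≤ 16 := by
    refine (sum_SPB_le_PB _ (fun n => by positivity)).trans ?_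
    have := sum_PB_rpow_neg_le' (s := 4 / 3) (by norm_num) (H ^ (1 / 2 : ℝ))
    norm_num at this ⊢
    exact this
  have s0 : ((SPB (H ^ (1 / 2 : ℝ))).card : ℝ) ≤ 4 * H ^ (1 / 2 : ℝ) := SPB_card_le hsq.le
  have t0 := mul_le_mul_of_nonneg_right s0 (show 0 ≤ M ^ 2 by positivity)
  have t1 := mul_le_mul_of_nonneg_left s1 (show 0 ≤ H * M by positivity)
  have t2 := mul_le_mul_of_nonneg_left s2
    (show 0 ≤ H ^ (2 / 3 : ℝ) * M ^ (5 / 3 : ℝ) by positivity)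
  linarith

/-- `∑_{l ∈ PB V} 1/N l ≤ C V^ε` -/
theorem sum_inv_le {ε : ℝ} (hε : 0 < ε) {V : ℝ} (hV : 1 ≤ V) :
    ∑ l ∈ PB V, 1 / (N l : ℝ) ≤ 4 * (1 + 1 / ε) * V ^ ε := by
  refine le_trans (le_of_eq (sum_congr rfl (fun l hl => ?_))) (harm_eps hε hV)
  rw [mem_PB] at hl
  have h1 := hl.1.one_le_N'
  have h0 : (0 : ℝ) < N l := by linarith
  rw [← Real.rpow_natCast, ← Real.rpow_mul h0.le]
  norm_num
  rw [Real.rpow_neg_one]

/-- the terms with `l ∣ m` -/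
theorem corr_bound {C ε : ℝ} (h : LS4At C ε) (hC : 0 ≤ C) (hε : 0 < ε) {A H L0 V : ℝ} (hA : 1 ≤ A)
    (hH : 1 ≤ H) (hL0 : 1 ≤ L0) (hV : 1 ≤ V) (T : Finset (O × O))
    (hT : ∀ p ∈ T, Primary p.1 ∧ Primary p.2 ∧ Squarefree (p.1 * p.2) ∧
      (N p.1 : ℝ) * (N p.2 : ℝ) ^ 2 ≤ H) (S : Finset O)
    (hS : ∀ l ∈ S, l ∈ PB V ∧ L0 ≤ (N l : ℝ)) (e : O → O → ℂ) (he : ∀ l n, ‖e l n‖ ≤ 1) :
    ∑ p ∈ T, ‖∑ l ∈ S, ∑ n ∈ PB (2 * A / (N l : ℝ) ^ 2), e l n * psi2 p n * psi2 p l ^ 2‖ ^ 2 ≤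
      (4 * (1 + 1 / ε) * V ^ ε) ^ 2 * (C * (2 * A * H) ^ ε *
        (16 * (H ^ (1 / 2 : ℝ) * A ^ 2 * L0 ^ (-2 : ℝ)) + 16 * (H * A) +
          64 * (H ^ (2 / 3 : ℝ) * A ^ (5 / 3 : ℝ) * L0 ^ (-(4 / 3) : ℝ)))) := by
  classical
  have hA0 : 0 < A := by linarith
  have hH0 : 0 < H := by linarith
  set E : O → O × O → ℂ := fun l p => ∑ n ∈ PB (2 * A / (N l : ℝ) ^ 2), e l n * psi2 p n with hE
  set X : ℝ := 16 * (H ^ (1 / 2 : ℝ) * A ^ 2 * L0 ^ (-2 : ℝ)) + 16 * (H * A) +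
          64 * (H ^ (2 / 3 : ℝ) * A ^ (5 / 3 : ℝ) * L0 ^ (-(4 / 3) : ℝ)) with hX
  have hX0 : 0 ≤ X := by positivity
  have hCX : 0 ≤ C * (2 * A * H) ^ ε * X := by positivity
  have hN : ∀ l ∈ S, (1 : ℝ) ≤ N l := fun l hl => hL0.trans (hS l hl).2
  -- one `l`
  have hone : ∀ l ∈ S, ∑ p ∈ T, ‖E l p‖ ^ 2 ≤
      C * (2 * A * H) ^ ε * X * (1 / (N l : ℝ) * (1 / (N l : ℝ))) := by
    intro l hl
    have hl1 := hN l hl
    have hl0 : (0 : ℝ) < N l := by linarith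
    have hlL := (hS l hl).2
    set M : ℝ := 2 * A / (N l : ℝ) ^ 2 with hM
    by_cases hM1 : 1 ≤ M
    · have h1 := ls4_pairs h hC hε.le hH hM1 T hT (e l) (fun n _ => he l n)
      refine h1.trans ?_
      have hM0 : 0 < M := by linarith
      have hMA : M ≤ 2 * A := div_le_self (by linarith) (one_le_pow₀ hl1)
      have h2 : (H * M) ^ ε ≤ (2 * A * H) ^ ε := by
        apply Real.rpow_le_rpow (by positivity) _ hε.le
        calc H * M ≤ H * (2 * A) := mul_le_mul_of_nonneg_left hMA hH0.le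
          _ = _ := by ring
      have hinv : (1 / (N l : ℝ) * (1 / (N l : ℝ))) = (N l : ℝ) ^ (-2 : ℝ) := by
        rw [Real.rpow_neg hl0.le]; norm_num
        rw [← mul_inv, sq]
      have h3 : M ^ 2 ≤ 4 * A ^ 2 * L0 ^ (-2 : ℝ) * (N l : ℝ) ^ (-2 : ℝ) := by
        have e1 : M ^ 2 = 4 * A ^ 2 * (N l : ℝ) ^ (-2 : ℝ) * (N l : ℝ) ^ (-2 : ℝ) := by
          rw [hM, Real.rpow_neg hl0.le]; norm_num; field_simp; ring
        rw [e1]
        have e2 : (N l : ℝ) ^ (-2 : ℝ) ≤ L0 ^ (-2 : ℝ) :=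
          Real.rpow_le_rpow_of_nonpos (by linarith) hlL (by norm_num)
        gcongr
      have h4 : H * M = 2 * (H * A) * (N l : ℝ) ^ (-2 : ℝ) := by
        rw [hM, Real.rpow_neg hl0.le]; norm_num; field_simp
      have h5 : M ^ (5 / 3 : ℝ) ≤ 4 * A ^ (5 / 3 : ℝ) * L0 ^ (-(4 / 3) : ℝ) *
          (N l : ℝ) ^ (-2 : ℝ) := by
        have e1 : M ^ (5 / 3 : ℝ) = 2 ^ (5 / 3 : ℝ) * A ^ (5 / 3 : ℝ) *
            ((N l : ℝ) ^ (-(4 / 3) : ℝ) * (N l : ℝ) ^ (-2 : ℝ)) := by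
          rw [hM, Real.div_rpow (by positivity) (by positivity), Real.mul_rpow (by norm_num) hA0.le,
            ← Real.rpow_natCast, ← Real.rpow_mul hl0.le, ← Real.rpow_add hl0,
            div_eq_mul_inv, ← Real.rpow_neg hl0.le]
          congr 2; norm_num
        rw [e1]
        have e2 : (N l : ℝ) ^ (-(4 / 3) : ℝ) ≤ L0 ^ (-(4 / 3) : ℝ) :=
          Real.rpow_le_rpow_of_nonpos (by linarith) hlL (by norm_num)
        have e3 : (2 : ℝ) ^ (5 / 3 : ℝ) ≤ 4 := by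
          calc (2 : ℝ) ^ (5 / 3 : ℝ) ≤ 2 ^ (2 : ℝ) :=
                Real.rpow_le_rpow_of_exponent_le (by norm_num) (by norm_num)
            _ = 4 := by norm_num
        calc 2 ^ (5 / 3 : ℝ) * A ^ (5 / 3 : ℝ) *
            ((N l : ℝ) ^ (-(4 / 3) : ℝ) * (N l : ℝ) ^ (-2 : ℝ))
            ≤ 4 * A ^ (5 / 3 : ℝ) * (L0 ^ (-(4 / 3) : ℝ) * (N l : ℝ) ^ (-2 : ℝ)) := by gcongr
          _ = _ := by ring
      rw [hinv]
      calc C * (H * M) ^ ε * (4 * H ^ (1 / 2 : ℝ) * M ^ 2 + 8 * (H * M) +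
            16 * (H ^ (2 / 3 : ℝ) * M ^ (5 / 3 : ℝ)))
          ≤ C * (2 * A * H) ^ ε * (4 * H ^ (1 / 2 : ℝ) *
            (4 * A ^ 2 * L0 ^ (-2 : ℝ) * (N l : ℝ) ^ (-2 : ℝ)) +
            8 * (2 * (H * A) * (N l : ℝ) ^ (-2 : ℝ)) +
            16 * (H ^ (2 / 3 : ℝ) * (4 * A ^ (5 / 3 : ℝ) * L0 ^ (-(4 / 3) : ℝ) *
          (N l : ℝ) ^ (-2 : ℝ)))) := by
            rw [← h4]
            gcongr
        _ = _ := by rw [hX]; ring
    · have hz : ∀ p, E l p = 0 := by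
        intro p
        rw [hE]
        simp only
        have : PB M = ∅ := by
          rw [eq_empty_iff_forall_notMem]
          intro n hn
          rw [mem_PB] at hn
          exact hM1 (hn.1.one_le_N'.trans hn.2)
        rw [this, sum_empty]
      simp only [hz, norm_zero]
      rw [sum_congr rfl (fun p _ => show (0 : ℝ) ^ 2 = 0 by norm_num), sum_const_zero]
      positivity
  -- weighted Cauchy
  have hcs : ∀ p ∈ T, ‖∑ l ∈ S, ∑ n ∈ PB (2 * A / (N l : ℝ) ^ 2),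
      e l n * psi2 p n * psi2 p l ^ 2‖ ^ 2 ≤
      (∑ l ∈ S, 1 / (N l : ℝ)) * ∑ l ∈ S, (N l : ℝ) * ‖E l p‖ ^ 2 := by
    intro p _
    have e1 : ‖∑ l ∈ S, ∑ n ∈ PB (2 * A / (N l : ℝ) ^ 2),
        e l n * psi2 p n * psi2 p l ^ 2‖ ≤ ∑ l ∈ S, ‖E l p‖ := by
      refine (norm_sum_le _ _).trans (sum_le_sum (fun l _ => ?_))
      rw [← sum_mul, norm_mul, hE]
      apply mul_le_of_le_one_right (norm_nonneg _)
      rw [norm_pow]
      apply pow_le_one₀ (norm_nonneg _)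
      rw [psi2_apply, norm_mul]
      exact mul_le_one₀ (norm_sym_le _ _) (norm_nonneg _) (norm_psi_part _ _)
    have e2 : ∑ l ∈ S, ‖E l p‖ = ∑ l ∈ S, Real.sqrt (1 / (N l : ℝ)) *
        (Real.sqrt (N l) * ‖E l p‖) := by
      refine sum_congr rfl (fun l hl => ?_)
      have hl0 : (0 : ℝ) < N l := by linarith [hN l hl]
      rw [← mul_assoc, ← Real.sqrt_mul (by positivity), one_div_mul_cancel hl0.ne', Real.sqrt_one,
        one_mul]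
    have e3 := sum_mul_sq_le_sq_mul_sq S (fun l => Real.sqrt (1 / (N l : ℝ)))
      (fun l => Real.sqrt (N l) * ‖E l p‖)
    calc _ ≤ (∑ l ∈ S, ‖E l p‖) ^ 2 := pow_le_pow_left₀ (norm_nonneg _) e1 2
      _ = (∑ l ∈ S, Real.sqrt (1 / (N l : ℝ)) * (Real.sqrt (N l) * ‖E l p‖)) ^ 2 := by rw [e2]
      _ ≤ _ := e3
      _ = _ := by
          congr 1
          · exact sum_congr rfl (fun l _ => Real.sq_sqrt (by positivity))
          · exact sum_congr rfl (fun l _ => by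
              rw [mul_pow, Real.sq_sqrt (Nat.cast_nonneg _)])
  have hSsum : ∑ l ∈ S, 1 / (N l : ℝ) ≤ 4 * (1 + 1 / ε) * V ^ ε := by
    refine le_trans ?_ (sum_inv_le hε hV)
    exact sum_le_sum_of_subset_of_nonneg (fun l hl => (hS l hl).1) (fun l _ _ => by positivity)
  have hS0 : 0 ≤ ∑ l ∈ S, 1 / (N l : ℝ) := sum_nonneg (fun l _ => by positivity)
  calc _ ≤ ∑ p ∈ T, (∑ l ∈ S, 1 / (N l : ℝ)) * ∑ l ∈ S, (N l : ℝ) * ‖E l p‖ ^ 2 :=
        sum_le_sum hcs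
    _ = (∑ l ∈ S, 1 / (N l : ℝ)) * ∑ l ∈ S, (N l : ℝ) * ∑ p ∈ T, ‖E l p‖ ^ 2 := by
        rw [← mul_sum, sum_comm]
        congr 1
        exact sum_congr rfl (fun l _ => by rw [mul_sum])
    _ ≤ (∑ l ∈ S, 1 / (N l : ℝ)) * ∑ l ∈ S, (N l : ℝ) *
          (C * (2 * A * H) ^ ε * X * (1 / (N l : ℝ) * (1 / (N l : ℝ)))) := by
        apply mul_le_mul_of_nonneg_left _ hS0
        exact sum_le_sum (fun l hl => mul_le_mul_of_nonneg_left (hone l hl) (Nat.cast_nonneg _))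
    _ = (∑ l ∈ S, 1 / (N l : ℝ)) ^ 2 * (C * (2 * A * H) ^ ε * X) := by
        have e1 : ∀ l ∈ S, (N l : ℝ) *
          (C * (2 * A * H) ^ ε * X * (1 / (N l : ℝ) * (1 / (N l : ℝ)))) =
            (1 / (N l : ℝ)) * (C * (2 * A * H) ^ ε * X) := by
          intro l hl
          have hl0 : (0 : ℝ) < N l := by linarith [hN l hl]
          field_simp
        rw [sum_congr rfl e1, ← sum_mul]; ring
    _ ≤ (4 * (1 + 1 / ε) * V ^ ε) ^ 2 * (C * (2 * A * H) ^ ε * X) := by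
        apply mul_le_mul_of_nonneg_right _ hCX
        exact pow_le_pow_left₀ hS0 hSsum 2

end Vale.Agent.P006.LVC
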