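import Vale.Agent.P006.LVC.LvB2
import Vale.Agent.P006.H103.Reindex

/-!
# P006, block LV-C, part 10: the coefficients of class (B) as products
-/

namespace Vale.Agent.P006.LVC

open Finset

theorem sum_supp_eq {σ M : Type*} [AddCommMonoid M] (s t : Finset σ) (f : σ → M)
    (h1 : ∀ x ∈ s, x ∉ t → f x = 0) (h2 : ∀ x ∈ t, x ∉ s → f x = 0) :
    ∑ x ∈ s, f x = ∑ x ∈ t, f x := by
  classical
  rw [← sum_subset (inter_subset_left : s ∩ t ⊆ s) (fun x hx hx' => h1 x hx (fun h => hx'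
      (mem_inter.2 ⟨hx, h⟩))),
    ← sum_subset (inter_subset_right : s ∩ t ⊆ t) (fun x hx hx' => h2 x hx (fun h => hx'
      (mem_inter.2 ⟨h, hx⟩)))]

/-- the data of class (B): `F` on squarefree primary elements of norm `≤ U`, `G` on primary primes
of norm `≤ V` -/
structure BData (U V : ℝ) (F G : O → ℂ) : Prop where
  hF : ∀ m, F m ≠ 0 → m ∈ SPB U
  hG : ∀ l, G l ≠ 0 → l ∈ PP V
  nF : ∀ m, ‖F m‖ ≤ 1
  nG : ∀ l, ‖G l‖ ≤ 1

/-- the coefficient `∑_{l ∣ c} F(c/l) G(l)` -/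
noncomputable def cB (F G : O → ℂ) (c : O) : ℂ := ∑ l ∈ dvs c, F (c / l) * G l

theorem sqf_iff {l m : O} (hl : Prime l) (hm : Squarefree m) : Squarefree (l * m) ↔ ¬ l ∣ m := by
  constructor
  · intro h h'
    exact hl.not_isUnit (h l (mul_dvd_mul_left l h'))
  · exact squarefree_prime_mul hl hm

open Classical in
/-- reindexing of a class (B) sum -/
theorem classB_reindex {U V X : ℝ} {F G : O → ℂ} (h : BData U V F G) (φ : O → ℂ)
    (hφ : ∀ c, X < (N c : ℝ) → φ c = 0) :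
    ∑ c ∈ SPB X, cB F G c * φ c =
      ∑ l ∈ PP V, ∑ m ∈ SPB U, (if l ∣ m then 0 else F m * G l * φ (l * m)) := by
  have h1 : ∑ c ∈ SPB X, cB F G c * φ c =
      ∑ c ∈ PB X, ∑ l ∈ dvs c, (if Squarefree c then F (c / l) * G l * φ c else 0) := by
    rw [show SPB X = (PB X).filter Squarefree from rfl, sum_filter]
    refine sum_congr rfl (fun c _ => ?_)
    split_ifs
    · rw [cB, sum_mul]
    · simp
  rw [h1, VR.sum_dvs_reindex]
  have hz : ∀ l m, ¬ (l ∈ PP V ∧ m ∈ SPB U ∧ (N (l * m) : ℝ) ≤ X) →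
      F m * G l * φ (l * m) = 0 := by
    intro l m hn
    by_cases e1 : F m = 0
    · simp [e1]
    by_cases e2 : G l = 0
    · simp [e2]
    have e3 : ¬ (N (l * m) : ℝ) ≤ X := fun h3 => hn ⟨h.hG l e2, h.hF m e1, h3⟩
    rw [hφ _ (not_le.1 e3), mul_zero]
  have h2 : ∀ l ∈ PB X, ∑ m ∈ PB (X / N l), (if Squarefree (l * m) then
        F (l * m / l) * G l * φ (l * m) else 0) =
      ∑ m ∈ SPB U, (if Squarefree (l * m) then F m * G l * φ (l * m) else 0) := by
    intro l hl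
    rw [mem_PB] at hl
    have e0 : ∀ m, l * m / l = m := fun m => VR.mul_div_left hl.1.ne_zero
    simp only [e0]
    apply sum_supp_eq
    · intro m _ hm'
      split_ifs
      · exact hz l m (fun hh => hm' hh.2.1)
      · rfl
    · intro m hm hm'
      split_ifs
      · refine hz l m (fun hh => hm' ?_)
        rw [VR.mem_PB_div hl.1]
        rw [mem_SPB] at hm
        exact ⟨hm.1.1, hh.2.2⟩
      · rfl
  rw [sum_congr rfl h2]
  have h3 : ∑ l ∈ PB X, ∑ m ∈ SPB U, (if Squarefree (l * m) then F m * G l * φ (l * m) else 0) =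
      ∑ l ∈ PP V, ∑ m ∈ SPB U, (if Squarefree (l * m) then F m * G l * φ (l * m) else 0) := by
    apply sum_supp_eq
    · intro l _ hl'
      refine sum_eq_zero (fun m _ => ?_)
      split_ifs
      · exact hz l m (fun hh => hl' hh.1)
      · rfl
    · intro l hl hl'
      refine sum_eq_zero (fun m hm => ?_)
      split_ifs
      · refine hz l m (fun hh => hl' ?_)
        rw [mem_PP] at hl
        rw [mem_SPB] at hm
        rw [mem_PB]
        refine ⟨hl.1.1, le_trans ?_ hh.2.2⟩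
        rw [N_mul]; push_cast
        have := hm.1.1.one_le_N'
        exact le_mul_of_one_le_right (Nat.cast_nonneg _) this
      · rfl
  rw [h3]
  refine sum_congr rfl (fun l hl => sum_congr rfl (fun m hm => ?_))
  rw [mem_PP] at hl
  rw [mem_SPB] at hm
  simp only [sqf_iff hl.2 hm.2]
  by_cases hd : l ∣ m <;> simp [hd]

/-- the `m` with `2^i ≤ N m < 2^(i+1)` -/
noncomputable def SI (U : ℝ) (i : ℕ) : Finset O := (SPB U).filter (fun m => Nat.log 2 (N m) = i)

/-- the primes with `N l ≤ 2A/2^i` -/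
noncomputable def SJ (V A : ℝ) (i : ℕ) : Finset O :=
  (PP V).filter (fun l => (N l : ℝ) ≤ 2 * A / 2 ^ i)

theorem mem_SI {U : ℝ} {i : ℕ} {m : O} : m ∈ SI U i ↔ m ∈ SPB U ∧ Nat.log 2 (N m) = i := by
  simp [SI]

theorem mem_SJ {V A : ℝ} {i : ℕ} {l : O} :
    l ∈ SJ V A i ↔ l ∈ PP V ∧ (N l : ℝ) ≤ 2 * A / 2 ^ i := by
  simp [SJ]

theorem SI_bounds {U : ℝ} {i : ℕ} {m : O} (h : m ∈ SI U i) :
    (2 : ℝ) ^ i ≤ N m ∧ (N m : ℝ) ≤ 2 ^ (i + 1) := by
  rw [mem_SI, mem_SPB] at h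
  have h0 : N m ≠ 0 := (N_pos h.1.1.1.ne_zero).ne'
  have h1 := Nat.pow_log_le_self 2 h0
  have h2 := Nat.lt_pow_succ_log_self (b := 2) (by norm_num) (N m)
  rw [h.2] at h1 h2
  exact ⟨by exact_mod_cast h1, by exact_mod_cast h2.le⟩

/-- the box condition -/
noncomputable def box (Y1 Y2 : ℕ) (p : O × O) (c : O) : ℂ :=
  if Y1 < N c ∧ N c ≤ Y2 then psi2 p c else 0

/-- the full part -/
theorem full_eq {U V A : ℝ} {F G : O → ℂ} (Y1 Y2 : ℕ) (hY : Y1 ≤ Y2)
    (hY1 : ∀ n : ℕ, Y1 < n → A < n)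
    (hY2 : (Y2 : ℝ) ≤ 2 * A) (p : O × O) :
    ∑ l ∈ PP V, ∑ m ∈ SPB U, F m * G l * box Y1 Y2 p (l * m) =
      ∑ i ∈ (range (Nat.log 2 ⌊U⌋₊ + 1)).filter (fun i => A < 2 ^ (i + 1) * V),
        (BL (SI U i) (SJ V A i) F G Y2 p - BL (SI U i) (SJ V A i) F G Y1 p) := by
  classical
  have h1 : ∀ i, BL (SI U i) (SJ V A i) F G Y2 p - BL (SI U i) (SJ V A i) F G Y1 p =
      ∑ m ∈ SI U i, ∑ l ∈ SJ V A i, F m * G l * box Y1 Y2 p (l * m) := by
    intro i
    unfold BL
    rw [← sum_sub_distrib, sum_product]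
    refine sum_congr rfl (fun m _ => sum_congr rfl (fun l _ => ?_))
    unfold box
    rw [N_mul, mul_comm l m, mul_comm (N l)]
    by_cases e1 : N m * N l ≤ Y1
    · rw [if_pos (e1.trans hY), if_pos e1, if_neg (by omega)]; ring
    · by_cases e2 : N m * N l ≤ Y2
      · rw [if_pos e2, if_neg e1, if_pos ⟨by omega, e2⟩]; ring
      · rw [if_neg e2, if_neg e1, if_neg (by tauto)]; ring
  simp only [h1]
  rw [sum_comm]
  have h2 : ∑ m ∈ SPB U, ∑ l ∈ PP V, F m * G l * box Y1 Y2 p (l * m) =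
      ∑ i ∈ range (Nat.log 2 ⌊U⌋₊ + 1), ∑ m ∈ SI U i, ∑ l ∈ PP V,
        F m * G l * box Y1 Y2 p (l * m) := by
    unfold SI
    rw [sum_fiberwise_of_maps_to]
    intro m hm
    rw [mem_SPB] at hm
    rw [mem_range, Nat.lt_succ_iff]
    exact Nat.log_mono_right (Nat.le_floor hm.1.2)
  rw [h2]
  have h3 : ∀ i ∈ range (Nat.log 2 ⌊U⌋₊ + 1), ∑ m ∈ SI U i, ∑ l ∈ PP V,
        F m * G l * box Y1 Y2 p (l * m) =
      ∑ m ∈ SI U i, ∑ l ∈ SJ V A i, F m * G l * box Y1 Y2 p (l * m) := by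
    intro i _
    refine sum_congr rfl (fun m hm => ?_)
    symm
    apply sum_subset (filter_subset _ _)
    intro l hl hl'
    have e1 := (SI_bounds hm).1
    have e2 : 2 * A / 2 ^ i < (N l : ℝ) := by
      by_contra hle
      exact hl' (mem_SJ.2 ⟨hl, not_lt.1 hle⟩)
    have hz : box Y1 Y2 p (l * m) = 0 := by
      unfold box
      rw [if_neg]
      rintro ⟨_, e4⟩
      have e5 : ((N (l * m) : ℕ) : ℝ) ≤ 2 * A := le_trans (by exact_mod_cast e4) hY2
      rw [N_mul] at e5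
      push_cast at e5
      rw [div_lt_iff₀ (by positivity)] at e2
      have e6 : (N l : ℝ) * 2 ^ i ≤ N l * N m := mul_le_mul_of_nonneg_left e1 (Nat.cast_nonneg _)
      linarith
    rw [hz, mul_zero]
  rw [sum_congr rfl h3]
  symm
  apply sum_subset (filter_subset _ _)
  intro i hi hi'
  rw [mem_filter] at hi'
  have e1 : 2 ^ (i + 1) * V ≤ A := by
    by_contra hle
    exact hi' ⟨hi, not_le.1 hle⟩
  refine sum_eq_zero (fun m hm => sum_eq_zero (fun l hl => ?_))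
  have e2 := (SI_bounds hm).2
  rw [mem_SJ, mem_PP] at hl
  have hz : box Y1 Y2 p (l * m) = 0 := by
    unfold box
    rw [if_neg]
    rintro ⟨e4, _⟩
    have e5 : A < ((N (l * m) : ℕ) : ℝ) := hY1 _ e4
    rw [N_mul] at e5
    push_cast at e5
    have e6 : (N l : ℝ) * N m ≤ V * 2 ^ (i + 1) :=
      mul_le_mul hl.1.1.2 e2 (Nat.cast_nonneg _) (le_trans (Nat.cast_nonneg _) hl.1.1.2)
    linarith
  rw [hz, mul_zero]

open Classical in
/-- the coefficient of the correction -/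
noncomputable def eB (F G : O → ℂ) (Y1 Y2 : ℕ) (l n : O) : ℂ :=
  if Y1 < N (l * (l * n)) ∧ N (l * (l * n)) ≤ Y2 then F (l * n) * G l else 0

theorem norm_eB_le {U V : ℝ} {F G : O → ℂ} (h : BData U V F G) (Y1 Y2 : ℕ) (l n : O) :
    ‖eB F G Y1 Y2 l n‖ ≤ 1 := by
  unfold eB
  split_ifs
  · rw [norm_mul]; exact mul_le_one₀ (h.nF _) (norm_nonneg _) (h.nG _)
  · simp

open Classical in
/-- the correction part -/
theorem corr_eq {U V A : ℝ} (hU : 0 < U) {F G : O → ℂ} (h : BData U V F G) (Y1 Y2 : ℕ)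
    (hY1 : ∀ n : ℕ, Y1 < n → A < n) (hY2 : (Y2 : ℝ) ≤ 2 * A) (p : O × O) :
    ∑ l ∈ PP V, ∑ m ∈ SPB U, (if l ∣ m then F m * G l * box Y1 Y2 p (l * m) else 0) =
      ∑ l ∈ (PP V).filter (fun l => A / U ≤ (N l : ℝ)),
        ∑ n ∈ PB (2 * A / (N l : ℝ) ^ 2), eB F G Y1 Y2 l n * psi2 p n * psi2 p l ^ 2 := by
  have h1 : ∀ l ∈ PP V, ∑ m ∈ SPB U, (if l ∣ m then F m * G l * box Y1 Y2 p (l * m) else 0) =
      ∑ n ∈ PB (2 * A / (N l : ℝ) ^ 2), eB F G Y1 Y2 l n * psi2 p n * psi2 p l ^ 2 := by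
    intro l hl
    rw [mem_PP] at hl
    have hl0 : l ≠ 0 := hl.1.1.ne_zero
    have hNl : (0 : ℝ) < N l := by exact_mod_cast N_pos hl0
    have e1 : ∑ n ∈ PB (2 * A / (N l : ℝ) ^ 2), eB F G Y1 Y2 l n * psi2 p n * psi2 p l ^ 2 =
        ∑ m ∈ (PB (2 * A / (N l : ℝ) ^ 2)).image (fun n => l * n),
          (if l ∣ m then F m * G l * box Y1 Y2 p (l * m) else 0) := by
      rw [sum_image (fun x _ y _ hxy => mul_left_cancel₀ hl0 hxy)]
      refine sum_congr rfl (fun n _ => ?_)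
      rw [if_pos (dvd_mul_right l n)]
      unfold eB box
      split_ifs
      · rw [map_mul, map_mul]; ring
      · simp
    rw [e1]
    apply sum_supp_eq
    · intro m hm hm'
      split_ifs with hd
      · obtain ⟨n, rfl⟩ := hd
        by_cases e2 : N (l * (l * n)) ≤ Y2
        · exfalso
          apply hm'
          rw [mem_image]
          refine ⟨n, ?_, rfl⟩
          rw [mem_SPB] at hm
          rw [mem_PB]
          refine ⟨hl.1.1.of_mul hm.1.1, ?_⟩
          rw [le_div_iff₀ (by positivity)]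
          have e3 : ((N (l * (l * n)) : ℕ) : ℝ) ≤ 2 * A := le_trans (by exact_mod_cast e2) hY2
          rw [N_mul, N_mul] at e3
          push_cast at e3
          calc _ = (N l : ℝ) * (N l * N n) := by ring
            _ ≤ 2 * A := e3
        · unfold box
          rw [if_neg (fun hh => e2 hh.2), mul_zero]
      · rfl
    · intro m _ hm'
      split_ifs
      · have : F m = 0 := by
          by_contra hF
          exact hm' (h.hF m hF)
        rw [this]; simp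
      · rfl
  rw [sum_congr rfl h1]
  symm
  apply sum_subset (filter_subset _ _)
  intro l hl hl'
  have hlt : (N l : ℝ) < A / U := by
    by_contra hle
    exact hl' (mem_filter.2 ⟨hl, not_lt.1 hle⟩)
  refine sum_eq_zero (fun n _ => ?_)
  have : eB F G Y1 Y2 l n = 0 := by
    unfold eB
    split_ifs with hh
    · by_cases hF : F (l * n) = 0
      · rw [hF, zero_mul]
      · exfalso
        have e1 := h.hF _ hF
        rw [mem_SPB] at e1
        have e2 : A < ((N (l * (l * n)) : ℕ) : ℝ) := hY1 _ hh.1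
        rw [N_mul] at e2
        push_cast at e2
        have e3 : (N l : ℝ) * N (l * n) ≤ A / U * U :=
          mul_le_mul hlt.le e1.1.2 (Nat.cast_nonneg _) ((Nat.cast_nonneg _).trans hlt.le)
        rw [div_mul_cancel₀ _ hU.ne'] at e3
        linarith
    · rfl
  rw [this]; simp

open Classical in
/-- **decomposition of a class (B) sum** -/
theorem classB_eq {U V A : ℝ} (hU : 0 < U) {F G : O → ℂ} (h : BData U V F G) (Y1 Y2 : ℕ)
    (hY : Y1 ≤ Y2) (hY1 : ∀ n : ℕ, Y1 < n → A < n) (hY2 : (Y2 : ℝ) ≤ 2 * A) (p : O × O) :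
    ∑ c ∈ SPB (2 * A), cB F G c * box Y1 Y2 p c =
      ∑ i ∈ (range (Nat.log 2 ⌊U⌋₊ + 1)).filter (fun i => A < 2 ^ (i + 1) * V),
        (BL (SI U i) (SJ V A i) F G Y2 p - BL (SI U i) (SJ V A i) F G Y1 p) -
      ∑ l ∈ (PP V).filter (fun l => A / U ≤ (N l : ℝ)),
        ∑ n ∈ PB (2 * A / (N l : ℝ) ^ 2), eB F G Y1 Y2 l n * psi2 p n * psi2 p l ^ 2 := by
  rw [classB_reindex h (box Y1 Y2 p) (fun c hc => by
    unfold box
    rw [if_neg]
    rintro ⟨_, e⟩
    have : ((N c : ℕ) : ℝ) ≤ Y2 := by exact_mod_cast e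
    linarith), ← full_eq Y1 Y2 hY hY1 hY2 p, ← corr_eq hU h Y1 Y2 hY1 hY2 p, ← sum_sub_distrib]
  refine sum_congr rfl (fun l _ => ?_)
  rw [← sum_sub_distrib]
  refine sum_congr rfl (fun m _ => ?_)
  split_ifs <;> ring

end Vale.Agent.P006.LVC
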