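import Vale.Agent.P006.LVC.LvB3

/-!
# P006, block LV-C, part 11: the large value bound for class (B), pair form
-/

namespace Vale.Agent.P006.LVC

open Finset

/-- the exponents of the correction -/
theorem corr_final {C4 A H L0 V θ : ℝ} (hC4 : 0 ≤ C4) (hA : 1 ≤ A) (hH : 1 ≤ H)
    (hθ0 : 0 < θ) (hθ : θ ≤ 1 / 100) (hHA : H ≤ A ^ (1 + θ)) (hL0 : A ^ (1 / 4 : ℝ) ≤ L0)
    (hV : 1 ≤ V) (hVA : V ≤ A) :
    (4 * (1 + 1 / (1 / 100)) * V ^ (1 / 100 : ℝ)) ^ 2 * (C4 * (2 * A * H) ^ (1 / 100 : ℝ) *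
        (16 * (H ^ (1 / 2 : ℝ) * A ^ 2 * L0 ^ (-2 : ℝ)) + 16 * (H * A) +
          64 * (H ^ (2 / 3 : ℝ) * A ^ (5 / 3 : ℝ) * L0 ^ (-(4 / 3) : ℝ)))) ≤
      (404 ^ 2 * 192 * C4) * (A ^ (2 - θ) * H ^ (1 / 3 : ℝ)) := by
  have hA0 : 0 < A := by linarith
  have hH0 : 0 < H := by linarith
  have hL00 : 0 < L0 := lt_of_lt_of_le (by positivity) hL0
  have hH3 : 0 < H ^ (1 / 3 : ℝ) := by positivity
  have e1 : H ^ (1 / 2 : ℝ) * A ^ 2 * L0 ^ (-2 : ℝ) ≤ H ^ (1 / 3 : ℝ) * A ^ (5 / 3 + θ) := by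
    have a1 : H ^ (1 / 2 : ℝ) = H ^ (1 / 3 : ℝ) * H ^ (1 / 6 : ℝ) := by
      rw [← Real.rpow_add hH0]; norm_num
    have a2 : H ^ (1 / 6 : ℝ) ≤ A ^ ((1 + θ) * (1 / 6)) := by
      rw [Real.rpow_mul hA0.le]
      exact Real.rpow_le_rpow hH0.le hHA (by norm_num)
    have a3 : L0 ^ (-2 : ℝ) ≤ A ^ (-(1 / 2) : ℝ) := by
      calc L0 ^ (-2 : ℝ) ≤ (A ^ (1 / 4 : ℝ)) ^ (-2 : ℝ) :=
            Real.rpow_le_rpow_of_nonpos (by positivity) hL0 (by norm_num)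
        _ = A ^ (-(1 / 2) : ℝ) := by rw [← Real.rpow_mul hA0.le]; norm_num
    calc H ^ (1 / 2 : ℝ) * A ^ 2 * L0 ^ (-2 : ℝ)
        ≤ (H ^ (1 / 3 : ℝ) * A ^ ((1 + θ) * (1 / 6))) * A ^ 2 * A ^ (-(1 / 2) : ℝ) := by
          rw [a1]; gcongr
      _ = H ^ (1 / 3 : ℝ) * A ^ ((1 + θ) * (1 / 6) + 2 + -(1 / 2)) := by
          rw [Real.rpow_add hA0, Real.rpow_add hA0, Real.rpow_two]; ring
      _ ≤ _ := by
          apply mul_le_mul_of_nonneg_left _ hH3.le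
          exact rle hA (by linarith)
  have e2 : H * A ≤ H ^ (1 / 3 : ℝ) * A ^ (5 / 3 + θ) := by
    have a1 : H = H ^ (1 / 3 : ℝ) * H ^ (2 / 3 : ℝ) := by
      rw [← Real.rpow_add hH0]; norm_num
    have a2 : H ^ (2 / 3 : ℝ) ≤ A ^ ((1 + θ) * (2 / 3)) := by
      rw [Real.rpow_mul hA0.le]
      exact Real.rpow_le_rpow hH0.le hHA (by norm_num)
    calc H * A = H ^ (1 / 3 : ℝ) * H ^ (2 / 3 : ℝ) * A := by rw [← a1]
      _ ≤ H ^ (1 / 3 : ℝ) * A ^ ((1 + θ) * (2 / 3)) * A := by gcongr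
      _ = H ^ (1 / 3 : ℝ) * A ^ ((1 + θ) * (2 / 3) + 1) := by
          rw [Real.rpow_add_one hA0.ne']; ring
      _ ≤ _ := by
          apply mul_le_mul_of_nonneg_left _ hH3.le
          exact rle hA (by linarith)
  have e3 : H ^ (2 / 3 : ℝ) * A ^ (5 / 3 : ℝ) * L0 ^ (-(4 / 3) : ℝ) ≤
      H ^ (1 / 3 : ℝ) * A ^ (5 / 3 + θ) := by
    have a1 : H ^ (2 / 3 : ℝ) = H ^ (1 / 3 : ℝ) * H ^ (1 / 3 : ℝ) := by
      rw [← Real.rpow_add hH0]; norm_num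
    have a2 : H ^ (1 / 3 : ℝ) ≤ A ^ ((1 + θ) * (1 / 3)) := by
      rw [Real.rpow_mul hA0.le]
      exact Real.rpow_le_rpow hH0.le hHA (by norm_num)
    have a3 : L0 ^ (-(4 / 3) : ℝ) ≤ A ^ (-(1 / 3) : ℝ) := by
      calc L0 ^ (-(4 / 3) : ℝ) ≤ (A ^ (1 / 4 : ℝ)) ^ (-(4 / 3) : ℝ) :=
            Real.rpow_le_rpow_of_nonpos (by positivity) hL0 (by norm_num)
        _ = A ^ (-(1 / 3) : ℝ) := by rw [← Real.rpow_mul hA0.le]; norm_num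
    calc H ^ (2 / 3 : ℝ) * A ^ (5 / 3 : ℝ) * L0 ^ (-(4 / 3) : ℝ)
        ≤ (H ^ (1 / 3 : ℝ) * A ^ ((1 + θ) * (1 / 3))) * A ^ (5 / 3 : ℝ) * A ^ (-(1 / 3) : ℝ) := by
          rw [a1]; gcongr
      _ = H ^ (1 / 3 : ℝ) * A ^ ((1 + θ) * (1 / 3) + 5 / 3 + -(1 / 3)) := by
          rw [Real.rpow_add hA0, Real.rpow_add hA0]; ring
      _ ≤ _ := by
          apply mul_le_mul_of_nonneg_left _ hH3.le
          exact rle hA (by linarith)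
  have e4 : (2 * A * H) ^ (1 / 100 : ℝ) ≤ 2 * A ^ (3 / 100 : ℝ) := by
    have a1 : 2 * A * H ≤ 2 * A ^ (3 : ℝ) := by
      calc 2 * A * H ≤ 2 * A * A ^ (2 : ℝ) := by
            apply mul_le_mul_of_nonneg_left _ (by positivity)
            exact hHA.trans (rle hA (by linarith))
        _ = 2 * A ^ (3 : ℝ) := by
            have : A * A ^ (2 : ℝ) = A ^ (3 : ℝ) := by
              rw [mul_comm, ← Real.rpow_add_one hA0.ne']; norm_num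
            linear_combination 2 * this
    calc (2 * A * H) ^ (1 / 100 : ℝ) ≤ (2 * A ^ (3 : ℝ)) ^ (1 / 100 : ℝ) :=
          Real.rpow_le_rpow (by positivity) a1 (by norm_num)
      _ = 2 ^ (1 / 100 : ℝ) * A ^ (3 / 100 : ℝ) := by
          rw [Real.mul_rpow (by norm_num) (by positivity), ← Real.rpow_mul hA0.le]; norm_num
      _ ≤ 2 * A ^ (3 / 100 : ℝ) := by
          apply mul_le_mul_of_nonneg_right _ (by positivity)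
          calc (2 : ℝ) ^ (1 / 100 : ℝ) ≤ 2 ^ (1 : ℝ) :=
                Real.rpow_le_rpow_of_exponent_le (by norm_num) (by norm_num)
            _ = 2 := by norm_num
  have e5 : (4 * (1 + 1 / (1 / 100)) * V ^ (1 / 100 : ℝ)) ^ 2 ≤ 404 ^ 2 * A ^ (2 / 100 : ℝ) := by
    have a1 : V ^ (1 / 100 : ℝ) ≤ A ^ (1 / 100 : ℝ) :=
      Real.rpow_le_rpow (by linarith) hVA (by norm_num)
    calc (4 * (1 + 1 / (1 / 100)) * V ^ (1 / 100 : ℝ)) ^ 2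
        = 404 ^ 2 * (V ^ (1 / 100 : ℝ)) ^ 2 := by ring
      _ ≤ 404 ^ 2 * (A ^ (1 / 100 : ℝ)) ^ 2 := by gcongr
      _ = 404 ^ 2 * A ^ (2 / 100 : ℝ) := by
          rw [← Real.rpow_natCast (A ^ (1 / 100 : ℝ)), ← Real.rpow_mul hA0.le]; norm_num
  have e6 : 16 * (H ^ (1 / 2 : ℝ) * A ^ 2 * L0 ^ (-2 : ℝ)) + 16 * (H * A) +
          64 * (H ^ (2 / 3 : ℝ) * A ^ (5 / 3 : ℝ) * L0 ^ (-(4 / 3) : ℝ)) ≤
      96 * (H ^ (1 / 3 : ℝ) * A ^ (5 / 3 + θ)) := by linarith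
  have e0 : 0 ≤ 16 * (H ^ (1 / 2 : ℝ) * A ^ 2 * L0 ^ (-2 : ℝ)) + 16 * (H * A) +
          64 * (H ^ (2 / 3 : ℝ) * A ^ (5 / 3 : ℝ) * L0 ^ (-(4 / 3) : ℝ)) := by positivity
  calc _ ≤ (404 ^ 2 * A ^ (2 / 100 : ℝ)) * (C4 * (2 * A ^ (3 / 100 : ℝ)) *
        (96 * (H ^ (1 / 3 : ℝ) * A ^ (5 / 3 + θ)))) := by gcongr
    _ = (404 ^ 2 * 192 * C4) *
          (A ^ ((2 / 100 : ℝ) + 3 / 100 + (5 / 3 + θ)) * H ^ (1 / 3 : ℝ)) := by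
        rw [Real.rpow_add hA0 ((2 / 100 : ℝ) + 3 / 100) (5 / 3 + θ),
          Real.rpow_add hA0 (2 / 100 : ℝ) (3 / 100)]; ring
    _ ≤ _ := by
        apply mul_le_mul_of_nonneg_left _ (by positivity)
        apply mul_le_mul_of_nonneg_right _ hH3.le
        exact rle hA (by linarith)

/-- logarithms of powers of two -/
theorem natLog_le {ε : ℝ} (hε : 0 < ε) {A : ℝ} (hA : 1 ≤ A) :
    ((Nat.log 2 ⌊2 * A⌋₊ : ℕ) : ℝ) + 2 ≤ (2 / ε + 4) * A ^ ε := by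
  have h0 : ⌊2 * A⌋₊ ≠ 0 := by
    have : 1 ≤ ⌊2 * A⌋₊ := Nat.le_floor (by push_cast; linarith)
    omega
  have h1 := Nat.pow_log_le_self 2 h0
  have h2 : ((2 : ℝ)) ^ (Nat.log 2 ⌊2 * A⌋₊) ≤ 2 * A := by
    calc ((2 : ℝ)) ^ (Nat.log 2 ⌊2 * A⌋₊) = ((2 ^ (Nat.log 2 ⌊2 * A⌋₊) : ℕ) : ℝ) := by push_cast; rfl
      _ ≤ (⌊2 * A⌋₊ : ℝ) := by exact_mod_cast h1
      _ ≤ 2 * A := Nat.floor_le (by linarith)
  have h3 : (Nat.log 2 ⌊2 * A⌋₊ : ℝ) * Real.log 2 ≤ Real.log (2 * A) := by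
    rw [← Real.log_pow]
    exact Real.log_le_log (by positivity) h2
  have h4 : Real.log (2 * A) = Real.log 2 + Real.log A :=
    Real.log_mul (by norm_num) (by linarith)
  have h5 : Real.log A ≤ A ^ ε / ε := Real.log_le_rpow_div (by linarith) hε
  have h6 : (1 / 2 : ℝ) ≤ Real.log 2 := by linarith [Real.log_two_gt_d9]
  have h7 : Real.log 2 ≤ 1 := by linarith [Real.log_two_lt_d9]
  have h8 : (1 : ℝ) ≤ A ^ ε := Real.one_le_rpow hA hε.le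
  have h9 : (Nat.log 2 ⌊2 * A⌋₊ : ℝ) * (1 / 2) ≤ 1 + A ^ ε / ε := by
    have : (Nat.log 2 ⌊2 * A⌋₊ : ℝ) * (1 / 2) ≤ (Nat.log 2 ⌊2 * A⌋₊ : ℝ) * Real.log 2 :=
      mul_le_mul_of_nonneg_left h6 (Nat.cast_nonneg _)
    linarith
  have h10 : (Nat.log 2 ⌊2 * A⌋₊ : ℝ) ≤ 2 + 2 * (A ^ ε / ε) := by linarith
  have h11 : (2 / ε + 4) * A ^ ε = 2 * (A ^ ε / ε) + 4 * A ^ ε := by ring
  rw [h11]
  linarith

/-- the product sums of one dyadic block -/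
theorem block_bound {U V A H θ0 C0 dl : ℝ} {F G : O → ℂ} (h : BData U V F G) (hA : 1 ≤ A)
    (hU : 1 ≤ U) (hV : 1 ≤ V) (hAV : (4 * A) ^ (1 / 4 : ℝ) ≤ A / V)
    (hAU : (4 * A) ^ (1 / 4 : ℝ) ≤ A / U) (hH : 1 ≤ H) (hHA : H ≤ (4 * A) ^ (1 + θ0))
    (hpp : ∀ (B H y1 y2 : ℝ), 1 ≤ B → 1 ≤ H →
      H ≤ B ^ (1 + θ0) → 1 / 4 ≤ y1 → 1 / 4 ≤ y2 → y1 + y2 ≤ 1 →
      ∀ S1 S2 : Finset O, (∀ n ∈ S1, Primary n ∧ (N n : ℝ) ≤ B ^ y1) →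
      (∀ n ∈ S2, Primary n ∧ (N n : ℝ) ≤ B ^ y2) →
      ∀ a b : O → ℂ, (∀ n, ‖a n‖ ≤ 1) → (∀ n, ‖b n‖ ≤ 1) →
      ∀ T : Finset (O × O), (∀ p ∈ T, Primary p.1 ∧ Primary p.2 ∧ Squarefree (p.1 * p.2) ∧
        (N p.1 : ℝ) * (N p.2 : ℝ) ^ 2 ≤ H ∧ B ^ dl ≤ (N (p.1 * p.2) : ℝ)) →
      ∑ p ∈ T, pf S1 S2 a b p ≤ C0 * B ^ (2 - θ0) * H ^ (1 / 3 : ℝ)) (hC0 : 0 ≤ C0)
    (T : Finset (O × O)) (hT : ∀ p ∈ T, Primary p.1 ∧ Primary p.2 ∧ Squarefree (p.1 * p.2) ∧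
        (N p.1 : ℝ) * (N p.2 : ℝ) ^ 2 ≤ H ∧ (4 * A) ^ dl ≤ (N (p.1 * p.2) : ℝ))
    {i : ℕ} (hi : i ∈ (range (Nat.log 2 ⌊U⌋₊ + 1)).filter (fun i => A < 2 ^ (i + 1) * V))
    (Y : ℕ) :
    ∑ p ∈ T, ‖BL (SI U i) (SJ V A i) F G Y p‖ ^ 2 ≤
      ((Nat.log 2 ⌊2 * A⌋₊ : ℝ) + 2) ^ 2 * (C0 * (4 * A) ^ (2 - θ0) * H ^ (1 / 3 : ℝ)) := by
  have hA0 : 0 < A := by linarith
  rw [mem_filter, mem_range, Nat.lt_succ_iff] at hi
  have hU0 : ⌊U⌋₊ ≠ 0 := by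
    have : 1 ≤ ⌊U⌋₊ := Nat.le_floor (by push_cast; exact hU)
    omega
  have hiU : (2 : ℝ) ^ i ≤ U := by
    have e1 : 2 ^ i ≤ ⌊U⌋₊ :=
      (Nat.pow_le_pow_right (by norm_num) hi.1).trans (Nat.pow_log_le_self 2 hU0)
    calc (2 : ℝ) ^ i = ((2 ^ i : ℕ) : ℝ) := by push_cast; rfl
      _ ≤ (⌊U⌋₊ : ℝ) := by exact_mod_cast e1
      _ ≤ U := Nat.floor_le (by linarith)
  have hB1 : 1 < 4 * A := by linarith
  have hB0 : 0 < 4 * A := by linarith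
  have h2i : (0 : ℝ) < 2 ^ i := by positivity
  have h2i1 : (0 : ℝ) < 2 ^ (i + 1) := by positivity
  set y1 : ℝ := Real.logb (4 * A) (2 ^ (i + 1)) with hy1
  set y2 : ℝ := Real.logb (4 * A) (2 * A / 2 ^ i) with hy2
  have e1 : (4 * A) ^ y1 = 2 ^ (i + 1) := Real.rpow_logb hB0 hB1.ne' h2i1
  have e2 : (4 * A) ^ y2 = 2 * A / 2 ^ i := Real.rpow_logb hB0 hB1.ne' (by positivity)
  have hy1' : 1 / 4 ≤ y1 := by
    rw [hy1, Real.le_logb_iff_rpow_le hB1 h2i1]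
    refine hAV.trans ?_
    rw [div_le_iff₀ (by linarith)]
    exact hi.2.le
  have hy2' : 1 / 4 ≤ y2 := by
    rw [hy2, Real.le_logb_iff_rpow_le hB1 (by positivity)]
    refine hAU.trans ?_
    calc A / U ≤ A / 2 ^ i := div_le_div_of_nonneg_left hA0.le h2i hiU
      _ ≤ 2 * A / 2 ^ i := by
          apply div_le_div_of_nonneg_right _ h2i.le
          linarith
  have hyy : y1 + y2 = 1 := by
    rw [hy1, hy2, ← Real.logb_mul h2i1.ne' (by positivity)]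
    rw [show (2 : ℝ) ^ (i + 1) * (2 * A / 2 ^ i) = 4 * A by rw [pow_succ]; field_simp; ring]
    exact Real.logb_self_eq_one hB1
  have hpos : 0 ≤ C0 * (4 * A) ^ (2 - θ0) * H ^ (1 / 3 : ℝ) := by positivity
  have hmain := bil_box (S1 := SI U i) (S2 := SJ V A i) T hpos (Nat.log 2 ⌊2 * A⌋₊ + 1)
    (fun n hn => by
      rw [mem_SI, mem_SPB] at hn
      exact hn.1.1.1.ne_zero)
    (fun n hn => by
      rw [mem_SJ] at hn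
      have e3 : (N n : ℝ) ≤ 2 * A := hn.2.trans (div_le_self (by linarith)
        (one_le_pow₀ (by norm_num)))
      have e4 : N n ≤ ⌊2 * A⌋₊ := Nat.le_floor e3
      exact lt_of_le_of_lt e4 (Nat.lt_pow_succ_log_self (by norm_num) _))
    (fun a b ha hb => hpp (4 * A) H y1 y2 hB1.le hH hHA hy1' hy2' hyy.le _ _
      (fun n hn => by
        have e3 := (SI_bounds hn).2
        rw [mem_SI, mem_SPB] at hn
        exact ⟨hn.1.1.1, by rw [e1]; exact e3⟩)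
      (fun n hn => by
        rw [mem_SJ, mem_PP] at hn
        exact ⟨hn.1.1.1, by rw [e2]; exact hn.2⟩) a b ha hb T hT)
    F G h.nF h.nG Y
  refine hmain.trans (le_of_eq ?_)
  push_cast
  ring

end Vale.Agent.P006.LVC
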