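import Vale.Agent.P006.LVC.LvB4

/-!
# P006, block LV-C, part 12: the large value bound for class (B), pair form, assembled
-/

namespace Vale.Agent.P006.LVC

open Finset

theorem sum_sq_combine {ι : Type*} (P : Finset ι) (I : Finset ℕ) (a b : ℕ → ι → ℂ) (z : ι → ℂ)
    {D Z n : ℝ} (hn : (I.card : ℝ) ≤ n) (hD : 0 ≤ D)
    (ha : ∀ i ∈ I, ∑ p ∈ P, ‖a i p‖ ^ 2 ≤ D)
    (hb : ∀ i ∈ I, ∑ p ∈ P, ‖b i p‖ ^ 2 ≤ D) (hz : ∑ p ∈ P, ‖z p‖ ^ 2 ≤ Z) :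
    ∑ p ∈ P, ‖∑ i ∈ I, (a i p - b i p) - z p‖ ^ 2 ≤ 8 * n ^ 2 * D + 2 * Z := by
  have hc0 : (0 : ℝ) ≤ I.card := Nat.cast_nonneg _
  have h1 : ∀ p ∈ P, ‖∑ i ∈ I, (a i p - b i p) - z p‖ ^ 2 ≤
      2 * ((I.card : ℝ) * ∑ i ∈ I, (2 * ‖a i p‖ ^ 2 + 2 * ‖b i p‖ ^ 2)) + 2 * ‖z p‖ ^ 2 := by
    intro p _
    have e1 : ‖∑ i ∈ I, (a i p - b i p) - z p‖ ≤ ‖∑ i ∈ I, (a i p - b i p)‖ + ‖z p‖ :=
      norm_sub_le _ _
    have e2 : ‖∑ i ∈ I, (a i p - b i p)‖ ^ 2 ≤ (I.card : ℝ) * ∑ i ∈ I, ‖a i p - b i p‖ ^ 2 := by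
      calc ‖∑ i ∈ I, (a i p - b i p)‖ ^ 2 ≤ (∑ i ∈ I, ‖a i p - b i p‖) ^ 2 :=
            pow_le_pow_left₀ (norm_nonneg _) (norm_sum_le _ _) 2
        _ ≤ _ := sq_sum_le_card_mul_sum_sq
    have e3 : ∑ i ∈ I, ‖a i p - b i p‖ ^ 2 ≤ ∑ i ∈ I, (2 * ‖a i p‖ ^ 2 + 2 * ‖b i p‖ ^ 2) := by
      refine sum_le_sum (fun i _ => ?_)
      have := norm_sub_le (a i p) (b i p)
      have h3 : ‖a i p - b i p‖ ^ 2 ≤ (‖a i p‖ + ‖b i p‖) ^ 2 :=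
        pow_le_pow_left₀ (norm_nonneg _) this 2
      nlinarith [sq_nonneg (‖a i p‖ - ‖b i p‖)]
    have e4 := mul_le_mul_of_nonneg_left e3 hc0
    have e5 : ‖∑ i ∈ I, (a i p - b i p) - z p‖ ^ 2 ≤
        (‖∑ i ∈ I, (a i p - b i p)‖ + ‖z p‖) ^ 2 := pow_le_pow_left₀ (norm_nonneg _) e1 2
    nlinarith [sq_nonneg (‖∑ i ∈ I, (a i p - b i p)‖ - ‖z p‖)]
  have h2 : ∑ p ∈ P, ∑ i ∈ I, (2 * ‖a i p‖ ^ 2 + 2 * ‖b i p‖ ^ 2) ≤ I.card * (4 * D) := by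
    rw [sum_comm]
    calc ∑ i ∈ I, ∑ p ∈ P, (2 * ‖a i p‖ ^ 2 + 2 * ‖b i p‖ ^ 2) ≤ ∑ i ∈ I, (4 * D) := by
          refine sum_le_sum (fun i hi => ?_)
          rw [sum_add_distrib, ← mul_sum, ← mul_sum]
          linarith [ha i hi, hb i hi]
      _ = _ := by rw [sum_const, nsmul_eq_mul]
  calc _ ≤ ∑ p ∈ P, (2 * ((I.card : ℝ) * ∑ i ∈ I, (2 * ‖a i p‖ ^ 2 + 2 * ‖b i p‖ ^ 2)) +
        2 * ‖z p‖ ^ 2) := sum_le_sum h1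
    _ = 2 * ((I.card : ℝ) * ∑ p ∈ P, ∑ i ∈ I, (2 * ‖a i p‖ ^ 2 + 2 * ‖b i p‖ ^ 2)) +
        2 * ∑ p ∈ P, ‖z p‖ ^ 2 := by
        rw [sum_add_distrib, ← mul_sum, ← mul_sum, ← mul_sum]
    _ ≤ 2 * ((I.card : ℝ) * (I.card * (4 * D))) + 2 * Z := by
        have := mul_le_mul_of_nonneg_left h2 hc0
        linarith
    _ ≤ _ := by
        have h3 : (I.card : ℝ) ^ 2 ≤ n ^ 2 := pow_le_pow_left₀ hc0 hn 2
        have h4 := mul_le_mul_of_nonneg_right h3 (show 0 ≤ 8 * D by positivity)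
        linarith

/-- **Large values, class (B), pair form.** -/
theorem lvB_core (hLS4 : LS4Hyp) (hCEN1 : CEN1Hyp) {dl : ℝ} (hdl : 0 < dl) :
    ∃ θ : ℝ, 0 < θ ∧ θ ≤ 1 / 100 ∧ ∃ C : ℝ, 1 ≤ C ∧ ∀ A U V H : ℝ, 1 ≤ A → 1 ≤ U → 1 ≤ V →
      (4 * A) ^ (1 / 4 : ℝ) ≤ A / V → (4 * A) ^ (1 / 4 : ℝ) ≤ A / U → 1 ≤ H → H ≤ A ^ (1 + θ) →
      ∀ F G : O → ℂ, BData U V F G → ∀ Y1 Y2 : ℕ, Y1 ≤ Y2 → (∀ n : ℕ, Y1 < n → A < n) →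
      (Y2 : ℝ) ≤ 2 * A →
      ∀ T : Finset (O × O), (∀ p ∈ T, Primary p.1 ∧ Primary p.2 ∧ Squarefree (p.1 * p.2) ∧
        (N p.1 : ℝ) * (N p.2 : ℝ) ^ 2 ≤ H ∧ (4 * A) ^ dl ≤ (N (p.1 * p.2) : ℝ)) →
      ∑ p ∈ T, ‖∑ c ∈ SPB (2 * A), cB F G c * box Y1 Y2 p c‖ ^ 2 ≤
        C * A ^ (2 - θ) * H ^ (1 / 3 : ℝ) := by
  classical
  obtain ⟨θ0, hθ0, hθ01, C0, hC0, hpp⟩ := prod_pairs hLS4 hCEN1 (d := 1 / 4) (by norm_num)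
    (by norm_num) hdl
  obtain ⟨C4, hC4, h4⟩ := hLS4 (1 / 100) (by norm_num)
  set E : ℝ := 2 / (θ0 / 8) + 4 with hE
  have hE0 : 4 ≤ E := by rw [hE]; have : 0 < 2 / (θ0 / 8) := by positivity
                         linarith
  refine ⟨θ0 / 2, by positivity, by linarith, 8 * E ^ 4 * (C0 * 16) + 2 * (404 ^ 2 * 192 * C4), ?_,
    ?_⟩
  · have : 0 ≤ 2 * (404 ^ 2 * 192 * C4) := by positivity
    have h2 : 1 ≤ E ^ 4 := one_le_pow₀ (by linarith)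
    nlinarith
  intro A U V H hA hU hV hAV hAU hH hHA F G hFG Y1 Y2 hY hY1 hY2 T hT
  have hA0 : 0 < A := by linarith
  have hH0 : 0 < H := by linarith
  have hU0 : 0 < U := by linarith
  have hV0 : 0 < V := by linarith
  have hq1 : (1 : ℝ) ≤ (4 * A) ^ (1 / 4 : ℝ) := Real.one_le_rpow (by linarith) (by norm_num)
  have hUA : U ≤ A := by
    have := hq1.trans hAU
    rwa [one_le_div hU0] at this
  have hVA : V ≤ A := by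
    have := hq1.trans hAV
    rwa [one_le_div hV0] at this
  have hqA : A ^ (1 / 4 : ℝ) ≤ A / U :=
    (Real.rpow_le_rpow hA0.le (by linarith) (by norm_num)).trans hAU
  have hAU1 : 1 ≤ A / U := hq1.trans hAU
  have hHA4 : H ≤ (4 * A) ^ (1 + θ0) := by
    calc H ≤ A ^ (1 + θ0 / 2) := hHA
      _ ≤ A ^ (1 + θ0) := rle hA (by linarith)
      _ ≤ (4 * A) ^ (1 + θ0) := Real.rpow_le_rpow hA0.le (by linarith) (by linarith)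
  set L : ℝ := (Nat.log 2 ⌊2 * A⌋₊ : ℝ) + 2 with hL
  have hL0 : 0 ≤ L := by positivity
  have hLE : L ≤ E * A ^ (θ0 / 8) := natLog_le (by positivity) hA
  set D : ℝ := L ^ 2 * (C0 * (4 * A) ^ (2 - θ0) * H ^ (1 / 3 : ℝ)) with hD
  have hD0 : 0 ≤ D := by positivity
  set I := (range (Nat.log 2 ⌊U⌋₊ + 1)).filter (fun i => A < 2 ^ (i + 1) * V) with hI
  have hIc : (I.card : ℝ) ≤ L := by
    have e1 : I.card ≤ Nat.log 2 ⌊U⌋₊ + 1 := (card_filter_le _ _).trans (by rw [card_range])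
    have e2 : Nat.log 2 ⌊U⌋₊ ≤ Nat.log 2 ⌊2 * A⌋₊ :=
      Nat.log_mono_right (Nat.floor_le_floor (by linarith))
    have e3 : I.card ≤ Nat.log 2 ⌊2 * A⌋₊ + 2 := by omega
    rw [hL]; exact_mod_cast e3
  have hblock : ∀ i ∈ I, ∀ Y : ℕ, ∑ p ∈ T, ‖BL (SI U i) (SJ V A i) F G Y p‖ ^ 2 ≤ D :=
    fun i hi Y => block_bound hFG hA hU hV hAV hAU hH hHA4 hpp (by linarith) T hT hi Y
  have hcorr := corr_bound (fun K M hK hM => h4 K M hK hM) (by linarith)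
    (show (0 : ℝ) < 1 / 100 by norm_num) hA hH hAU1 hV T
    (fun p hp => ⟨(hT p hp).1, (hT p hp).2.1, (hT p hp).2.2.1, (hT p hp).2.2.2.1⟩)
    ((PP V).filter (fun l => A / U ≤ (N l : ℝ)))
    (fun l hl => by
      rw [mem_filter, mem_PP] at hl
      exact ⟨mem_PB.2 hl.1.1, hl.2⟩) (eB F G Y1 Y2) (norm_eB_le hFG Y1 Y2)
  have hcorr2 := hcorr.trans (corr_final (θ := θ0 / 2) (by linarith) hA hH (by positivity)
    (by linarith) hHA hqA hV hVA)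
  have hcomb := sum_sq_combine T I (fun i p => BL (SI U i) (SJ V A i) F G Y2 p)
    (fun i p => BL (SI U i) (SJ V A i) F G Y1 p) _ hIc hD0 (fun i hi => hblock i hi Y2)
    (fun i hi => hblock i hi Y1) hcorr2
  have heq : ∑ p ∈ T, ‖∑ c ∈ SPB (2 * A), cB F G c * box Y1 Y2 p c‖ ^ 2 = _ :=
    sum_congr rfl (fun p _ => by rw [classB_eq hU0 hFG Y1 Y2 hY hY1 hY2 p])
  rw [heq]
  refine hcomb.trans ?_
  have hfin : 8 * L ^ 2 * D ≤ 8 * E ^ 4 * (C0 * 16) * (A ^ (2 - θ0 / 2) * H ^ (1 / 3 : ℝ)) := by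
    have e1 : L ^ 4 ≤ E ^ 4 * A ^ (θ0 / 2) := by
      calc L ^ 4 ≤ (E * A ^ (θ0 / 8)) ^ 4 := pow_le_pow_left₀ hL0 hLE 4
        _ = E ^ 4 * A ^ (θ0 / 2) := by
            rw [mul_pow, ← Real.rpow_natCast (A ^ (θ0 / 8)), ← Real.rpow_mul hA0.le]
            congr 2; push_cast; ring
    have e2 : (4 * A) ^ (2 - θ0) ≤ 16 * A ^ (2 - θ0) := by
      rw [Real.mul_rpow (by norm_num) hA0.le]
      apply mul_le_mul_of_nonneg_right _ (by positivity)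
      calc (4 : ℝ) ^ (2 - θ0) ≤ 4 ^ (2 : ℝ) :=
            Real.rpow_le_rpow_of_exponent_le (by norm_num) (by linarith)
        _ = 16 := by norm_num
    calc 8 * L ^ 2 * D = 8 * (L ^ 4 * (C0 * (4 * A) ^ (2 - θ0) * H ^ (1 / 3 : ℝ))) := by
          rw [hD]; ring
      _ ≤ 8 * ((E ^ 4 * A ^ (θ0 / 2)) * (C0 * (16 * A ^ (2 - θ0)) * H ^ (1 / 3 : ℝ))) := by
          have : 0 ≤ C0 * (4 * A) ^ (2 - θ0) * H ^ (1 / 3 : ℝ) := by positivity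
          gcongr
      _ = 8 * E ^ 4 * (C0 * 16) * ((A ^ (θ0 / 2) * A ^ (2 - θ0)) * H ^ (1 / 3 : ℝ)) := by ring
      _ = _ := by
          rw [← Real.rpow_add hA0]
          congr 3; ring
  calc _ ≤ 8 * E ^ 4 * (C0 * 16) * (A ^ (2 - θ0 / 2) * H ^ (1 / 3 : ℝ)) +
        2 * (404 ^ 2 * 192 * C4 * (A ^ (2 - θ0 / 2) * H ^ (1 / 3 : ℝ))) := by linarith
    _ = _ := by ring

end Vale.Agent.P006.LVC
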