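import Vale.Agent.P006.LVC.LvB5
import Vale.Agent.P006.H206.Inst

/-!
# P006, block LV-C, part 13: class (B) in the notation of block NC
-/

namespace Vale.Agent.P006.LVC

open Finset

theorem twist_mul (u : O) (j : ℕ) (c m l : O) (hm : m ≠ 0) (hl : l ≠ 0) :
    twist u j c (m * l) = twist u j c m * twist u j c l := by
  unfold twist
  rw [sym_mul_right _ hm hl, map_mul]

theorem cB_twist {F G : O → ℂ} {c : O} (hc : Primary c) (u : O) (j : ℕ) (n : O) :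
    cB (fun m => F m * twist u j n m) (fun l => G l * twist u j n l) c =
      twist u j n c * cB F G c := by
  unfold cB
  rw [mul_sum]
  refine sum_congr rfl (fun l hl => ?_)
  rw [mem_dvs hc.ne_zero] at hl
  have h1 := VR.mul_div_of_dvd hl.1.ne_zero hl.2
  have h2 : c / l ≠ 0 := fun h0 => hc.ne_zero (by rw [← h1, h0, mul_zero])
  have h3 : twist u j n c = twist u j n (c / l) * twist u j n l := by
    rw [← twist_mul _ _ _ _ _ h2 hl.1.ne_zero, mul_comm, h1]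
  rw [h3]; ring

theorem BData.twist {U V : ℝ} {F G : O → ℂ} (h : BData U V F G) (u : O) (j : ℕ) (n : O) :
    BData U V (fun m => F m * twist u j n m) (fun l => G l * twist u j n l) where
  hF m hm := h.hF m (fun h0 => hm (by simp [h0]))
  hG l hl := h.hG l (fun h0 => hl (by simp [h0]))
  nF m := by rw [norm_mul]; exact mul_le_one₀ (h.nF m) (norm_nonneg _) (norm_twist_le _ _ _ _)
  nG m := by rw [norm_mul]; exact mul_le_one₀ (h.nG m) (norm_nonneg _) (norm_twist_le _ _ _ _)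

open Classical in
/-- the pairs of a block -/
noncomputable def TB (a b : ℕ) : Finset (O × O) :=
  (NC.DB a ×ˢ NC.DB b).filter (fun p => IsCoprime p.1 p.2)

theorem mem_TB {a b : ℕ} {p : O × O} (hp : p ∈ TB a b) :
    Primary p.1 ∧ Primary p.2 ∧ Squarefree (p.1 * p.2) ∧
      (N p.1 : ℝ) * (N p.2 : ℝ) ^ 2 ≤ 8 * (2 ^ a * (2 ^ b) ^ 2) ∧
      (2 : ℝ) ^ a * 2 ^ b ≤ (N (p.1 * p.2) : ℝ) := by
  classical
  rw [TB, mem_filter, mem_product, NC.mem_DB, NC.mem_DB] at hp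
  obtain ⟨⟨⟨⟨h1, h2⟩, h3⟩, ⟨h4, h5⟩, h6⟩, h7⟩ := hp
  refine ⟨h2.1, h5.1, (NC.SqP.mul h2 h5 h7).2, ?_, ?_⟩
  · calc (N p.1 : ℝ) * (N p.2 : ℝ) ^ 2 ≤ (2 * 2 ^ a) * (2 * 2 ^ b) ^ 2 := by gcongr
      _ = _ := by ring
  · rw [N_mul]; push_cast
    gcongr

theorem blkS_eq (γ : O → ℂ) (R : ℝ) (u : O) (l : ℕ) (n : O) (a b : ℕ) :
    NC.blkS γ R u l n a b =
      ∑ p ∈ TB a b, ‖∑ c ∈ SPB R, γ c * (twist u l n c * psi2 p c)‖ ^ 2 := by
  classical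
  rw [TB, sum_filter, sum_product, NC.blkS]
  refine sum_congr rfl (fun k1 hk1 => sum_congr rfl (fun k2 hk2 => ?_))
  rw [NC.mem_DB] at hk1 hk2
  split_ifs
  · congr 2
    rw [NC.Fs, NC.PB_eq_SPB]
    refine sum_congr rfl (fun c hc => ?_)
    rw [mem_SPB] at hc
    congr 1
    rw [NC.ch, ← sym_twist hk1.1.2.1 hk2.1.2.1 hc.1.1, NC.rep]
    congr 2
    ring
  · rfl

/-- conductor bound in the exceptional ranges -/
theorem LVrange_cond {A δ : ℝ} (hA : 1 ≤ A) (_hδ0 : 0 < δ) (hδ : δ ≤ 1 / 9) {a b : ℕ}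
    (h : NC.LVrange (2 * A) ((2 * A) ^ δ) a b) :
    (4 * A) ^ (1 / 5 : ℝ) ≤ (2 : ℝ) ^ a * 2 ^ b := by
  have hR1 : 1 ≤ 2 * A := by linarith
  have hR0 : 0 < 2 * A := by linarith
  have ha1 : (1 : ℝ) ≤ 2 ^ a := one_le_pow₀ (by norm_num)
  have hb1 : (1 : ℝ) ≤ 2 ^ b := one_le_pow₀ (by norm_num)
  have hs0 : 0 < (2 * A) ^ δ := by positivity
  have h4 : (4 * A) ^ (1 / 5 : ℝ) ≤ (2 * A) ^ (2 / 5 : ℝ) := by
    calc (4 * A) ^ (1 / 5 : ℝ) ≤ ((2 * A) ^ 2) ^ (1 / 5 : ℝ) :=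
          Real.rpow_le_rpow (by positivity) (by nlinarith) (by norm_num)
      _ = (2 * A) ^ (2 / 5 : ℝ) := by
          rw [← Real.rpow_natCast, ← Real.rpow_mul hR0.le]; norm_num
  rcases h with h | h
  · have e1 : (2 * A) ^ (1 - δ) ≤ (2 : ℝ) ^ a * 2 ^ b := by
      rw [Real.rpow_sub hR0, Real.rpow_one, div_le_iff₀ hs0]
      exact h.2.le
    refine h4.trans (le_trans (rle hR1 (by linarith)) e1)
  · have e1 : (2 * A) ^ (1 - δ) ≤ (2 : ℝ) ^ a * (2 ^ b) ^ 2 := by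
      rw [Real.rpow_sub hR0, Real.rpow_one, div_le_iff₀ hs0]
      exact h.2.2.le
    have e2 : (2 * A) ^ (1 - δ) ≤ ((2 : ℝ) ^ a * 2 ^ b) ^ 2 := by
      refine e1.trans ?_
      have : (2 : ℝ) ^ a * (2 ^ b) ^ 2 ≤ 2 ^ a * (2 ^ a * (2 ^ b) ^ 2) := by
        apply le_mul_of_one_le_left (by positivity) ha1
      calc _ ≤ _ := this
        _ = _ := by ring
    have e3 : ((2 * A) ^ ((1 - δ) / 2)) ^ 2 ≤ ((2 : ℝ) ^ a * 2 ^ b) ^ 2 := by
      rw [← Real.rpow_natCast ((2 * A) ^ ((1 - δ) / 2)), ← Real.rpow_mul hR0.le]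
      convert e2 using 2
      push_cast; ring
    have e4 : (2 * A) ^ ((1 - δ) / 2) ≤ (2 : ℝ) ^ a * 2 ^ b :=
      (sq_le_sq₀ (by positivity) (by positivity)).1 e3
    refine h4.trans (le_trans (rle hR1 (by linarith)) e4)

/-- **class (B), one block of the non-cube sum** -/
theorem blkB_bound (hLS4 : LS4Hyp) (hCEN1 : CEN1Hyp) :
    ∃ θ : ℝ, 0 < θ ∧ θ ≤ 1 / 100 ∧ ∃ C : ℝ, 1 ≤ C ∧ ∀ A U V H δ Gw : ℝ, 1 ≤ A → 1 ≤ U → 1 ≤ V →
      (4 * A) ^ (1 / 4 : ℝ) ≤ A / V → (4 * A) ^ (1 / 4 : ℝ) ≤ A / U → 0 < δ → δ ≤ 1 / 9 →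
      8 * H ≤ A ^ (1 + θ) → ∀ F G : O → ℂ, BData U V F G → ∀ w : ℕ → ℂ, 0 ≤ Gw →
      (∀ n, ‖w n‖ + ∑ j ∈ range n, ‖w j - w (j + 1)‖ ≤ Gw) →
      (∀ n : ℕ, w n ≠ 0 → A < n) →
      ∀ γ : O → ℂ, (∀ c ∈ SPB (2 * A), γ c = w (N c) * cB F G c) →
      ∀ (u : O) (l : ℕ) (n : O) (a b : ℕ), (2 : ℝ) ^ a * (2 ^ b) ^ 2 ≤ H →
      NC.LVrange (2 * A) ((2 * A) ^ δ) a b →
      NC.blkS γ (2 * A) u l n a b ≤
        C * Gw ^ 2 * A ^ (2 - θ) * ((2 : ℝ) ^ a * (2 ^ b) ^ 2) ^ (1 / 3 : ℝ) := by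
  classical
  obtain ⟨θ, hθ0, hθ1, C, hC, hcore⟩ := lvB_core hLS4 hCEN1 (dl := 1 / 5) (by norm_num)
  refine ⟨θ, hθ0, hθ1, 2 * C, by linarith, ?_⟩
  intro A U V H δ Gw hA hU hV hAV hAU hδ0 hδ hH F G hFG w hGw hw hws γ hγ u l n a b hab hr
  have hA0 : 0 < A := by linarith
  have hab1 : (1 : ℝ) ≤ 2 ^ a * (2 ^ b) ^ 2 :=
    one_le_mul_of_one_le_of_one_le (one_le_pow₀ (by norm_num))
      (one_le_pow₀ (one_le_pow₀ (by norm_num)))
  set F' : O → ℂ := fun m => F m * twist u l n m with hF'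
  set G' : O → ℂ := fun m => G m * twist u l n m with hG'
  have hFG' : BData U V F' G' := hFG.twist u l n
  rw [blkS_eq]
  set S : Finset O := (SPB (2 * A)).filter (fun c => A < (N c : ℝ)) with hS
  have h1 : ∀ p ∈ TB a b, ‖∑ c ∈ SPB (2 * A), γ c * (twist u l n c * psi2 p c)‖ ^ 2 =
      ‖∑ c ∈ S, w (N c) * (cB F' G' c * psi2 p c)‖ ^ 2 := by
    intro p _
    congr 2
    rw [hS, sum_filter]
    refine sum_congr rfl (fun c hc => ?_)
    rw [hγ c hc]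
    rw [mem_SPB] at hc
    split_ifs with hc2
    · rw [cB_twist hc.1.1]; ring
    · have : w (N c) = 0 := by
        by_contra h0
        exact hc2 (hws _ h0)
      rw [this]; ring
  rw [sum_congr rfl h1]
  have hD : ∀ m : ℕ, ∑ p ∈ TB a b, ‖∑ c ∈ S.filter (fun c => N c ≤ m), cB F' G' c * psi2 p c‖ ^ 2 ≤
      C * A ^ (2 - θ) * (8 * (2 ^ a * (2 ^ b) ^ 2)) ^ (1 / 3 : ℝ) := by
    intro m
    by_cases hm : ⌊A⌋₊ ≤ min m ⌊2 * A⌋₊
    · have h2 := hcore A U V (8 * (2 ^ a * (2 ^ b) ^ 2)) hA hU hV hAV hAU (by linarith)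
        (le_trans (by linarith) hH) F' G' hFG' ⌊A⌋₊ (min m ⌊2 * A⌋₊) hm
        (fun k hk => (Nat.floor_lt hA0.le).1 hk)
        (le_trans (by exact_mod_cast min_le_right _ _) (Nat.floor_le (by linarith)))
        (TB a b) (fun p hp => by
          obtain ⟨q1, q2, q3, q4, q5⟩ := mem_TB hp
          exact ⟨q1, q2, q3, q4, (LVrange_cond hA hδ0 hδ hr).trans q5⟩)
      refine le_trans (le_of_eq (sum_congr rfl (fun p _ => ?_))) h2
      congr 2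
      rw [hS, filter_filter, sum_filter]
      refine sum_congr rfl (fun c hc => ?_)
      rw [mem_SPB] at hc
      have e1 : (A < (N c : ℝ)) ↔ ⌊A⌋₊ < N c := (Nat.floor_lt hA0.le).symm
      have e2 : N c ≤ ⌊2 * A⌋₊ := Nat.le_floor hc.1.2
      unfold box
      by_cases hcc : ⌊A⌋₊ < N c ∧ N c ≤ m
      · rw [if_pos ⟨e1.2 hcc.1, hcc.2⟩, if_pos ⟨hcc.1, le_min hcc.2 e2⟩]
      · rw [if_neg (fun hh => hcc ⟨e1.1 hh.1, hh.2⟩),
          if_neg (fun hh => hcc ⟨hh.1, hh.2.trans (min_le_left _ _)⟩), mul_zero]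
    · have h3 : S.filter (fun c => N c ≤ m) = ∅ := by
        rw [eq_empty_iff_forall_notMem]
        intro c hc
        rw [mem_filter, hS, mem_filter, mem_SPB] at hc
        apply hm
        have e1 : ⌊A⌋₊ < N c := (Nat.floor_lt hA0.le).2 hc.1.2
        rw [le_min_iff]
        exact ⟨e1.le.trans hc.2, Nat.floor_le_floor (by linarith)⟩
      rw [h3]
      simp only [sum_empty, norm_zero]
      rw [sum_congr rfl (fun p _ => show (0 : ℝ) ^ 2 = 0 by norm_num), sum_const_zero]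
      positivity
  have h4 := bvL2 (TB a b) S (fun p c => cB F' G' c * psi2 p c) hGw w hw hD
  refine h4.trans (le_of_eq ?_)
  rw [Real.mul_rpow (by norm_num) (by positivity),
    show (8 : ℝ) ^ (1 / 3 : ℝ) = 2 by
      rw [show (8 : ℝ) = 2 ^ (3 : ℝ) by norm_num, ← Real.rpow_mul (by norm_num)]; norm_num]
  ring

end Vale.Agent.P006.LVC
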