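import Vale.Agent.P006.LVC.NCcen5
import Vale.Agent.P006.H103.Mem

/-!
# P006, block LV-C, part 19: large values in the centre for the class (B) coefficient `cq`
-/

namespace Vale.Agent.P006.LVC

open Finset

open Classical in
/-- the Möbius factor of the coefficients of class (B) -/
noncomputable def FB (U z t : ℝ) (m : O) : ℂ :=
  if m ∈ SPB U ∧ Rough z m then ((VR.mu m : ℝ) : ℂ) * nn t m else 0

open Classical in
/-- the prime factor of the coefficients of class (B) -/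
noncomputable def GB (V z t L : ℝ) (l : O) : ℂ :=
  if l ∈ PP V ∧ Rough z l then ((VR.lamb l / L : ℝ) : ℂ) * nn t l else 0

theorem bdata_FG {U V z t L : ℝ} (hL : 0 < L) (hV : Real.log V ≤ L) :
    BData U V (FB U z t) (GB V z t L) := by
  classical
  refine ⟨?_, ?_, ?_, ?_⟩
  · intro m hm
    by_contra h
    exact hm (if_neg (fun h2 => h h2.1))
  · intro l hl
    by_contra h
    exact hl (if_neg (fun h2 => h h2.1))
  · intro m
    unfold FB
    split_ifs with h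
    · rw [norm_mul, Complex.norm_real, Real.norm_eq_abs, VR.abs_mu, one_mul]
      exact norm_nn_le t m
    · rw [norm_zero]; norm_num
  · intro l
    unfold GB
    split_ifs with h
    · rw [norm_mul, Complex.norm_real, Real.norm_eq_abs, abs_of_nonneg
        (div_nonneg (VR.lamb_nonneg l) hL.le)]
      have h1 : VR.lamb l / L ≤ 1 := by
        rw [div_le_one hL]
        have hp := mem_PP.1 h.1
        rw [VR.lamb_prime hp.2]
        have h0 : (0 : ℝ) < N l := by exact_mod_cast N_pos hp.2.ne_zero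
        exact (Real.log_le_log h0 hp.1.2).trans hV
      calc VR.lamb l / L * ‖nn t l‖ ≤ 1 * 1 :=
            mul_le_mul h1 (norm_nn_le t l) (norm_nonneg _) (by norm_num)
        _ = 1 := one_mul 1
    · rw [norm_zero]; norm_num

open Classical in
/-- the rough part of `cq`, twisted, is a class (B) coefficient -/
theorem cq_eq_cB {U V z t L : ℝ} (hL : L ≠ 0) {c : O} (hc : Primary c) (hs : Squarefree c) :
    nn t c * (if Rough z c then ((VR.cq U V c : ℝ) : ℂ) else 0) =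
      L * cB (FB U z t) (GB V z t L) c := by
  have hLc : (L : ℂ) ≠ 0 := by exact_mod_cast hL
  have e1 : nn t c * (if Rough z c then ((VR.cq U V c : ℝ) : ℂ) else 0) =
      ∑ l ∈ dvs c, nn t c * (if Rough z c then (((if (N l : ℝ) ≤ V ∧ (N c : ℝ) ≤ U * N l then
        - VR.mu c * VR.lamb l else 0 : ℝ)) : ℂ) else 0) := by
    rw [← mul_sum]
    congr 1
    split_ifs with h
    · rw [VR.cq]; push_cast; rfl
    · simp
  rw [e1, cB, mul_sum]
  refine sum_congr rfl (fun l hl => ?_)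
  rw [mem_dvs hc.ne_zero] at hl
  have h1 : l * (c / l) = c := mul_div_of_dvd hl.1.ne_zero hl.2
  have h2 : Primary (c / l) := hc.quot hl.1 h1.symm
  have h3 : Squarefree (c / l) := hs.squarefree_of_dvd ⟨l, by rw [mul_comm]; exact h1.symm⟩
  by_cases hp : Prime l
  · have hNl : (0 : ℝ) < N l := by exact_mod_cast N_pos hl.1.ne_zero
    have hN : (N c : ℝ) = N l * N (c / l) := by
      rw [← Nat.cast_mul, ← N_mul, h1]
    have hmem1 : l ∈ PP V ↔ (N l : ℝ) ≤ V := by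
      rw [mem_PP]
      exact ⟨fun h => h.1.2, fun h => ⟨⟨hl.1, h⟩, hp⟩⟩
    have hmem2 : c / l ∈ SPB U ↔ (N c : ℝ) ≤ U * N l := by
      rw [mem_SPB, hN, mul_comm U, mul_le_mul_iff_right₀ hNl]
      exact ⟨fun h => h.1.2, fun h => ⟨⟨h2, h⟩, h3⟩⟩
    have hR : Rough z c ↔ Rough z (c / l) ∧ Rough z l := by
      constructor
      · intro h
        exact ⟨h.of_dvd ⟨l, by rw [mul_comm]; exact h1.symm⟩, h.of_dvd hl.2⟩
      · rintro ⟨h4, h5⟩
        rw [← h1]
        exact h5.mul h4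
    have hnn : nn t c = nn t l * nn t (c / l) := by
      conv_lhs => rw [← h1]
      exact nn_mul t
    have hmu := VR.mu_div_mul_lamb hc hl.1 hl.2
    rw [FB, GB, hnn]
    simp only [hmem1, hmem2, hR]
    by_cases c1 : (N l : ℝ) ≤ V <;> by_cases c2 : (N c : ℝ) ≤ U * N l <;>
      by_cases c3 : Rough z (c / l) <;> by_cases c4 : Rough z l <;>
      simp only [c1, c2, c3, c4, and_self, and_true, and_false, if_true,
        if_false, mul_zero, zero_mul, Complex.ofReal_zero]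
    rw [← hmu]
    push_cast
    field_simp
  · have e2 : VR.lamb l = 0 := VR.lamb_of_not_prime hp
    have e3 : GB V z t L l = 0 := by
      unfold GB
      exact if_neg (fun h => hp (mem_PP.1 h.1).2)
    rw [e2, e3]
    simp

/-- the size conditions of the centre -/
theorem cen_size {X A κ : ℝ} (hX : (4 : ℝ) ^ (30 : ℝ) ≤ X) (hκ : κ ≤ 1 / 100)
    (hA : X ^ (1 / 2 - κ) ≤ 2 * A) : (4 * A) ^ (1 / 4 : ℝ) ≤ A / X ^ (1 / 3 : ℝ) ∧
      X ^ (1 / 4 : ℝ) ≤ A := by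
  have hX4 : (4 : ℝ) ≤ X := by
    refine le_trans ?_ hX
    calc (4 : ℝ) = 4 ^ (1 : ℝ) := by norm_num
      _ ≤ 4 ^ (30 : ℝ) := Real.rpow_le_rpow_of_exponent_le (by norm_num) (by norm_num)
  have hX1 : 1 ≤ X := by linarith
  have hX0 : 0 < X := by linarith
  have hx : (4 : ℝ) ≤ X ^ (1 / 30 : ℝ) := by
    calc (4 : ℝ) = ((4 : ℝ) ^ (30 : ℝ)) ^ (1 / 30 : ℝ) := by
          rw [← Real.rpow_mul (by norm_num)]; norm_num
      _ ≤ X ^ (1 / 30 : ℝ) := Real.rpow_le_rpow (by positivity) hX (by norm_num)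
  have hA2 : X ^ (49 / 100 : ℝ) ≤ 2 * A := (rle hX1 (by linarith)).trans hA
  have hA3 : X ^ (137 / 300 : ℝ) * 2 ≤ A := by
    have e1 : X ^ (137 / 300 : ℝ) * X ^ (1 / 30 : ℝ) = X ^ (49 / 100 : ℝ) := by
      rw [← Real.rpow_add hX0]; norm_num
    have e2 : X ^ (137 / 300 : ℝ) * 4 ≤ X ^ (137 / 300 : ℝ) * X ^ (1 / 30 : ℝ) := by gcongr
    rw [e1] at e2
    linarith
  have hp : 0 < X ^ (137 / 300 : ℝ) := by positivity
  have hA0 : 0 < A := by linarith
  constructor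
  · rw [le_div_iff₀ (by positivity)]
    have e1 : 4 * X ^ (4 / 3 : ℝ) ≤ A ^ 3 := by
      calc 4 * X ^ (4 / 3 : ℝ) ≤ 8 * X ^ (137 / 100 : ℝ) := by
            have : X ^ (4 / 3 : ℝ) ≤ X ^ (137 / 100 : ℝ) := rle hX1 (by norm_num)
            have : 0 ≤ X ^ (137 / 100 : ℝ) := by positivity
            linarith
        _ = (X ^ (137 / 300 : ℝ) * 2) ^ 3 := by
            rw [mul_pow, ← Real.rpow_natCast (X ^ (137 / 300 : ℝ)) 3, ← Real.rpow_mul hX0.le]
            norm_num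
            ring
        _ ≤ A ^ 3 := pow_le_pow_left₀ (by positivity) hA3 3
    calc (4 * A) ^ (1 / 4 : ℝ) * X ^ (1 / 3 : ℝ)
        = (4 * A) ^ (1 / 4 : ℝ) * (X ^ (4 / 3 : ℝ)) ^ (1 / 4 : ℝ) := by
          rw [← Real.rpow_mul hX0.le]; norm_num
      _ = (4 * A * X ^ (4 / 3 : ℝ)) ^ (1 / 4 : ℝ) := by
          rw [Real.mul_rpow (x := 4 * A) (by positivity) (by positivity)]
      _ ≤ (A ^ 4) ^ (1 / 4 : ℝ) := by
          apply Real.rpow_le_rpow (by positivity) _ (by norm_num)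
          calc 4 * A * X ^ (4 / 3 : ℝ) = A * (4 * X ^ (4 / 3 : ℝ)) := by ring
            _ ≤ A * A ^ 3 := by gcongr
            _ = A ^ 4 := by ring
      _ = A := by
          rw [← Real.rpow_natCast A 4, ← Real.rpow_mul hA0.le]
          norm_num
  · calc X ^ (1 / 4 : ℝ) ≤ X ^ (137 / 300 : ℝ) := rle hX1 (by norm_num)
      _ ≤ A := by linarith

theorem cen_H {X A H κ θ : ℝ} (hθ : 0 < θ) (hX1 : 1 ≤ X) (hX : (8 : ℝ) ^ (8 / θ) ≤ X)
    (hκ : κ ≤ θ / 2) (hA : X ^ (1 / 4 : ℝ) ≤ A) (hH : H ≤ A ^ (1 + κ)) :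
    8 * H ≤ A ^ (1 + θ) := by
  have hX0 : 0 < X := by linarith
  have hA1 : 1 ≤ A := (Real.one_le_rpow hX1 (by norm_num)).trans hA
  have hA0 : 0 < A := by linarith
  have h8 : (8 : ℝ) ≤ A ^ (θ / 2) := by
    calc (8 : ℝ) = ((8 : ℝ) ^ (8 / θ)) ^ (θ / 8) := by
          rw [← Real.rpow_mul (by norm_num)]
          have : 8 / θ * (θ / 8) = 1 := by field_simp
          rw [this, Real.rpow_one]
      _ ≤ X ^ (θ / 8) := Real.rpow_le_rpow (by positivity) hX (by positivity)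
      _ = (X ^ (1 / 4 : ℝ)) ^ (θ / 2) := by
          rw [← Real.rpow_mul hX0.le]; congr 1; ring
      _ ≤ A ^ (θ / 2) := Real.rpow_le_rpow (by positivity) hA (by positivity)
  calc 8 * H ≤ A ^ (θ / 2) * A ^ (1 + κ) := by
        have : 0 ≤ A ^ (1 + κ) := by positivity
        calc 8 * H ≤ 8 * A ^ (1 + κ) := by linarith
          _ ≤ _ := by gcongr
    _ = A ^ (θ / 2 + (1 + κ)) := by rw [← Real.rpow_add hA0]
    _ ≤ A ^ (1 + θ) := rle hA1 (by linarith)

open Classical in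
/-- **large values in the centre for `cq`** -/
theorem cenLV_cq (hLS4 : LS4Hyp) (hCEN1 : CEN1Hyp) (η : ℝ) :
    CenLV (fun X c => ((VR.cq (X ^ (1 / 3 : ℝ)) (X ^ (1 / 3 : ℝ)) c : ℝ) : ℂ)) η 6 := by
  obtain ⟨θ, hθ0, hθ1, C, hC, hB⟩ := blkB_bound hLS4 hCEN1
  refine ⟨min (1 / 100) (θ / 2), lt_min (by norm_num) (by positivity), θ, hθ0, C, hC,
    max ((4 : ℝ) ^ (30 : ℝ)) ((8 : ℝ) ^ (8 / θ)), ?_, ?_⟩
  · refine le_trans ?_ (le_max_left _ _)
    calc (3 : ℝ) ≤ 4 ^ (1 : ℝ) := by norm_num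
      _ ≤ 4 ^ (30 : ℝ) := Real.rpow_le_rpow_of_exponent_le (by norm_num) (by norm_num)
  intro X A H δ hX hA hA1 hA2 hH hδ0 hδ1
  have hX4 := (le_max_left _ _).trans hX
  have hX8 := (le_max_right _ _).trans hX
  have hX3 : 3 ≤ X := by
    refine le_trans ?_ hX4
    calc (3 : ℝ) ≤ 4 ^ (1 : ℝ) := by norm_num
      _ ≤ 4 ^ (30 : ℝ) := Real.rpow_le_rpow_of_exponent_le (by norm_num) (by norm_num)
  have hX1 : 1 ≤ X := by linarith
  have hX0 : 0 < X := by linarith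
  obtain ⟨hs1, hs2⟩ := cen_size hX4 (min_le_left _ _) hA1
  have hs3 := cen_H hθ0 hX1 hX8 (min_le_right _ _) hs2 hH
  have hlog : 1 ≤ Real.log X := by
    rw [Real.le_log_iff_exp_le hX0]
    exact (Real.exp_one_lt_d9.le.trans (by norm_num)).trans hX3
  have hL : 0 < Real.log X := by linarith
  have hU : 1 ≤ X ^ (1 / 3 : ℝ) := Real.one_le_rpow hX1 (by norm_num)
  have hVL : Real.log (X ^ (1 / 3 : ℝ)) ≤ Real.log X := by
    rw [Real.log_rpow hX0]; linarith
  intro w Gw t hGw hw hws u hu l hl n a b hn hnab hr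
  have hn1 : (1 : ℝ) ≤ (N n : ℝ) ^ 3 := by
    have : (1 : ℝ) ≤ N n := by exact_mod_cast N_pos hn
    exact one_le_pow₀ this
  have hab0 : (0 : ℝ) ≤ 2 ^ a * (2 ^ b) ^ 2 := by positivity
  have hab : (2 : ℝ) ^ a * (2 ^ b) ^ 2 ≤ H := (le_mul_of_one_le_left hab0 hn1).trans hnab
  have key := hB A (X ^ (1 / 3 : ℝ)) (X ^ (1 / 3 : ℝ)) H δ (Real.log X * Gw) hA hU hU hs1 hs1
    hδ0 hδ1 hs3 _ _ (bdata_FG (z := X ^ η) (t := t) hL hVL)
    (fun m => (Real.log X : ℂ) * w m) (by positivity) (by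
      intro m
      have e1 : ‖(Real.log X : ℂ) * w m‖ + ∑ j ∈ range m,
          ‖(Real.log X : ℂ) * w j - (Real.log X : ℂ) * w (j + 1)‖ =
          Real.log X * (‖w m‖ + ∑ j ∈ range m, ‖w j - w (j + 1)‖) := by
        have e2 : ∀ v : ℂ, ‖(Real.log X : ℂ) * v‖ = Real.log X * ‖v‖ := by
          intro v
          rw [norm_mul, Complex.norm_real, Real.norm_of_nonneg hL.le]
        rw [e2, mul_add, mul_sum]
        congr 1
        refine sum_congr rfl (fun j _ => ?_)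
        rw [← mul_sub, e2]
      rw [e1]
      exact mul_le_mul_of_nonneg_left (hw m) hL.le) (by
      intro m hm
      refine (hws m ?_).1
      intro h0
      apply hm
      simp only [h0, mul_zero]) (fun c => w (N c) * nn t c *
        (if Rough (X ^ η) c then ((VR.cq (X ^ (1 / 3 : ℝ)) (X ^ (1 / 3 : ℝ)) c : ℝ) : ℂ) else 0))
      (by
        intro c hc
        rw [mem_SPB] at hc
        rw [mul_assoc, cq_eq_cB (L := Real.log X) hL.ne' hc.1.1 hc.2]
        ring)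
      u l n a b hab hr
  have hT : 1 ≤ (1 + |t|) ^ (6 : ℝ) := Real.one_le_rpow (by linarith [abs_nonneg t]) (by norm_num)
  calc _ ≤ C * (Real.log X * Gw) ^ 2 * A ^ (2 - θ) * ((2 : ℝ) ^ a * (2 ^ b) ^ 2) ^ (1 / 3 : ℝ) := key
    _ = (C * Real.log X ^ 2 * A ^ (2 - θ)) * 1 * Gw ^ 2 *
        ((2 : ℝ) ^ a * (2 ^ b) ^ 2) ^ (1 / 3 : ℝ) := by ring
    _ ≤ (C * Real.log X ^ 2 * A ^ (2 - θ)) * (1 + |t|) ^ (6 : ℝ) * Gw ^ 2 *
        ((2 : ℝ) ^ a * (2 ^ b) ^ 2) ^ (1 / 3 : ℝ) := by gcongr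

end Vale.Agent.P006.LVC
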