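import Vale.Agent.P006.LVC.LvB6
import Vale.Agent.P006.SV.BV
import Vale.Agent.P006.DN.NCint
import Vale.Agent.P006.H611.TIIRed

/-!
# P006, block LV-C, part 14: from large values for a sequence to `LVhyp` for the family of blocks
-/

namespace Vale.Agent.P006.LVC

open Finset

/-- the twist `(N c)^{it}` -/
noncomputable def nn (t : ℝ) (c : O) : ℂ := (((N c : ℕ) : ℝ) : ℂ) ^ ((t : ℂ) * Complex.I)

theorem norm_nn_le (t : ℝ) (c : O) : ‖nn t c‖ ≤ 1 := by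
  unfold nn
  by_cases h : N c = 0
  · rw [h]
    by_cases ht : t = 0
    · simp [ht]
    · have : ((t : ℂ) * Complex.I) ≠ 0 := by simp [ht]
      rw [Nat.cast_zero, Complex.ofReal_zero, Complex.zero_cpow this]
      simp
  · have h0 : (0 : ℝ) < N c := by
      have := Nat.pos_of_ne_zero h
      exact_mod_cast this
    rw [Complex.norm_cpow_eq_rpow_re_of_pos h0]
    simp

theorem nn_mul (t : ℝ) {m l : O} : nn t (m * l) = nn t m * nn t l := by
  unfold nn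
  rw [N_mul, Nat.cast_mul, Complex.ofReal_mul,
    Complex.mul_cpow_ofReal_nonneg (Nat.cast_nonneg _) (Nat.cast_nonneg _)]

/-- large values for the sequence `f` with any weight of bounded variation in the norm and any
twist `(N c)^{it}` -/
def LVP (f : O → ℂ) (A δ H M q : ℝ) : Prop :=
  ∀ (w : ℕ → ℂ) (Gw t : ℝ), 0 ≤ Gw →
    (∀ n, ‖w n‖ + ∑ j ∈ range n, ‖w j - w (j + 1)‖ ≤ Gw) →
    (∀ n : ℕ, w n ≠ 0 → A < n ∧ (n : ℝ) ≤ 2 * A) →
    ∀ u ∈ NC.U3, ∀ l ∈ range 3, ∀ (n : O) (a b : ℕ), n ≠ 0 →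
    (N n : ℝ) ^ 3 * (2 ^ a * (2 ^ b) ^ 2) ≤ H →
    NC.LVrange (2 * A) ((2 * A) ^ δ) a b →
    NC.blkS (fun c => w (N c) * nn t c * f c) (2 * A) u l n a b ≤
      M * (1 + |t|) ^ q * Gw ^ 2 * ((2 : ℝ) ^ a * (2 ^ b) ^ 2) ^ (1 / 3 : ℝ)

/-- monotone functions have bounded variation -/
theorem bv_mono {g : ℕ → ℝ} {M : ℝ} (h0 : ∀ n, 0 ≤ g n) (hM : ∀ n, g n ≤ M)
    (hm : Monotone g ∨ Antitone g) : SV.BV (2 * M) (fun n => (g n : ℂ)) := by
  have e0 : ∀ j, ‖((g j : ℝ) : ℂ) - ((g (j + 1) : ℝ) : ℂ)‖ = |g j - g (j + 1)| := by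
    intro j
    rw [← Complex.ofReal_sub, Complex.norm_real, Real.norm_eq_abs]
  intro n
  have h2 : ‖((g n : ℝ) : ℂ)‖ = g n := by
    rw [Complex.norm_real, Real.norm_eq_abs, abs_of_nonneg (h0 n)]
  simp only [h2, e0]
  have h3 : ∑ j ∈ range n, |g j - g (j + 1)| ≤ M := by
    rcases hm with hm | hm
    · have e1 : ∑ j ∈ range n, |g j - g (j + 1)| = g n - g 0 := by
        rw [← sum_range_sub]
        refine sum_congr rfl (fun j _ => ?_)
        rw [abs_of_nonpos (by linarith [hm (Nat.le_succ j)])]; ring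
      rw [e1]; linarith [h0 0, hM n]
    · have e1 : ∑ j ∈ range n, |g j - g (j + 1)| = g 0 - g n := by
        rw [← sum_range_sub']
        refine sum_congr rfl (fun j _ => ?_)
        rw [abs_of_nonneg (by linarith [hm (Nat.le_succ j)])]
      rw [e1]; linarith [h0 n, hM 0]
  linarith [hM n]

/-- the clamped power -/
noncomputable def clp (i : ℕ) (A σ : ℝ) (n : ℕ) : ℝ :=
  (((max (2 ^ i) (min n (2 ^ (i + 1))) : ℕ) : ℝ) / A) ^ σ

theorem clp_bv {i : ℕ} {A σ : ℝ} (hA : A = 2 ^ i - 1 / 2) (hσ : |σ| ≤ 3 / 2) :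
    SV.BV 16 (fun n => (clp i A σ n : ℂ)) := by
  have h2i : (1 : ℝ) ≤ 2 ^ i := one_le_pow₀ (by norm_num)
  have hA0 : 0 < A := by rw [hA]; linarith
  have hA1 : (2 : ℝ) ^ i ≤ 2 * A := by rw [hA]; linarith
  have hA2 : A ≤ 2 ^ i := by rw [hA]; linarith
  rw [abs_le] at hσ
  have hlo : ∀ n : ℕ, (1 : ℝ) ≤ ((max (2 ^ i) (min n (2 ^ (i + 1))) : ℕ) : ℝ) / A := by
    intro n
    rw [one_le_div hA0]
    refine hA2.trans ?_
    exact_mod_cast le_max_left _ _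
  have hhi : ∀ n : ℕ, ((max (2 ^ i) (min n (2 ^ (i + 1))) : ℕ) : ℝ) / A ≤ 4 := by
    intro n
    rw [div_le_iff₀ hA0]
    have h1 : max (2 ^ i) (min n (2 ^ (i + 1))) ≤ 2 ^ (i + 1) := by
      apply max_le (Nat.pow_le_pow_right (by norm_num) (by omega)) (min_le_right _ _)
    have h2 : ((max (2 ^ i) (min n (2 ^ (i + 1))) : ℕ) : ℝ) ≤ (2 : ℝ) ^ (i + 1) := by
      exact_mod_cast h1
    refine h2.trans ?_
    rw [pow_succ]
    linarith
  have hmono : Monotone (fun n : ℕ => ((max (2 ^ i) (min n (2 ^ (i + 1))) : ℕ) : ℝ) / A) := by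
    intro m n hmn
    apply div_le_div_of_nonneg_right _ hA0.le
    have : max (2 ^ i) (min m (2 ^ (i + 1))) ≤ max (2 ^ i) (min n (2 ^ (i + 1))) :=
      max_le_max le_rfl (min_le_min hmn le_rfl)
    exact_mod_cast this
  have h := bv_mono (g := clp i A σ) (M := 8) (fun n => by
      unfold clp; exact Real.rpow_nonneg (by linarith [hlo n]) _) (fun n => by
      unfold clp
      calc _ ≤ (((max (2 ^ i) (min n (2 ^ (i + 1))) : ℕ) : ℝ) / A) ^ (3 / 2 : ℝ) :=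
            Real.rpow_le_rpow_of_exponent_le (hlo n) hσ.2
        _ ≤ 4 ^ (3 / 2 : ℝ) := Real.rpow_le_rpow (by linarith [hlo n]) (hhi n) (by norm_num)
        _ = 8 := by
            rw [show (4 : ℝ) = 2 ^ (2 : ℝ) by norm_num, ← Real.rpow_mul (by norm_num)]
            norm_num) (by
      rcases le_total 0 σ with hs | hs
      · left
        intro m n hmn
        exact Real.rpow_le_rpow (by linarith [hlo m]) (hmono hmn) hs
      · right
        intro m n hmn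
        exact Real.rpow_le_rpow_of_nonpos (by linarith [hlo m]) (hmono hmn) hs)
  exact h.mono (by norm_num)

/-- the weight of the block `s` -/
noncomputable def wS (i l s : ℕ) (y1 y2 A σ : ℝ) (n : ℕ) : ℂ :=
  if y1 < (n : ℝ) then (if s * 2 ^ l ≤ n then (if 2 ^ i ≤ n then (if n < 2 ^ (i + 1) then
    (if n < (s + 1) * 2 ^ l then (if (n : ℝ) ≤ y2 then (clp i A σ n : ℂ) else 0) else 0) else 0)
    else 0) else 0) else 0

theorem wS_bv {i l s : ℕ} {y1 y2 A σ : ℝ} (hA : A = 2 ^ i - 1 / 2) (hσ : |σ| ≤ 3 / 2) :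
    SV.BV 128 (wS i l s y1 y2 A σ) := by
  have h := ((((((clp_bv hA hσ).cut_le y2).cut_above ((s + 1) * 2 ^ l)).cut_above
    (2 ^ (i + 1))).cut_below (2 ^ i)).cut_below (s * 2 ^ l)).cut_gt y1
  refine SV.BV.mono h (by norm_num)

theorem wS_eq {i l s : ℕ} {y1 y2 A σ : ℝ} (n : ℕ) :
    wS i l s y1 y2 A σ n = if (y1 < (n : ℝ) ∧ (n : ℝ) ≤ y2) ∧ (2 ^ i ≤ n ∧ n < 2 ^ (i + 1)) ∧
      n / 2 ^ l = s then (((n : ℝ) / A) ^ σ : ℝ) else 0 := by
  have h2l : 0 < 2 ^ l := by positivity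
  have hs : n / 2 ^ l = s ↔ s * 2 ^ l ≤ n ∧ n < (s + 1) * 2 ^ l := by
    rw [Nat.div_eq_iff h2l]
    constructor
    · rintro ⟨h1, h2⟩
      refine ⟨h1, ?_⟩
      rw [add_mul, one_mul]; omega
    · rintro ⟨h1, h2⟩
      rw [add_mul, one_mul] at h2
      exact ⟨h1, by omega⟩
  simp only [hs]
  unfold wS
  by_cases c1 : y1 < (n : ℝ) <;> by_cases c2 : s * 2 ^ l ≤ n <;> by_cases c3 : 2 ^ i ≤ n <;>
    by_cases c4 : n < 2 ^ (i + 1) <;> by_cases c5 : n < (s + 1) * 2 ^ l <;>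
    by_cases c6 : (n : ℝ) ≤ y2 <;> simp [c1, c2, c3, c4, c5, c6]
  unfold clp
  rw [min_eq_left c4.le, max_eq_right c3]

/-- the block `s` of a sequence cut to the dyadic interval `i` and to `(y₁, y₂]` -/
noncomputable def blk (g : O → ℂ) (i l s : ℕ) (a : O) : ℂ :=
  open Classical in if a ∈ H611.DB i ∧ N a / 2 ^ l = s then g a else 0

open Classical in
/-- the cut sequence -/
noncomputable def cutf (ρ : ℂ) (y1 y2 : ℝ) (f : O → ℂ) (a : O) : ℂ :=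
  if y1 < (N a : ℝ) ∧ (N a : ℝ) ≤ y2 then ρ * f a else 0

theorem twc_blk {i l s : ℕ} {y1 y2 A σ t : ℝ} (hA : A = 2 ^ i - 1 / 2) (ρ : ℂ) (f : O → ℂ)
    {c : O} (hc : c ∈ SPB (2 * A)) :
    DN.twc (blk (cutf ρ y1 y2 f) i l s) A σ t c =
      (ρ * ((A : ℂ) ^ (-((t : ℂ) * Complex.I)))) * (wS i l s y1 y2 A σ (N c) * nn t c * f c) := by
  have h2i : (1 : ℝ) ≤ 2 ^ i := one_le_pow₀ (by norm_num)
  have hA0 : 0 < A := by rw [hA]; linarith
  rw [mem_SPB] at hc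
  have hN : (0 : ℝ) < N c := by exact_mod_cast N_pos hc.1.1.ne_zero
  have hDB : c ∈ H611.DB i ↔ 2 ^ i ≤ N c ∧ N c < 2 ^ (i + 1) := by
    rw [H611.mem_DB, Nat.log_eq_iff (Or.inr ⟨by norm_num, by have := hc.1.1.one_le_N; omega⟩)]
    exact ⟨fun h => h.2.2, fun h => ⟨hc.1.1, hc.2, h⟩⟩
  have hpow : ((((N c : ℝ) / A : ℝ) : ℂ) ^ ((σ : ℂ) + t * Complex.I)) =
      (((((N c : ℕ) : ℝ) / A) ^ σ : ℝ) : ℂ) * nn t c * (A : ℂ) ^ (-((t : ℂ) * Complex.I)) := by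
    have h0 : (0 : ℝ) < (N c : ℝ) / A := by positivity
    rw [Complex.cpow_add _ _ (by exact_mod_cast h0.ne'), Complex.ofReal_cpow h0.le]
    have h1 : ((((N c : ℝ) / A : ℝ) : ℂ) ^ ((t : ℂ) * Complex.I)) =
        nn t c * (A : ℂ) ^ (-((t : ℂ) * Complex.I)) := by
      unfold nn
      rw [div_eq_mul_inv, Complex.ofReal_mul,
        Complex.mul_cpow_ofReal_nonneg hN.le (by positivity), Complex.ofReal_inv,
        Complex.inv_cpow _ _ (by
          rw [Complex.arg_ofReal_of_nonneg hA0.le]; exact Real.pi_pos.ne), Complex.cpow_neg]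
    rw [h1]; ring
  unfold DN.twc blk cutf
  rw [wS_eq, hpow]
  simp only [hDB]
  by_cases c1 : y1 < (N c : ℝ) ∧ (N c : ℝ) ≤ y2
  · by_cases c2 : (2 ^ i ≤ N c ∧ N c < 2 ^ (i + 1)) ∧ N c / 2 ^ l = s
    · rw [if_pos c2, if_pos c1, if_pos ⟨c1, c2⟩]; ring
    · rw [if_neg c2, if_neg (fun hh => c2 ⟨hh.2.1, hh.2.2⟩), Complex.ofReal_zero]; ring
  · rw [if_neg c1, if_neg (c := (y1 < (N c : ℝ) ∧ (N c : ℝ) ≤ y2) ∧
      (2 ^ i ≤ N c ∧ N c < 2 ^ (i + 1)) ∧ N c / 2 ^ l = s) (fun hh => c1 hh.1),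
      Complex.ofReal_zero, ite_self]; ring

end Vale.Agent.P006.LVC
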