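import Vale.Agent.P006.LVC.NCcen1

/-!
# P006, block LV-C, part 15: `LVhyp` for the family of blocks
-/

namespace Vale.Agent.P006.LVC

open Finset

theorem blkS_scale {γ γ' : O → ℂ} {R : ℝ} {κ : ℂ} (hκ : ‖κ‖ ≤ 1)
    (h : ∀ c ∈ SPB R, γ c = κ * γ' c) (u : O) (l : ℕ) (n : O) (a b : ℕ) :
    NC.blkS γ R u l n a b ≤ NC.blkS γ' R u l n a b := by
  rw [blkS_eq, blkS_eq]
  refine sum_le_sum (fun p _ => ?_)
  have e : ∑ c ∈ SPB R, γ c * (twist u l n c * psi2 p c) =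
      κ * ∑ c ∈ SPB R, γ' c * (twist u l n c * psi2 p c) := by
    rw [mul_sum]
    exact sum_congr rfl (fun c hc => by rw [h c hc]; ring)
  rw [e, norm_mul]
  apply pow_le_pow_left₀ (by positivity)
  exact mul_le_of_le_one_left (norm_nonneg _) hκ

theorem blkS_zero {γ : O → ℂ} {R : ℝ} (h : ∀ c ∈ SPB R, γ c = 0) (u : O) (l : ℕ) (n : O)
    (a b : ℕ) : NC.blkS γ R u l n a b = 0 := by
  rw [blkS_eq]
  refine sum_eq_zero (fun p _ => ?_)
  rw [sum_eq_zero (fun c hc => by rw [h c hc, zero_mul])]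
  norm_num

theorem lvhyp_of_LVP {f : O → ℂ} {i l : ℕ} {A δ H M q z y1 y2 σ t : ℝ} {ρ : ℂ}
    (hA : A = 2 ^ i - 1 / 2) (hσ : |σ| ≤ 3 / 2) (hM : 0 ≤ M) (hρ : ‖ρ‖ ≤ 1)
    (hrough : ∀ c, f c ≠ 0 → Rough z c) (hz : (2 * A) ^ (δ / 4) < z)
    (h : LVP f A δ H M q) (S : Finset ℕ) {nb : ℝ} (hnb : (2 : ℝ) ^ (i + 1) / 2 ^ l + 1 ≤ nb) :
    ∀ j ∈ NC.PB ((2 * A) ^ (δ / 4)),
      NC.LVhyp S (fun s r => DN.twc (blk (cutf ρ y1 y2 f) i l s) A σ t (j * r)) (2 * A / N j) H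
        ((2 * A / N j) ^ δ)
        ((nb * (128 ^ 2 * M * (1 + |t|) ^ q) / (2 * A) ^ 2) * (2 * A / N j) ^ 2) := by
  classical
  have h2i : (1 : ℝ) ≤ 2 ^ i := one_le_pow₀ (by norm_num)
  have hA0 : 0 < A := by rw [hA]; linarith
  have ht0 : 0 < (1 + |t|) ^ q := Real.rpow_pos_of_pos (by positivity) _
  have hnb0 : 0 ≤ nb := le_trans (by positivity) hnb
  intro j hj
  rw [NC.mem_PB] at hj
  by_cases hj1 : j = 1
  · subst hj1
    simp only [N_one, Nat.cast_one, div_one, one_mul]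
    intro a b hab hr u hu l' hl' n hn hnab
    set S1 := S.filter (fun s => s ≤ 2 ^ (i + 1) / 2 ^ l) with hS1
    have e1 : ∑ s ∈ S, NC.blkS (fun r => DN.twc (blk (cutf ρ y1 y2 f) i l s) A σ t r) (2 * A)
        u l' n a b =
        ∑ s ∈ S1, NC.blkS (fun r => DN.twc (blk (cutf ρ y1 y2 f) i l s) A σ t r) (2 * A)
        u l' n a b := by
      symm
      apply sum_subset (filter_subset _ _)
      intro s hs hs'
      apply blkS_zero
      intro c _
      unfold DN.twc blk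
      rw [if_neg, zero_mul]
      rintro ⟨h1, h2⟩
      apply hs'
      rw [mem_filter]
      refine ⟨hs, ?_⟩
      rw [← h2]
      exact Nat.div_le_div_right (H611.DB_bounds h1).2.le
    rw [e1]
    have e2 : ∀ s ∈ S1, NC.blkS (fun r => DN.twc (blk (cutf ρ y1 y2 f) i l s) A σ t r) (2 * A)
        u l' n a b ≤ M * (1 + |t|) ^ q * 128 ^ 2 * ((2 : ℝ) ^ a * (2 ^ b) ^ 2) ^ (1 / 3 : ℝ) := by
      intro s _
      have hκ : ‖ρ * ((A : ℂ) ^ (-((t : ℂ) * Complex.I)))‖ ≤ 1 := by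
        rw [norm_mul, Complex.norm_cpow_eq_rpow_re_of_pos hA0]
        simp only [Complex.neg_re, Complex.mul_re, Complex.ofReal_re, Complex.I_re, mul_zero,
          Complex.ofReal_im, Complex.I_im, sub_zero, neg_zero, Real.rpow_zero, mul_one]
        exact hρ
      refine (blkS_scale hκ (fun c hc => twc_blk hA ρ f hc) u l' n a b).trans ?_
      refine h (wS i l s y1 y2 A σ) 128 t (by norm_num) (wS_bv hA hσ) ?_ u hu l' hl' n a b hn hnab
        hr
      intro m hm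
      rw [wS_eq] at hm
      have hm2 : (2 ^ i ≤ m ∧ m < 2 ^ (i + 1)) := by
        by_contra hc
        apply hm
        rw [if_neg (fun hh => hc hh.2.1), Complex.ofReal_zero]
      have e3 : (2 : ℝ) ^ i ≤ m := by exact_mod_cast hm2.1
      have e4 : ((m + 1 : ℕ) : ℝ) ≤ 2 ^ (i + 1) := by exact_mod_cast hm2.2
      push_cast at e4
      rw [pow_succ] at e4
      constructor
      · rw [hA]; linarith
      · rw [hA]; linarith
    calc _ ≤ ∑ s ∈ S1, M * (1 + |t|) ^ q * 128 ^ 2 *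
          ((2 : ℝ) ^ a * (2 ^ b) ^ 2) ^ (1 / 3 : ℝ) := sum_le_sum e2
      _ = (S1.card : ℝ) * (M * (1 + |t|) ^ q * 128 ^ 2 *
          ((2 : ℝ) ^ a * (2 ^ b) ^ 2) ^ (1 / 3 : ℝ)) := by rw [sum_const, nsmul_eq_mul]
      _ ≤ nb * (M * (1 + |t|) ^ q * 128 ^ 2 *
          ((2 : ℝ) ^ a * (2 ^ b) ^ 2) ^ (1 / 3 : ℝ)) := by
          apply mul_le_mul_of_nonneg_right _ (by positivity)
          refine le_trans ?_ hnb
          have e5 : S1 ⊆ range (2 ^ (i + 1) / 2 ^ l + 1) := by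
            intro s hs
            rw [hS1, mem_filter] at hs
            rw [mem_range]; omega
          have e6 := card_le_card e5
          rw [card_range] at e6
          have e7 : ((2 ^ (i + 1) / 2 ^ l : ℕ) : ℝ) ≤ ((2 ^ (i + 1) : ℕ) : ℝ) / ((2 ^ l : ℕ) : ℝ) :=
            Nat.cast_div_le
          push_cast at e7
          calc (S1.card : ℝ) ≤ ((2 ^ (i + 1) / 2 ^ l + 1 : ℕ) : ℝ) := by exact_mod_cast e6
            _ ≤ (2 : ℝ) ^ (i + 1) / 2 ^ l + 1 := by push_cast; linarith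
      _ = _ := by field_simp
  · intro a b _ _ u _ l' _ n _ _
    have hz0 : ∀ r, f (j * r) = 0 := by
      intro r
      by_contra h0
      have h1 := hrough _ h0
      obtain ⟨p, hp1, hp2, hp3⟩ := exists_primary_prime_dvd (c := j) (d := j) hj.2.1 dvd_rfl
        (fun hu => hj1 (hj.2.1.eq_one hu))
      have h2 : z ≤ N p := h1 p hp2 (dvd_mul_of_dvd_left hp3 r)
      have h3 : (N p : ℝ) ≤ N j := by
        exact_mod_cast Nat.le_of_dvd (N_pos hj.2.1.ne_zero) (N_dvd_N hp3)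
      linarith [hj.1]
    rw [sum_eq_zero]
    · positivity
    · intro s _
      apply blkS_zero
      intro c _
      unfold DN.twc blk cutf
      simp [hz0]

end Vale.Agent.P006.LVC
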