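import Vale.Agent.P006.LVC.NCcen3

/-!
# P006, block LV-C, part 17: the non-cube bound in the centre from large values
-/

namespace Vale.Agent.P006.LVC

open Finset

theorem LVP.mono {f : O → ℂ} {A δ H M M' q : ℝ} (h : LVP f A δ H M q) (hM : M ≤ M') :
    LVP f A δ H M' q := by
  intro w Gw t hGw hw hws u hu l hl n a b hn hnab hr
  refine (h w Gw t hGw hw hws u hu l hl n a b hn hnab hr).trans ?_
  gcongr

/-- the final inequality of `nccen_of_lv` -/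
theorem final_ineq {C2 K A H P Q T e Le M3 D : ℝ} (hC2 : 0 ≤ C2) (hK : 0 ≤ K) (hA : 1 ≤ A)
    (hH : 0 ≤ H) (hP : 0 ≤ P) (hLe : 0 ≤ Le) (hQ : 0 ≤ Q) (hT : 1 ≤ T)
    (h1 : Le * M3 ≤ K * (T * A ^ (-e))) (h2 : D ≤ A ^ (-e)) :
    C2 * (2 * A) ^ 2 * H * (P + Le * (Q + M3) + D) ≤
      (4 * C2 * (K + 1)) * A ^ 2 * H * (P + Le * Q + T * A ^ (-e)) := by
  have hA0 : 0 < A := by linarith
  have hAe : 0 ≤ A ^ (-e) := by positivity
  have h3 : D ≤ T * A ^ (-e) := h2.trans (le_mul_of_one_le_left hAe hT)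
  have hLQ : 0 ≤ Le * Q := by positivity
  have hT0 : 0 ≤ T * A ^ (-e) := by positivity
  have h4 : P + Le * (Q + M3) + D ≤ (K + 1) * (P + Le * Q + T * A ^ (-e)) := by
    have e1 : 0 ≤ K * (P + Le * Q) := by positivity
    calc P + Le * (Q + M3) + D = P + Le * Q + Le * M3 + D := by ring
      _ ≤ P + Le * Q + K * (T * A ^ (-e)) + T * A ^ (-e) := by linarith
      _ ≤ P + Le * Q + K * (T * A ^ (-e)) + T * A ^ (-e) + K * (P + Le * Q) := by linarith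
      _ = _ := by ring
  calc C2 * (2 * A) ^ 2 * H * (P + Le * (Q + M3) + D)
      ≤ C2 * (2 * A) ^ 2 * H * ((K + 1) * (P + Le * Q + T * A ^ (-e))) :=
        mul_le_mul_of_nonneg_left h4 (by positivity)
    _ = _ := by ring

theorem twc_fam_supp {g : ℝ → O → ℂ} {η X y1 y2 : ℝ} {ρ : ℂ} {i l s : ℕ} {A σ t : ℝ} {a : O}
    (h : DN.twc (fam g η X y1 y2 ρ i l s) A σ t a ≠ 0) : Primary a ∧ Squarefree a := by
  classical
  have h1 : fam g η X y1 y2 ρ i l s a ≠ 0 := by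
    intro h0
    apply h
    unfold DN.twc
    rw [h0, zero_mul]
  have h2 : a ∈ H611.DB i ∧ N a / 2 ^ l = s := by
    by_contra hc
    apply h1
    unfold fam blk
    rw [if_neg hc]
  have h3 := H611.mem_DB.1 h2.1
  exact ⟨h3.1, h3.2.1⟩

theorem nccen_of_lv {g : ℝ → O → ℂ} {η q : ℝ} (hη : 0 < η) (hq : 0 ≤ q) (hLV : CenLV g η q) :
    NCcen g η q := by
  classical
  obtain ⟨κ1, hκ1, θ, hθ, C1, hC1, X0, hX0, hLV⟩ := hLV
  obtain ⟨Cc, hCc, hcls⟩ := NC.clsc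
  obtain ⟨δ, hδ0, hδ1, hδη⟩ : ∃ δ : ℝ, 0 < δ ∧ δ ≤ 1 / 9 ∧ δ ≤ η :=
    ⟨min (1 / 9) η, lt_min (by norm_num) hη, min_le_left _ _, min_le_right _ _⟩
  obtain ⟨C2, hC2, hgen⟩ := NC.nc_general hδ0 hδ1 NC.hbsq hCc hcls
  obtain ⟨θ', hθ'0, hθ'1, hθ'θ⟩ : ∃ θ' : ℝ, 0 < θ' ∧ θ' ≤ 1 ∧ θ' ≤ θ :=
    ⟨min 1 θ, lt_min one_pos hθ, min_le_left _ _, min_le_right _ _⟩
  obtain ⟨κ, hκ0, hκκ, hκ100, hκδ⟩ : ∃ κ : ℝ, 0 < κ ∧ κ ≤ κ1 ∧ κ ≤ 1 / 100 ∧ κ ≤ δ / 16 :=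
    ⟨min κ1 (min (1 / 100) (δ / 16)), lt_min hκ1 (lt_min (by norm_num) (by positivity)),
      min_le_left _ _, (min_le_right _ _).trans (min_le_left _ _),
      (min_le_right _ _).trans (min_le_right _ _)⟩
  obtain ⟨e, he0, heθ, heδ⟩ : ∃ e : ℝ, 0 < e ∧ e ≤ θ' / 40 ∧ e ≤ δ / 96 :=
    ⟨min (θ' / 40) (δ / 96), lt_min (by positivity) (by positivity), min_le_left _ _,
      min_le_right _ _⟩
  obtain ⟨C3, hC3, hsmall⟩ := small_case (A0 := max X0 4) (by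
    have := le_max_right X0 4; linarith)
  set K : ℝ := (1 + 1 / (θ' / 40)) ^ 3 * (3 * 128 ^ 2 * C1 * (1 / (θ' / 40)) ^ 2 * 2) with hK
  have hK0 : 0 ≤ K := by positivity
  refine ⟨κ, hκ0, e, he0, max C3 (4 * C2 * (K + 1)), lt_of_lt_of_le hC3 (le_max_left _ _), ?_⟩
  intro X y1 y2 σ t i l ρ S hX hi1 hi2 hil hσ hρ A hA hFam H Q0 J0 sw hH hHA hQ0 hJ0 hsw hSW
  have h2i : (1 : ℝ) ≤ 2 ^ i := one_le_pow₀ (by norm_num)
  have hX0' : 0 < X := by linarith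
  have hX1 : 1 ≤ X := by linarith
  have hApos : 0 < A := by rw [hA]; linarith
  have hA1 : 1 ≤ A := by
    by_contra hlt
    push Not at hlt
    have : A ^ (1 + κ) < 1 := Real.rpow_lt_one hApos.le hlt (by linarith)
    linarith
  have hA2i : A ≤ 2 ^ i := by rw [hA]; linarith
  have h2iA : (2 : ℝ) ^ i ≤ 2 * A := by rw [hA]; linarith
  have hH0 : 0 < H := by linarith
  have hHp : 0 < H ^ (1 / 3 : ℝ) := by positivity
  have hH1 : 1 ≤ H ^ (1 / 3 : ℝ) := Real.one_le_rpow hH (by norm_num)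
  have hlog0 : 0 ≤ Real.log (2 * A) := Real.log_nonneg (by linarith)
  have hT1 : 1 ≤ (1 + |t|) ^ q := Real.one_le_rpow (by linarith [abs_nonneg t]) hq
  have hJp : 0 ≤ J0 ^ (-(1 / 2 : ℝ)) := Real.rpow_nonneg (by linarith) _
  have hQp : 0 ≤ Q0 ^ (-(1 / 3 : ℝ)) := Real.rpow_nonneg (by linarith) _
  have hQ03 : 0 ≤ Q0 ^ 3 := by positivity
  have hP0 : 0 ≤ Q0 ^ 3 * (J0 ^ 2 * sw + J0 ^ (-(1 / 2 : ℝ))) := by positivity
  have hLeQ : 0 ≤ (1 + Real.log (2 * A)) ^ 3 * Q0 ^ (-(1 / 3 : ℝ)) := by positivity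
  by_cases hXX : X ≤ max X0 4
  · -- bounded `X`
    have hXpow : X ^ (1 / 2 + κ) ≤ X := by
      conv_rhs => rw [← Real.rpow_one X]
      exact rle hX1 (by linarith)
    have hAX : A ≤ max X0 4 := hA2i.trans (hi2.trans (hXpow.trans hXX))
    have h1 := hsmall S (fun s => DN.twc (fam g η X y1 y2 ρ i l s) A σ t) hFam A H hA1 hAX hH
      (hHA.trans (rle hA1 (by linarith)))
    refine h1.trans ?_
    have h2 : 1 ≤ A ^ 2 * H ^ (1 / 3 : ℝ) * ((1 + |t|) ^ q * A ^ (-e)) := by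
      have e1 : 1 ≤ A ^ 2 * A ^ (-e) := by
        rw [← Real.rpow_two, ← Real.rpow_add hApos]
        exact Real.one_le_rpow hA1 (by linarith)
      calc (1 : ℝ) ≤ (A ^ 2 * A ^ (-e)) * (H ^ (1 / 3 : ℝ) * (1 + |t|) ^ q) :=
            one_le_mul_of_one_le_of_one_le e1 (one_le_mul_of_one_le_of_one_le hH1 hT1)
        _ = _ := by ring
    have hCm : 0 ≤ max C3 (4 * C2 * (K + 1)) := hC3.le.trans (le_max_left _ _)
    calc C3 ≤ max C3 (4 * C2 * (K + 1)) * 1 := by rw [mul_one]; exact le_max_left _ _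
      _ ≤ max C3 (4 * C2 * (K + 1)) * (A ^ 2 * H ^ (1 / 3 : ℝ) * ((1 + |t|) ^ q * A ^ (-e))) :=
          mul_le_mul_of_nonneg_left h2 hCm
      _ ≤ max C3 (4 * C2 * (K + 1)) * (A ^ 2 * H ^ (1 / 3 : ℝ) *
          (Q0 ^ 3 * (J0 ^ 2 * sw + J0 ^ (-(1 / 2 : ℝ))) +
        (1 + Real.log (2 * A)) ^ 3 * Q0 ^ (-(1 / 3 : ℝ)) + (1 + |t|) ^ q * A ^ (-e))) := by
          apply mul_le_mul_of_nonneg_left _ hCm
          apply mul_le_mul_of_nonneg_left _ (by positivity)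
          linarith
      _ = _ := by ring
  · -- large `X`
    have hXX' : max X0 4 ≤ X := (not_le.1 hXX).le
    have hXX0 : X0 ≤ X := (le_max_left _ _).trans hXX'
    have hX4 : 4 ≤ X := (le_max_right _ _).trans hXX'
    have hAlow : X ^ (1 / 2 - κ) ≤ 2 * A := hi1.trans h2iA
    have hLV1 := hLV X A H δ hXX0 hA1
      ((rle hX1 (by linarith)).trans hAlow)
      (hA2i.trans (hi2.trans (rle hX1 (by linarith)))) (hHA.trans (rle hA1 (by linarith)))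
      hδ0 hδ1
    have hLV2 := hLV1.mono (M' := C1 * Real.log X ^ 2 * A ^ (2 - θ')) (by
      have : A ^ (2 - θ) ≤ A ^ (2 - θ') := rle hA1 (by linarith)
      have h3 : 0 ≤ C1 * Real.log X ^ 2 := by positivity
      exact mul_le_mul_of_nonneg_left this h3)
    have hz : (2 * A) ^ (δ / 4) < X ^ η := by
      have e1 : 2 * A ≤ X ^ (2 : ℝ) := by
        calc 2 * A ≤ X ^ (1 / 2 : ℝ) * X ^ (1 / 2 + κ) := by
              have e2 : (2 : ℝ) ≤ X ^ (1 / 2 : ℝ) := by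
                calc (2 : ℝ) = (4 : ℝ) ^ (1 / 2 : ℝ) := by
                      rw [show (4 : ℝ) = 2 ^ (2 : ℝ) by norm_num, ← Real.rpow_mul (by norm_num)]
                      norm_num
                  _ ≤ X ^ (1 / 2 : ℝ) := Real.rpow_le_rpow (by norm_num) hX4 (by norm_num)
              have e3 : A ≤ X ^ (1 / 2 + κ) := hA2i.trans hi2
              exact mul_le_mul e2 e3 hApos.le (by positivity)
          _ = X ^ ((1 / 2 : ℝ) + (1 / 2 + κ)) := by rw [← Real.rpow_add hX0']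
          _ ≤ X ^ (2 : ℝ) := rle hX1 (by linarith)
      calc (2 * A) ^ (δ / 4) ≤ (X ^ (2 : ℝ)) ^ (δ / 4) :=
            Real.rpow_le_rpow (by positivity) e1 (by positivity)
        _ = X ^ (δ / 2) := by rw [← Real.rpow_mul hX0'.le]; congr 1; ring
        _ < X ^ η := Real.rpow_lt_rpow_of_exponent_lt (by linarith) (by linarith)
    have hX1e : 1 ≤ X ^ (θ' / 40) := Real.one_le_rpow hX1 (by positivity)
    have hnb : (2 : ℝ) ^ (i + 1) / 2 ^ l + 1 ≤ 3 * X ^ (θ' / 40) := by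
      have e1 : (2 : ℝ) ^ i / 2 ^ l ≤ X ^ (θ' / 40) := by
        rw [div_le_iff₀ (by positivity)]
        refine hil.trans ?_
        apply mul_le_mul_of_nonneg_right _ (by positivity)
        exact rle hX1 heθ
      have e2 : (2 : ℝ) ^ (i + 1) / 2 ^ l = 2 * (2 ^ i / 2 ^ l) := by rw [pow_succ]; ring
      rw [e2]; linarith
    set f : O → ℂ := fun c => if Rough (X ^ η) c then g X c else 0 with hf
    have hrough : ∀ c, f c ≠ 0 → Rough (X ^ η) c := by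
      intro c hc
      by_contra h0
      apply hc
      rw [hf]
      simp only [if_neg h0]
    have hM0 : 0 ≤ C1 * Real.log X ^ 2 * A ^ (2 - θ') := by positivity
    have hlv := lvhyp_of_LVP (y1 := y1) (y2 := y2) (t := t) hA hσ hM0 hρ hrough hz hLV2 S hnb
    set nb : ℝ := 3 * X ^ (θ' / 40) with hnbdef
    have hgen1 := hgen ℕ S (fun s => DN.twc (fam g η X y1 y2 ρ i l s) A σ t) ⟨hFam⟩ (2 * A) H Q0 J0
      sw (nb * (128 ^ 2 * (C1 * Real.log X ^ 2 * A ^ (2 - θ')) * (1 + |t|) ^ q) / (2 * A) ^ 2)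
      (by linarith) hH (by
        calc H ≤ A ^ (1 + κ) := hHA
          _ ≤ A ^ (1 + δ / 16) := rle hA1 (by linarith)
          _ ≤ (2 * A) ^ (1 + δ / 16) := Real.rpow_le_rpow hApos.le (by linarith) (by linarith))
      hQ0 hJ0 hsw (by positivity)
      hSW (by
        intro j hj
        have h5 := hlv j hj
        simp only [fam_eq]
        exact h5)
    simp only [NC.NCQ_eq_DN] at hgen1
    refine hgen1.trans ?_
    have hb1 := big_exp (T := (1 + |t|) ^ q) (nb := nb) hX hA1 hκ0 hκ100 hAlow hθ'0 hθ'1 rfl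
      (by linarith : (0 : ℝ) ≤ C1) (by positivity) le_rfl (by positivity)
    have hb2 : (1 + Real.log (2 * A)) ^ 3 *
        (nb * (128 ^ 2 * (C1 * Real.log X ^ 2 * A ^ (2 - θ')) * (1 + |t|) ^ q) / (2 * A) ^ 2) ≤
        K * ((1 + |t|) ^ q * A ^ (-e)) := by
      refine hb1.trans ?_
      apply mul_le_mul_of_nonneg_left _ hK0
      apply mul_le_mul_of_nonneg_left _ (by positivity)
      exact rle hA1 (by linarith)
    have hb3 : (2 * A) ^ (-(δ / 96)) ≤ A ^ (-e) := by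
      calc (2 * A) ^ (-(δ / 96)) ≤ A ^ (-(δ / 96)) :=
            Real.rpow_le_rpow_of_nonpos hApos (by linarith) (by linarith)
        _ ≤ A ^ (-e) := rle hA1 (by linarith)
    have hfi := final_ineq (A := A) (H := H ^ (1 / 3 : ℝ)) (T := (1 + |t|) ^ q) hC2.le hK0 hA1
      hHp.le hP0 (show 0 ≤ (1 + Real.log (2 * A)) ^ 3 by positivity) hQp hT1 hb2 hb3
    refine hfi.trans ?_
    have h6 : 0 ≤ A ^ 2 * H ^ (1 / 3 : ℝ) *
        (Q0 ^ 3 * (J0 ^ 2 * sw + J0 ^ (-(1 / 2 : ℝ))) +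
        (1 + Real.log (2 * A)) ^ 3 * Q0 ^ (-(1 / 3 : ℝ)) + (1 + |t|) ^ q * A ^ (-e)) := by
      have : 0 ≤ (1 + |t|) ^ q * A ^ (-e) := by positivity
      positivity
    calc _ = (4 * C2 * (K + 1)) * (A ^ 2 * H ^ (1 / 3 : ℝ) *
        (Q0 ^ 3 * (J0 ^ 2 * sw + J0 ^ (-(1 / 2 : ℝ))) +
        (1 + Real.log (2 * A)) ^ 3 * Q0 ^ (-(1 / 3 : ℝ)) + (1 + |t|) ^ q * A ^ (-e))) := by ring
      _ ≤ max C3 (4 * C2 * (K + 1)) * (A ^ 2 * H ^ (1 / 3 : ℝ) *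
        (Q0 ^ 3 * (J0 ^ 2 * sw + J0 ^ (-(1 / 2 : ℝ))) +
        (1 + Real.log (2 * A)) ^ 3 * Q0 ^ (-(1 / 3 : ℝ)) + (1 + |t|) ^ q * A ^ (-e))) :=
          mul_le_mul_of_nonneg_right (le_max_right _ _) h6
      _ = _ := by ring

end Vale.Agent.P006.LVC
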