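import Vale.Agent.P006.LVC.NCcen4
import Vale.Agent.P006.TIIC.Defs2

/-!
# P006, block LV-C, part 18: the interface with the centre assembly (`TIIC.NCcen`)
-/

namespace Vale.Agent.P006.LVC

open Finset

theorem mem_DB_iff' {i : ℕ} {a : O} (h1 : Primary a) (h2 : Squarefree a) :
    a ∈ H611.DB i ↔ (2 : ℝ) ^ i - 1 / 2 < (N a : ℝ) ∧ (N a : ℝ) ≤ 2 * ((2 : ℝ) ^ i - 1 / 2) := by
  rw [H611.mem_DB]
  have hN : N a ≠ 0 := (N_pos h1.ne_zero).ne'
  constructor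
  · rintro ⟨_, _, h3⟩
    rw [Nat.log_eq_iff (Or.inr ⟨by norm_num, hN⟩)] at h3
    have e1 : ((2 ^ i : ℕ) : ℝ) ≤ N a := by exact_mod_cast h3.1
    have e2 : ((N a + 1 : ℕ) : ℝ) ≤ ((2 ^ (i + 1) : ℕ) : ℝ) := by exact_mod_cast h3.2
    push_cast at e1 e2
    rw [pow_succ] at e2
    constructor <;> linarith
  · rintro ⟨h3, h4⟩
    refine ⟨h1, h2, ?_⟩
    rw [Nat.log_eq_iff (Or.inr ⟨by norm_num, hN⟩)]
    constructor
    · have : ((2 ^ i : ℕ) : ℝ) < ((N a + 1 : ℕ) : ℝ) := by push_cast; linarith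
      have := Nat.cast_lt.1 this
      omega
    · have : ((N a : ℕ) : ℝ) < ((2 ^ (i + 1) : ℕ) : ℝ) := by
        push_cast
        rw [pow_succ]
        linarith
      exact Nat.cast_lt.1 this

theorem fam_eq_blk (f : ℝ → O → ℂ) (η X y1 y2 : ℝ) (ρ : ℂ) (i l s : ℕ) (a : O) :
    fam f η X y1 y2 ρ i l s a = ρ * DN.blk (TIIC.alc f η X y1 y2 i) l s a := by
  classical
  unfold fam blk DN.blk TIIC.alc
  by_cases hs : N a / 2 ^ l = s
  · rw [if_pos hs]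
    by_cases hc : Primary a ∧ Squarefree a
    · have h1 := mem_DB_iff' (i := i) hc.1 hc.2
      by_cases hd : a ∈ H611.DB i
      · rw [if_pos ⟨hd, hs⟩, if_pos (h1.1 hd)]
      · rw [if_neg (fun h => hd h.1), if_neg (fun h => hd (h1.2 h)), mul_zero]
    · have h0 : cut (X ^ η) y1 y2 (f X) a = 0 := by
        unfold cut
        exact if_neg (fun h => hc ⟨h.1, h.2.1⟩)
      simp [h0]
  · rw [if_neg hs, if_neg (fun h => hs h.2), mul_zero]

theorem gam_eq_fam (f : ℝ → O → ℂ) (η X y1 y2 : ℝ) (i l : ℕ) (A G σ t : ℝ) (s : ℕ) :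
    DN.gam (TIIC.alc f η X y1 y2 i) l A G σ t s =
      DN.twc (fam f η X y1 y2 ((((4 * G)⁻¹ : ℝ)) : ℂ) i l s) A σ t := by
  funext a
  unfold DN.gam DN.twc
  rw [fam_eq_blk, mul_assoc]

/-- bounded `A` with `H ≤ (2A)^2` -/
theorem small_case2 {A0 : ℝ} (hA0 : 1 ≤ A0) : ∃ C : ℝ, 0 < C ∧ ∀ (S : Finset ℕ)
    (α : ℕ → O → ℂ), (∀ a, ∑ s ∈ S, ‖α s a‖ ≤ 1) → ∀ A H : ℝ, 1 ≤ A → A ≤ A0 → 1 ≤ H →
      H ≤ (2 * A) ^ (2 : ℝ) → ∑ s ∈ S, DN.NCQ (α s) (2 * A) H ≤ C := by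
  obtain ⟨C, hC, h⟩ := NC.nc_tail_DN (ε := 1) one_pos
  refine ⟨C * (2 * A0 * (2 * A0) ^ 2) ^ (1 : ℝ) * (2 * A0 * (2 * A0) ^ 2 +
    (2 * A0) ^ 2 * ((2 * A0) ^ 2) ^ (1 / 3 : ℝ) +
    (2 * A0) ^ (5 / 3 : ℝ) * ((2 * A0) ^ 2) ^ (2 / 3 : ℝ)), by positivity, ?_⟩
  intro S α hF A H hA hAA hH hHA
  have h1 := h ℕ S α hF (2 * A) H (by linarith) hH
  refine h1.trans ?_
  have h2 : H ≤ (2 * A0) ^ 2 := by
    refine hHA.trans ?_
    rw [Real.rpow_two]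
    exact pow_le_pow_left₀ (by linarith) (by linarith) 2
  have hA' : 0 ≤ A := by linarith
  have hH' : 0 ≤ H := by linarith
  gcongr

/-- the trivial bound for the coefficients of the centre -/
theorem norm_alc_le {f : ℝ → O → ℂ} (hf : ∀ X a, 3 ≤ X → Primary a → Squarefree a →
      ‖f X a‖ ≤ Real.log (N a)) {η X y1 y2 : ℝ} (hX : 3 ≤ X) {i : ℕ}
    (hi : (2 : ℝ) ^ i ≤ X) (a : O) : ‖TIIC.alc f η X y1 y2 i a‖ ≤ 16 * Real.log X := by
  classical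
  have hL : 0 ≤ Real.log X := Real.log_nonneg (by linarith)
  unfold TIIC.alc cut
  split_ifs with h1 h2
  · refine (hf X a hX h2.1 h2.2.1).trans ?_
    have hN : (0 : ℝ) < N a := by exact_mod_cast N_pos h2.1.ne_zero
    calc Real.log (N a) ≤ Real.log (X ^ 2) := Real.log_le_log hN (by nlinarith [h1.2])
      _ = 2 * Real.log X := by rw [Real.log_pow]; norm_num
      _ ≤ 16 * Real.log X := by linarith
  · rw [norm_zero]; positivity
  · rw [norm_zero]; positivity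

theorem alc_supp {f : ℝ → O → ℂ} {η X y1 y2 : ℝ} {i : ℕ} {a : O}
    (h : TIIC.alc f η X y1 y2 i a ≠ 0) : Primary a ∧ (2 : ℝ) ^ i - 1 / 2 < (N a : ℝ) ∧
      (N a : ℝ) ≤ 2 * ((2 : ℝ) ^ i - 1 / 2) := by
  classical
  unfold TIIC.alc cut at h
  by_cases h1 : (2 : ℝ) ^ i - 1 / 2 < (N a : ℝ) ∧ (N a : ℝ) ≤ 2 * ((2 : ℝ) ^ i - 1 / 2)
  · rw [if_pos h1] at h
    refine ⟨?_, h1⟩
    by_contra hc
    exact h (if_neg (fun h2 => hc h2.1))
  · rw [if_neg h1] at h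
    exact absurd rfl h

/-- **the non-cube bound in the form of the centre assembly** -/
theorem tiic_nccen {f : ℝ → O → ℂ} (hf : ∀ X a, 3 ≤ X → Primary a → Squarefree a →
      ‖f X a‖ ≤ Real.log (N a)) {η : ℝ} (h : NCcen f η 6) :
    ∃ κ0 : ℝ, 0 < κ0 ∧ ∃ e0 : ℝ, 0 < e0 ∧ ∀ κ e : ℝ, 0 < κ → κ ≤ κ0 → 0 < e → e ≤ e0 →
      TIIC.NCcen f η κ e := by
  obtain ⟨κ1, hκ1, e1, he1, C1, hC1, h⟩ := h
  refine ⟨min (κ1 / 2) (1 / 4), lt_min (by positivity) (by norm_num), min e1 1,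
    lt_min he1 one_pos, ?_⟩
  intro κ e hκ0 hκ he0 he
  have hκκ1 : κ ≤ κ1 / 2 := hκ.trans (min_le_left _ _)
  have hκ4 : κ ≤ 1 / 4 := hκ.trans (min_le_right _ _)
  have hee1 : e ≤ e1 := he.trans (min_le_left _ _)
  have hee2 : e ≤ 1 := he.trans (min_le_right _ _)
  set A0 : ℝ := (4 : ℝ) ^ (2 / κ1) with hA0
  have hA01 : 1 ≤ A0 := Real.one_le_rpow (by norm_num) (by positivity)
  obtain ⟨C3, hC3, hsmall⟩ := small_case2 hA01
  refine ⟨max C3 (2 * C1), (hC3.le.trans (le_max_left _ _)), ?_⟩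
  intro X hX i l hi1 hi2 hil y1 y2 σ t hσ S H Q0 J0 sw hH hHA hQ0 hJ0 hsw hSW
  have hX1 : 1 ≤ X := by linarith
  have hX0 : 0 < X := by linarith
  set A : ℝ := (2 : ℝ) ^ i - 1 / 2 with hAdef
  have hσ' : |σ| ≤ 3 / 2 := by
    rcases hσ with h1 | h1
    · rw [h1, abs_of_neg (by norm_num)]; norm_num
    · rw [h1, abs_of_pos (by norm_num)]
  have hσ2 : σ ≤ 3 / 2 := (le_abs_self σ).trans hσ'
  have hi0 : i ≠ 0 := by
    rintro rfl
    have : (1 : ℝ) < X ^ (1 / 2 - κ) := Real.one_lt_rpow (by linarith) (by linarith)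
    rw [pow_zero] at hi1
    linarith
  have h2i : (2 : ℝ) ≤ 2 ^ i := by
    calc (2 : ℝ) = 2 ^ 1 := by norm_num
      _ ≤ 2 ^ i := pow_le_pow_right₀ (by norm_num) (Nat.one_le_iff_ne_zero.2 hi0)
  have hA1 : 1 ≤ A := by rw [hAdef]; linarith
  have hA0' : 0 < A := by linarith
  have hlogX : 1 ≤ Real.log X := by
    rw [Real.le_log_iff_exp_le hX0]
    exact (Real.exp_one_lt_d9.le.trans (by norm_num)).trans hX
  have hG : 1 ≤ 16 * Real.log X := by linarith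
  have hXi : (2 : ℝ) ^ i ≤ X := by
    refine hi2.trans ?_
    conv_rhs => rw [← Real.rpow_one X]
    exact rle hX1 (by linarith)
  have hfam := DN.gam_fam (α := TIIC.alc f η X y1 y2 i) (A := A) (G := 16 * Real.log X) (σ := σ)
    (t := t) hA0' hG hσ2 (norm_alc_le hf hX hXi) (fun a ha => alc_supp ha) l S
  have hH1 : 1 ≤ H ^ (1 / 3 : ℝ) := Real.one_le_rpow hH (by norm_num)
  have hH0 : 0 < H := by linarith
  have hT1 : 1 ≤ (1 + |t|) ^ (6 : ℕ) := one_le_pow₀ (by linarith [abs_nonneg t])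
  have hlog0 : 0 ≤ Real.log (2 * A) := Real.log_nonneg (by linarith)
  have hJp : 0 ≤ J0 ^ (-(1 / 2 : ℝ)) := Real.rpow_nonneg (by linarith) _
  have hQp : 0 ≤ Q0 ^ (-(1 / 3 : ℝ)) := Real.rpow_nonneg (by linarith) _
  have hP0 : 0 ≤ Q0 ^ 3 * (J0 ^ 2 * sw + J0 ^ (-(1 / 2 : ℝ))) := by positivity
  have hLeQ : 0 ≤ (1 + Real.log (2 * A)) ^ 3 * Q0 ^ (-(1 / 3 : ℝ)) := by positivity
  have hAe : 0 ≤ (2 * A) ^ (-e) := by positivity
  have hCm : 0 ≤ max C3 (2 * C1) := hC3.le.trans (le_max_left _ _)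
  by_cases hAA : A ≤ A0
  · have h1 := hsmall S _ hfam A H hA1 hAA hH (hHA.trans (rle (by linarith) (by linarith)))
    refine h1.trans ?_
    have h2 : 1 ≤ (2 * A) ^ 2 * H ^ (1 / 3 : ℝ) * ((1 + |t|) ^ 6 * (2 * A) ^ (-e)) := by
      have e1 : 1 ≤ (2 * A) ^ 2 * (2 * A) ^ (-e) := by
        rw [← Real.rpow_two, ← Real.rpow_add (by linarith)]
        exact Real.one_le_rpow (by linarith) (by linarith)
      calc (1 : ℝ) ≤ ((2 * A) ^ 2 * (2 * A) ^ (-e)) * (H ^ (1 / 3 : ℝ) * (1 + |t|) ^ 6) :=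
            one_le_mul_of_one_le_of_one_le e1 (one_le_mul_of_one_le_of_one_le hH1 hT1)
        _ = _ := by ring
    calc C3 ≤ max C3 (2 * C1) * 1 := by rw [mul_one]; exact le_max_left _ _
      _ ≤ max C3 (2 * C1) * ((2 * A) ^ 2 * H ^ (1 / 3 : ℝ) *
          ((1 + |t|) ^ 6 * (2 * A) ^ (-e))) := mul_le_mul_of_nonneg_left h2 hCm
      _ ≤ max C3 (2 * C1) * ((2 * A) ^ 2 * H ^ (1 / 3 : ℝ) *
          (Q0 ^ 3 * (J0 ^ 2 * sw + J0 ^ (-(1 / 2 : ℝ))) +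
        (1 + Real.log (2 * A)) ^ 3 * Q0 ^ (-(1 / 3 : ℝ)) + (1 + |t|) ^ 6 * (2 * A) ^ (-e))) := by
          apply mul_le_mul_of_nonneg_left _ hCm
          apply mul_le_mul_of_nonneg_left _ (by positivity)
          linarith
      _ = _ := by ring
  · have hAA' : A0 ≤ A := (not_le.1 hAA).le
    have hHA' : H ≤ A ^ (1 + κ1) := by
      refine hHA.trans ?_
      rw [Real.mul_rpow (by norm_num) hA0'.le]
      have e1 : (2 : ℝ) ^ (1 + κ) ≤ 4 := by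
        calc (2 : ℝ) ^ (1 + κ) ≤ 2 ^ (2 : ℝ) :=
              Real.rpow_le_rpow_of_exponent_le (by norm_num) (by linarith)
          _ = 4 := by norm_num
      have e2 : (4 : ℝ) ≤ A ^ (κ1 / 2) := by
        calc (4 : ℝ) = A0 ^ (κ1 / 2) := by
              rw [hA0, ← Real.rpow_mul (by norm_num)]
              have : 2 / κ1 * (κ1 / 2) = 1 := by field_simp
              rw [this, Real.rpow_one]
          _ ≤ A ^ (κ1 / 2) := Real.rpow_le_rpow (by positivity) hAA' (by positivity)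
      calc (2 : ℝ) ^ (1 + κ) * A ^ (1 + κ) ≤ A ^ (κ1 / 2) * A ^ (1 + κ) := by
            gcongr
            exact e1.trans e2
        _ = A ^ (κ1 / 2 + (1 + κ)) := by rw [← Real.rpow_add hA0']
        _ ≤ A ^ (1 + κ1) := rle hA1 (by linarith)
    simp only [gam_eq_fam] at hSW hfam ⊢
    have hρ : ‖((((4 * (16 * Real.log X))⁻¹ : ℝ)) : ℂ)‖ ≤ 1 := by
      rw [Complex.norm_real, Real.norm_of_nonneg (by positivity)]
      apply inv_le_one_of_one_le₀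
      linarith
    have h1 := h X y1 y2 σ t i l ((((4 * (16 * Real.log X))⁻¹ : ℝ)) : ℂ) S hX
      ((rle hX1 (by linarith)).trans hi1) (hi2.trans (rle hX1 (by linarith)))
      (hil.trans (mul_le_mul_of_nonneg_right (rle hX1 hee1) (by positivity))) hσ' hρ A rfl hfam
      H Q0 J0 sw hH hHA' hQ0 hJ0 hsw hSW
    refine h1.trans ?_
    have e6 : (1 + |t|) ^ (6 : ℝ) = (1 + |t|) ^ 6 := by
      rw [← Real.rpow_natCast]; norm_num
    rw [e6]
    have e7 : A ^ (-e1) ≤ 2 * (2 * A) ^ (-e) := by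
      calc A ^ (-e1) ≤ A ^ (-e) := rle hA1 (by linarith)
        _ = 2 ^ e * (2 * A) ^ (-e) := by
            rw [Real.mul_rpow (by norm_num) hA0'.le, ← mul_assoc,
              ← Real.rpow_add (by norm_num)]
            simp
        _ ≤ 2 * (2 * A) ^ (-e) := by
            gcongr
            calc (2 : ℝ) ^ e ≤ 2 ^ (1 : ℝ) :=
                  Real.rpow_le_rpow_of_exponent_le (by norm_num) hee2
              _ = 2 := Real.rpow_one 2
    set P : ℝ := Q0 ^ 3 * (J0 ^ 2 * sw + J0 ^ (-(1 / 2 : ℝ))) with hP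
    set Q : ℝ := (1 + Real.log (2 * A)) ^ 3 * Q0 ^ (-(1 / 3 : ℝ)) with hQ
    have hT0 : 0 ≤ (1 + |t|) ^ 6 := by positivity
    have e8 : P + Q + (1 + |t|) ^ 6 * A ^ (-e1) ≤ 2 * (P + Q + (1 + |t|) ^ 6 * (2 * A) ^ (-e)) := by
      have := mul_le_mul_of_nonneg_left e7 hT0
      linarith
    have e9 : 0 ≤ P + Q + (1 + |t|) ^ 6 * (2 * A) ^ (-e) := by positivity
    calc C1 * A ^ 2 * H ^ (1 / 3 : ℝ) * (P + Q + (1 + |t|) ^ 6 * A ^ (-e1))
        ≤ C1 * (2 * A) ^ 2 * H ^ (1 / 3 : ℝ) *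
          (2 * (P + Q + (1 + |t|) ^ 6 * (2 * A) ^ (-e))) := by
          gcongr
          linarith
      _ = (2 * C1) * ((2 * A) ^ 2 * H ^ (1 / 3 : ℝ) *
          (P + Q + (1 + |t|) ^ 6 * (2 * A) ^ (-e))) := by ring
      _ ≤ max C3 (2 * C1) * ((2 * A) ^ 2 * H ^ (1 / 3 : ℝ) *
          (P + Q + (1 + |t|) ^ 6 * (2 * A) ^ (-e))) :=
          mul_le_mul_of_nonneg_right (le_max_right _ _) (by positivity)
      _ = _ := by ring

end Vale.Agent.P006.LVC
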