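import Vale.Agent.P006.LVC.LvB7
import Vale.Agent.P006.LV.Final
import Vale.Agent.P006.LVC.Inst
import Vale.Agent.P006.PS.PStar

/-!
# P006, block LV-C: the non-cube bound in the centre for `cq` (unconditional)
-/

namespace Vale.Agent.P006.LVC

open Finset

/-- **NC in the centre for the products** -/
theorem tiic_nccen_cq {η : ℝ} (hη : 0 < η) :
    ∃ κ0 : ℝ, 0 < κ0 ∧ ∃ e0 : ℝ, 0 < e0 ∧ ∀ κ e : ℝ, 0 < κ → κ ≤ κ0 → 0 < e → e ≤ e0 →
      TIIC.NCcen (fun X c => (VR.cq (X ^ (1 / 3 : ℝ)) (X ^ (1 / 3 : ℝ)) c : ℂ)) η κ e := by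
  refine tiic_nccen (fun X a _ ha hs => ?_) (nccen_of_lv hη (by norm_num)
    (cenLV_cq (ls4Hyp_of_PStar PS.pstar_symC) LV.cen1Hyp η))
  rw [Complex.norm_real, Real.norm_eq_abs]
  exact VR.abs_cq_le _ _ ha hs

end Vale.Agent.P006.LVC
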