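import Vale.Agent.P006.LVC.NCcq
import Vale.Agent.P006.H6.Cen4

/-!
# P006, block LV-C: the non-cube bound in the centre for `lamb` (unconditional)
-/

namespace Vale.Agent.P006.LVC

open Finset

theorem ee_eq_nn (t : ℝ) {c : O} (hc : c ≠ 0) : H6.ee t c = nn t c := by
  have h0 : (0 : ℝ) < N c := by exact_mod_cast N_pos hc
  have h1 : (((N c : ℕ) : ℝ) : ℂ) ≠ 0 := by exact_mod_cast h0.ne'
  unfold H6.ee nn
  rw [Complex.cpow_def_of_ne_zero h1, ← Complex.ofReal_log h0.le]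
  congr 1
  ring

theorem rough_prime {z : ℝ} {c : O} (hc : Prime c) (h : z ≤ N c) : Rough z c := by
  intro p hp hpc
  have h1 : N p = N c := by
    have h2 : Associated p c := hp.associated_of_dvd hc hpc
    exact Nat.dvd_antisymm (N_dvd_N h2.dvd) (N_dvd_N h2.symm.dvd)
  rw [h1]
  exact h

open Classical in
/-- the block sum for primes -/
theorem blk_WP {A z t : ℝ} (hz : z ≤ A) {w : ℕ → ℂ} (hws : ∀ n : ℕ, w n ≠ 0 → A < n)
    (u : O) (l : ℕ) (n : O) (a b : ℕ) :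
    NC.blkS (fun c => w (N c) * nn t c * (if Rough z c then ((VR.lamb c : ℝ) : ℂ) else 0))
      (2 * A) u l n a b =
      ∑ p ∈ TB a b, ‖H6.WP w t (2 * A) (u * lam ^ l * (p.1 * p.2 ^ 2 * n ^ 3))‖ ^ 2 := by
  rw [blkS_eq]
  refine sum_congr rfl (fun p hp => ?_)
  congr 2
  have hp' := mem_TB hp
  unfold H6.WP
  rw [show SPB (2 * A) = (PB (2 * A)).filter Squarefree from rfl, sum_filter]
  refine sum_congr rfl (fun c hc => ?_)
  rw [mem_PB] at hc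
  by_cases hpc : Prime c
  · rw [if_pos hpc.irreducible.squarefree, if_pos hpc, ← sym_twist hp'.1 hp'.2.1 hc.1,
      VR.lamb_prime hpc, ee_eq_nn t hc.1.ne_zero]
    by_cases hw : w (N c) = 0
    · rw [hw]; ring
    · have h1 : Rough z c := rough_prime hpc (hz.trans (hws _ hw).le)
      rw [if_pos h1]
      ring
  · rw [if_neg hpc, VR.lamb_of_not_prime hpc]
    simp

theorem cen_H' {X A H κ θ : ℝ} (hθ : 0 < θ) (hX1 : 1 ≤ X) (hX : (72 : ℝ) ^ (8 / θ) ≤ X)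
    (hκ : κ ≤ θ / 2) (hA : X ^ (1 / 4 : ℝ) ≤ A) (hH : H ≤ A ^ (1 + κ)) :
    72 * H ≤ A ^ (1 + θ) := by
  have hX0 : 0 < X := by linarith
  have hA1 : 1 ≤ A := (Real.one_le_rpow hX1 (by norm_num)).trans hA
  have hA0 : 0 < A := by linarith
  have h8 : (72 : ℝ) ≤ A ^ (θ / 2) := by
    calc (72 : ℝ) = ((72 : ℝ) ^ (8 / θ)) ^ (θ / 8) := by
          rw [← Real.rpow_mul (by norm_num)]
          have : 8 / θ * (θ / 8) = 1 := by field_simp
          rw [this, Real.rpow_one]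
      _ ≤ X ^ (θ / 8) := Real.rpow_le_rpow (by positivity) hX (by positivity)
      _ = (X ^ (1 / 4 : ℝ)) ^ (θ / 2) := by
          rw [← Real.rpow_mul hX0.le]; congr 1; ring
      _ ≤ A ^ (θ / 2) := Real.rpow_le_rpow (by positivity) hA (by positivity)
  calc 72 * H ≤ A ^ (θ / 2) * A ^ (1 + κ) := by
        have : 0 ≤ A ^ (1 + κ) := by positivity
        calc 72 * H ≤ 72 * A ^ (1 + κ) := by linarith
          _ ≤ _ := by gcongr
    _ = A ^ (θ / 2 + (1 + κ)) := by rw [← Real.rpow_add hA0]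
    _ ≤ A ^ (1 + θ) := rle hA1 (by linarith)

open Classical in
/-- **large values in the centre for `lamb`** -/
theorem cenLV_lamb {η : ℝ} (hη : η ≤ 1 / 3) :
    CenLV (fun _ c => ((VR.lamb c : ℝ) : ℂ)) η 6 := by
  obtain ⟨κ, θ, C, hκ, hθ, hC, hP⟩ := H6.cen4_pairs_bv (dl := 1 / 5) (by norm_num)
  refine ⟨min (1 / 100) (κ / 2), lt_min (by norm_num) (by positivity), θ, hθ, max 1 (8 * C),
    le_max_left _ _, max ((4 : ℝ) ^ (30 : ℝ)) ((72 : ℝ) ^ (8 / κ)), ?_, ?_⟩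
  · refine le_trans ?_ (le_max_left _ _)
    calc (3 : ℝ) ≤ 4 ^ (1 : ℝ) := by norm_num
      _ ≤ 4 ^ (30 : ℝ) := Real.rpow_le_rpow_of_exponent_le (by norm_num) (by norm_num)
  intro X A H δ hX hA hA1 hA2 hH hδ0 hδ1
  have hX4 := (le_max_left _ _).trans hX
  have hX8 := (le_max_right _ _).trans hX
  have hX3 : 3 ≤ X := by
    refine le_trans ?_ hX4
    calc (3 : ℝ) ≤ 4 ^ (1 : ℝ) := by norm_num
      _ ≤ 4 ^ (30 : ℝ) := Real.rpow_le_rpow_of_exponent_le (by norm_num) (by norm_num)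
  have hX1 : 1 ≤ X := by linarith
  have hX0 : 0 < X := by linarith
  obtain ⟨hs1, hs2⟩ := cen_size hX4 (min_le_left _ _) hA1
  have hs3 := cen_H' hκ hX1 hX8 (min_le_right _ _) hs2 hH
  have hlog : 1 ≤ Real.log X := by
    rw [Real.le_log_iff_exp_le hX0]
    exact (Real.exp_one_lt_d9.le.trans (by norm_num)).trans hX3
  have hA0 : 0 < A := by linarith
  have hz : X ^ η ≤ A := by
    have h1 : X ^ (1 / 3 : ℝ) ≤ A := by
      have h2 : 0 < X ^ (1 / 3 : ℝ) := by positivity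
      have h3 : (1 : ℝ) ≤ (4 * A) ^ (1 / 4 : ℝ) := Real.one_le_rpow (by linarith) (by norm_num)
      have h4 := h3.trans hs1
      rwa [le_div_iff₀ h2, one_mul] at h4
    exact (rle hX1 hη).trans h1
  intro w Gw t hGw hw hws u hu l hl n a b hn hnab hr
  rw [blk_WP hz (fun m hm => (hws m hm).1)]
  have hu' : IsUnit u := by
    rw [isUnit_iff_N]
    exact NC.N_U3 hu
  have hl2 : l ≤ 2 := by
    rw [mem_range] at hl; omega
  have h3l : (3 : ℝ) ^ l ≤ 9 := by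
    calc (3 : ℝ) ^ l ≤ 3 ^ 2 := pow_le_pow_right₀ (by norm_num) hl2
      _ = 9 := by norm_num
  have hn1 : (1 : ℝ) ≤ (N n : ℝ) ^ 3 := by
    have : (1 : ℝ) ≤ N n := by exact_mod_cast N_pos hn
    exact one_le_pow₀ this
  have hab0 : (0 : ℝ) < 2 ^ a * (2 ^ b) ^ 2 := by positivity
  have hab1 : (1 : ℝ) ≤ 2 ^ a * (2 ^ b) ^ 2 :=
    one_le_mul_of_one_le_of_one_le (one_le_pow₀ (by norm_num))
      (one_le_pow₀ (one_le_pow₀ (by norm_num)))
  have key := hP (2 * A) (8 * (2 ^ a * (2 ^ b) ^ 2)) t Gw w u n l (by linarith) (by linarith)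
    hu' hn (hw _) (by
      have e1 : 3 ^ l * (8 * ((2 : ℝ) ^ a * (2 ^ b) ^ 2)) * (N n : ℝ) ^ 3 ≤ 72 * H := by
        calc 3 ^ l * (8 * ((2 : ℝ) ^ a * (2 ^ b) ^ 2)) * (N n : ℝ) ^ 3
            ≤ 9 * (8 * ((2 : ℝ) ^ a * (2 ^ b) ^ 2)) * (N n : ℝ) ^ 3 := by gcongr
          _ = 72 * ((N n : ℝ) ^ 3 * (2 ^ a * (2 ^ b) ^ 2)) := by ring
          _ ≤ 72 * H := by linarith
      refine e1.trans (hs3.trans ?_)
      exact Real.rpow_le_rpow hA0.le (by linarith) (by linarith)) (TB a b) (by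
      intro p hp
      obtain ⟨h1, h2, h3, h4, h5⟩ := mem_TB hp
      refine ⟨h1, h2, h3, h4, ?_⟩
      calc (2 * A) ^ (1 / 5 : ℝ) ≤ (4 * A) ^ (1 / 5 : ℝ) :=
            Real.rpow_le_rpow (by linarith) (by linarith) (by norm_num)
        _ ≤ _ := (LVrange_cond hA hδ0 hδ1 hr).trans h5)
  refine key.trans ?_
  have e6 : (1 + |t|) ^ (6 : ℝ) = (1 + |t|) ^ 6 := by
    rw [← Real.rpow_natCast]; norm_num
  rw [e6]
  have e7 : (2 * A) ^ (2 - θ) ≤ 4 * A ^ (2 - θ) := by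
    rw [Real.mul_rpow (by norm_num) hA0.le]
    gcongr
    calc (2 : ℝ) ^ (2 - θ) ≤ 2 ^ (2 : ℝ) :=
          Real.rpow_le_rpow_of_exponent_le (by norm_num) (by linarith)
      _ = 4 := by norm_num
  have e8 : (8 * ((2 : ℝ) ^ a * (2 ^ b) ^ 2)) ^ (1 / 3 : ℝ) =
      2 * ((2 : ℝ) ^ a * (2 ^ b) ^ 2) ^ (1 / 3 : ℝ) := by
    rw [Real.mul_rpow (by norm_num) hab0.le]
    congr 1
    rw [show (8 : ℝ) = 2 ^ (3 : ℝ) by norm_num, ← Real.rpow_mul (by norm_num)]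
    norm_num
  rw [e8]
  have hL2 : 1 ≤ Real.log X ^ 2 := one_le_pow₀ hlog
  calc Gw ^ 2 * (C * (1 + |t|) ^ 6 * ((2 * A) ^ (2 - θ) *
        (2 * ((2 : ℝ) ^ a * (2 ^ b) ^ 2) ^ (1 / 3 : ℝ))))
      ≤ Gw ^ 2 * (C * (1 + |t|) ^ 6 * ((4 * A ^ (2 - θ)) *
        (2 * ((2 : ℝ) ^ a * (2 ^ b) ^ 2) ^ (1 / 3 : ℝ)))) := by gcongr
    _ = ((8 * C) * 1 * A ^ (2 - θ)) * (1 + |t|) ^ 6 * Gw ^ 2 *
        ((2 : ℝ) ^ a * (2 ^ b) ^ 2) ^ (1 / 3 : ℝ) := by ring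
    _ ≤ (max 1 (8 * C) * Real.log X ^ 2 * A ^ (2 - θ)) * (1 + |t|) ^ 6 * Gw ^ 2 *
        ((2 : ℝ) ^ a * (2 ^ b) ^ 2) ^ (1 / 3 : ℝ) := by
        gcongr
        exact le_max_right _ _

/-- **NC in the centre for the primes** -/
theorem tiic_nccen_lamb {η : ℝ} (hη : 0 < η) (hη3 : η ≤ 1 / 3) :
    ∃ κ0 : ℝ, 0 < κ0 ∧ ∃ e0 : ℝ, 0 < e0 ∧ ∀ κ e : ℝ, 0 < κ → κ ≤ κ0 → 0 < e → e ≤ e0 →
      TIIC.NCcen (fun _ c => (VR.lamb c : ℂ)) η κ e := by
  refine tiic_nccen (fun X a _ ha hs => ?_) (nccen_of_lv hη (by norm_num) (cenLV_lamb hη3))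
  rw [Complex.norm_real, Real.norm_eq_abs, abs_of_nonneg (VR.lamb_nonneg a)]
  unfold VR.lamb
  split_ifs
  · exact le_rfl
  · exact Real.log_natCast_nonneg _

end Vale.Agent.P006.LVC
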