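import Vale.Agent.P006.LVC.Cen2
import Vale.Agent.P006.H845.Sums

/-!
# P006, block LV-C, part 3: products of two character sums, sums over pairs `(k₁, k₂)`
-/

namespace Vale.Agent.P006.LVC

open Finset

/-! ### Products of two sums -/

/-- coefficient of the product of two character sums -/
noncomputable def mulCoef (S1 S2 : Finset O) (a b : O → ℂ) (n : O) : ℂ :=
  ∑ v ∈ (S1 ×ˢ S2).filter (fun v => v.1 * v.2 = n), a v.1 * b v.2

theorem mul_sum_eq {S1 S2 : Finset O} {B1 B2 B : ℝ} (h1 : ∀ n ∈ S1, Primary n ∧ (N n : ℝ) ≤ B1)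
    (h2 : ∀ n ∈ S2, Primary n ∧ (N n : ℝ) ≤ B2) (hB1 : 0 ≤ B1) (hB : B1 * B2 ≤ B)
    (a b : O → ℂ) (ψ : O →* ℂ) :
    (∑ n ∈ S1, a n * ψ n) * (∑ n ∈ S2, b n * ψ n) = ∑ n ∈ PB B, mulCoef S1 S2 a b n * ψ n := by
  rw [sum_mul_sum, ← sum_product']
  rw [← Finset.sum_fiberwise_of_maps_to (t := PB B) (g := fun v : O × O => v.1 * v.2)]
  · refine sum_congr rfl (fun n _ => ?_)
    rw [mulCoef, sum_mul]
    refine sum_congr rfl (fun v hv => ?_)
    rw [mem_filter] at hv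
    rw [← hv.2, map_mul]; ring
  · intro v hv
    rw [mem_product] at hv
    obtain ⟨p1, n1⟩ := h1 _ hv.1
    obtain ⟨p2, n2⟩ := h2 _ hv.2
    rw [mem_PB]
    refine ⟨p1.mul p2, ?_⟩
    rw [N_mul]; push_cast
    exact (mul_le_mul n1 n2 (Nat.cast_nonneg _) hB1).trans hB

theorem norm_mulCoef_le {S1 S2 : Finset O} (h1 : ∀ n ∈ S1, Primary n)
    {a b : O → ℂ} (ha : ∀ n, ‖a n‖ ≤ 1) (hb : ∀ n, ‖b n‖ ≤ 1) {n : O} (hn : Primary n) :
    ‖mulCoef S1 S2 a b n‖ ≤ tau n := by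
  rw [mulCoef]
  refine (norm_sum_le _ _).trans ?_
  have h3 : ((S1 ×ˢ S2).filter (fun v => v.1 * v.2 = n)).card ≤ tau n := by
    unfold tau
    refine card_le_card_of_injOn (fun v => v.1) ?_ ?_
    · intro v hv
      rw [mem_coe, mem_filter, mem_product] at hv
      rw [mem_coe, mem_dvs hn.ne_zero]
      exact ⟨h1 _ hv.1.1, ⟨v.2, hv.2.symm⟩⟩
    · intro v hv w hw hvw
      rw [mem_coe, mem_filter, mem_product] at hv hw
      have h4 : v.1 = w.1 := hvw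
      have h5 : v.1 * v.2 = v.1 * w.2 := by rw [hv.2, h4, hw.2]
      exact Prod.ext h4 (mul_left_cancel₀ (h1 _ hv.1.1).ne_zero h5)
  calc ∑ v ∈ (S1 ×ˢ S2).filter (fun v => v.1 * v.2 = n), ‖a v.1 * b v.2‖
      ≤ ∑ v ∈ (S1 ×ˢ S2).filter (fun v => v.1 * v.2 = n), (1 : ℝ) := by
        refine sum_le_sum (fun v _ => ?_)
        rw [norm_mul]
        exact mul_le_one₀ (ha _) (norm_nonneg _) (hb _)
    _ = (((S1 ×ˢ S2).filter (fun v => v.1 * v.2 = n)).card : ℝ) := by simp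
    _ ≤ tau n := by exact_mod_cast h3

/-! ### Young's inequality -/

theorem young_sq {x z y1 y2 : ℝ} (hx : 0 ≤ x) (hz : 0 ≤ z) (h1 : 0 < y1) (h2 : 0 < y2)
    (h : y1 + y2 = 1) : (x * z) ^ 2 ≤ x ^ (2 / y1) + z ^ (2 / y2) := by
  have hc : (1 / y1).HolderConjugate (1 / y2) := by
    rw [Real.holderConjugate_iff]
    constructor
    · rw [lt_div_iff₀ h1]; linarith
    · simp [h]
  have h3 := Real.young_inequality_of_nonneg (sq_nonneg x) (sq_nonneg z) hc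
  have e1 : (x ^ 2) ^ (1 / y1) = x ^ (2 / y1) := by
    rw [← Real.rpow_natCast x 2, ← Real.rpow_mul hx]
    congr 1; push_cast; ring
  have e2 : (z ^ 2) ^ (1 / y2) = z ^ (2 / y2) := by
    rw [← Real.rpow_natCast z 2, ← Real.rpow_mul hz]
    congr 1; push_cast; ring
  rw [e1, e2] at h3
  have h4 : x ^ (2 / y1) / (1 / y1) ≤ x ^ (2 / y1) := by
    rw [div_div_eq_mul_div, div_one]
    have : 0 ≤ x ^ (2 / y1) := Real.rpow_nonneg hx _
    nlinarith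
  have h5 : z ^ (2 / y2) / (1 / y2) ≤ z ^ (2 / y2) := by
    rw [div_div_eq_mul_div, div_one]
    have : 0 ≤ z ^ (2 / y2) := Real.rpow_nonneg hz _
    nlinarith
  rw [mul_pow]
  linarith

/-! ### Sums over sets of pairs -/

theorem sum_pairs_le_fst (T : Finset (O × O)) (f : O × O → ℝ) (hf : ∀ p, 0 ≤ f p) (A : Finset O)
    (D : O → Finset O) (h : ∀ p ∈ T, p.1 ∈ A ∧ p.2 ∈ D p.1) :
    ∑ p ∈ T, f p ≤ ∑ k ∈ A, ∑ l ∈ D k, f (k, l) := by
  classical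
  rw [Finset.sum_sigma']
  have h1 : ∑ p ∈ T, f p = ∑ x ∈ T.image (fun p => (⟨p.1, p.2⟩ : (_ : O) × O)), f (x.1, x.2) := by
    rw [sum_image]
    intro p _ q _ hpq
    simp only [Sigma.mk.injEq, heq_eq_eq] at hpq
    exact Prod.ext hpq.1 hpq.2
  rw [h1]
  apply sum_le_sum_of_subset_of_nonneg
  · intro x hx
    rw [mem_image] at hx
    obtain ⟨p, hp, rfl⟩ := hx
    rw [mem_sigma]
    exact h p hp
  · intro x _ _; exact hf _

theorem sum_pairs_le_snd (T : Finset (O × O)) (f : O × O → ℝ) (hf : ∀ p, 0 ≤ f p) (A : Finset O)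
    (D : O → Finset O) (h : ∀ p ∈ T, p.2 ∈ A ∧ p.1 ∈ D p.2) :
    ∑ p ∈ T, f p ≤ ∑ k ∈ A, ∑ l ∈ D k, f (l, k) := by
  classical
  have h1 : ∑ p ∈ T, f p = ∑ q ∈ T.image Prod.swap, f q.swap := by
    rw [sum_image Prod.swap_injective.injOn]
    simp
  rw [h1]
  refine sum_pairs_le_fst (T.image Prod.swap) (fun q => f q.swap) (fun q => hf _) A D ?_
  intro q hq
  rw [mem_image] at hq
  obtain ⟨p, hp, rfl⟩ := hq
  exact h p hp

/-! ### The dual large sieve `LS4` and its consequences for fixed `k₁` or `k₂` -/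

/-- (LS4): the cubic large sieve with arbitrary bounded coefficients on all primary `n`. -/
def LS4Hyp : Prop := ∀ ε : ℝ, 0 < ε → ∃ C : ℝ, 1 ≤ C ∧ ∀ K M : ℝ, 1 ≤ K → 1 ≤ M →
  ∀ c : O → ℂ, (∀ n, ‖c n‖ ≤ 1) →
  ∑ k ∈ SPB K, ‖∑ n ∈ PB M, c n * toC (sym n k)‖ ^ 2 ≤
    C * (K * M) ^ ε * (M ^ 2 + K * M + K ^ (2 / 3 : ℝ) * M ^ (5 / 3 : ℝ))

theorem norm_psi_part (k : O) (n : O) : ‖toC (sym n k) ^ 2‖ ≤ 1 := by
  rw [norm_pow]
  exact pow_le_one₀ (norm_nonneg _) (norm_sym_le _ _)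

/-- fixed `k₂` -/
theorem ls4_snd {C ε : ℝ} {K M : ℝ} (hLS : ∀ c : O → ℂ, (∀ n, ‖c n‖ ≤ 1) →
    ∑ k ∈ SPB K, ‖∑ n ∈ PB M, c n * toC (sym n k)‖ ^ 2 ≤
      C * (K * M) ^ ε * (M ^ 2 + K * M + K ^ (2 / 3 : ℝ) * M ^ (5 / 3 : ℝ)))
    {G : ℝ} (hG : 0 < G) (c : O → ℂ) (hc : ∀ n ∈ PB M, ‖c n‖ ≤ G) (k2 : O) :
    ∑ k ∈ SPB K, ‖∑ n ∈ PB M, c n * psi2 (k, k2) n‖ ^ 2 ≤
      G ^ 2 * (C * (K * M) ^ ε * (M ^ 2 + K * M + K ^ (2 / 3 : ℝ) * M ^ (5 / 3 : ℝ))) := by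
  classical
  set c' : O → ℂ := fun n => if n ∈ PB M then (c n * toC (sym n k2) ^ 2) / G else 0 with hc'
  have h1 := hLS c' (fun n => by
    rw [hc']
    simp only
    split_ifs with h
    · rw [norm_div, norm_mul, Complex.norm_real, Real.norm_of_nonneg hG.le, div_le_one hG]
      calc ‖c n‖ * ‖toC (sym n k2) ^ 2‖ ≤ G * 1 :=
            mul_le_mul (hc n h) (norm_psi_part _ _) (norm_nonneg _) hG.le
        _ = G := mul_one G
    · simp)
  have h2 : ∀ k ∈ SPB K, ‖∑ n ∈ PB M, c n * psi2 (k, k2) n‖ ^ 2 =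
      G ^ 2 * ‖∑ n ∈ PB M, c' n * toC (sym n k)‖ ^ 2 := by
    intro k _
    have h3 : ∑ n ∈ PB M, c n * psi2 (k, k2) n = (G : ℂ) * ∑ n ∈ PB M, c' n * toC (sym n k) := by
      rw [mul_sum]
      refine sum_congr rfl (fun n hn => ?_)
      rw [hc']
      simp only [if_pos hn, psi2_apply]
      have : (G : ℂ) ≠ 0 := by exact_mod_cast hG.ne'
      field_simp
    rw [h3, norm_mul, mul_pow, Complex.norm_real, Real.norm_of_nonneg hG.le]
  rw [sum_congr rfl h2, ← mul_sum]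
  exact mul_le_mul_of_nonneg_left h1 (by positivity)

/-- fixed `k₁` -/
theorem ls4_fst {C ε : ℝ} {K M : ℝ} (hLS : ∀ c : O → ℂ, (∀ n, ‖c n‖ ≤ 1) →
    ∑ k ∈ SPB K, ‖∑ n ∈ PB M, c n * toC (sym n k)‖ ^ 2 ≤
      C * (K * M) ^ ε * (M ^ 2 + K * M + K ^ (2 / 3 : ℝ) * M ^ (5 / 3 : ℝ)))
    {G : ℝ} (hG : 0 < G) (c : O → ℂ) (hc : ∀ n ∈ PB M, ‖c n‖ ≤ G) (k1 : O) :
    ∑ k ∈ SPB K, ‖∑ n ∈ PB M, c n * psi2 (k1, k) n‖ ^ 2 ≤
      G ^ 2 * (C * (K * M) ^ ε * (M ^ 2 + K * M + K ^ (2 / 3 : ℝ) * M ^ (5 / 3 : ℝ))) := by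
  classical
  set c' : O → ℂ := fun n => if n ∈ PB M then
    ((starRingEnd ℂ) (c n * toC (sym n k1))) / G else 0 with hc'
  have h1 := hLS c' (fun n => by
    rw [hc']
    simp only
    split_ifs with h
    · rw [norm_div, Complex.norm_conj, norm_mul, Complex.norm_real, Real.norm_of_nonneg hG.le,
        div_le_one hG]
      calc ‖c n‖ * ‖toC (sym n k1)‖ ≤ G * 1 :=
            mul_le_mul (hc n h) (norm_sym_le _ _) (norm_nonneg _) hG.le
        _ = G := mul_one G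
    · simp)
  have h2 : ∀ k ∈ SPB K, ‖∑ n ∈ PB M, c n * psi2 (k1, k) n‖ ^ 2 =
      G ^ 2 * ‖∑ n ∈ PB M, c' n * toC (sym n k)‖ ^ 2 := by
    intro k _
    have h3 : (starRingEnd ℂ) (∑ n ∈ PB M, c n * psi2 (k1, k) n) =
        (G : ℂ) * ∑ n ∈ PB M, c' n * toC (sym n k) := by
      rw [mul_sum, map_sum]
      refine sum_congr rfl (fun n hn => ?_)
      rw [hc']
      simp only [if_pos hn, psi2_apply]
      have h5 : (G : ℂ) ≠ 0 := by exact_mod_cast hG.ne'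
      have h4 : (starRingEnd ℂ) (c n * (toC (sym n k1) * toC (sym n k) ^ 2)) =
          (starRingEnd ℂ) (c n * toC (sym n k1)) * toC (sym n k) := by
        rw [← mul_assoc, map_mul, ← conj_sym n k, Complex.conj_conj]
      rw [h4]
      field_simp
    rw [← Complex.norm_conj, h3, norm_mul, mul_pow, Complex.norm_real, Real.norm_of_nonneg hG.le]
  rw [sum_congr rfl h2, ← mul_sum]
  exact mul_le_mul_of_nonneg_left h1 (by positivity)

/-- the exponent of `H` -/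
theorem exists_exp {B H κ : ℝ} (hB : 1 ≤ B) (hH : 1 ≤ H) (hκ : 0 ≤ κ) (h : H ≤ B ^ κ) :
    ∃ x : ℝ, 0 ≤ x ∧ x ≤ κ ∧ H = B ^ x := by
  rcases hB.eq_or_lt with h1 | h1
  · refine ⟨0, le_rfl, hκ, ?_⟩
    rw [← h1, Real.one_rpow] at h
    rw [Real.rpow_zero]
    linarith
  · have hl : 0 < Real.log B := Real.log_pos h1
    have hB0 : 0 < B := by linarith
    have hH0 : 0 < H := by linarith
    refine ⟨Real.log H / Real.log B, div_nonneg (Real.log_nonneg hH) hl.le, ?_, ?_⟩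
    · rw [div_le_iff₀ hl, ← Real.log_rpow hB0]
      exact Real.log_le_log hH0 h
    · rw [Real.rpow_def_of_pos hB0]
      rw [show Real.log B * (Real.log H / Real.log B) = Real.log H by field_simp]
      exact (Real.exp_log hH0).symm

end Vale.Agent.P006.LVC
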