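import Vale.Agent.P006.LVC.Pairs

/-!
# P006, block LV-C, part 4: the ranges of `(k₁, k₂)` treated by LS4 and by the classical sieve
-/

namespace Vale.Agent.P006.LVC

open Finset

theorem rle {B a b : ℝ} (hB : 1 ≤ B) (h : a ≤ b) : B ^ a ≤ B ^ b :=
  Real.rpow_le_rpow_of_exponent_le hB h

/-- the large sieve inequality `LS4` at fixed `ε`, `C` -/
def LS4At (C ε : ℝ) : Prop := ∀ K M : ℝ, 1 ≤ K → 1 ≤ M →
  ∀ c : O → ℂ, (∀ n, ‖c n‖ ≤ 1) →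
  ∑ k ∈ SPB K, ‖∑ n ∈ PB M, c n * toC (sym n k)‖ ^ 2 ≤
    C * (K * M) ^ ε * (M ^ 2 + K * M + K ^ (2 / 3 : ℝ) * M ^ (5 / 3 : ℝ))

theorem SPB_card_le {X : ℝ} (hX : 0 ≤ X) : ((SPB X).card : ℝ) ≤ 4 * X :=
  le_trans (by exact_mod_cast card_le_card SPB_subset_PB) (card_PB_le hX)

theorem sum_SPB_le_PB {X : ℝ} (f : O → ℝ) (hf : ∀ n, 0 ≤ f n) :
    ∑ n ∈ SPB X, f n ≤ ∑ n ∈ PB X, f n :=
  sum_le_sum_of_subset_of_nonneg SPB_subset_PB (fun n _ _ => hf n)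

theorem div_rpow' {H n s : ℝ} (hH : 0 ≤ H) (hn : 0 ≤ n) : (H / n) ^ s = H ^ s * n ^ (-s) := by
  rw [Real.div_rpow hH hn, Real.rpow_neg hn]; rfl

/-- the character sum over pairs -/
noncomputable def FF (B : ℝ) (c : O → ℂ) (p : O × O) : ℂ := ∑ n ∈ PB B, c n * psi2 p n

/-- range `N k₁` small -/
theorem part_b {C ε θ B x G : ℝ} (hLS : LS4At C ε) (hC : 0 ≤ C) (hε : 0 < ε)
    (hθ0 : 0 < θ) (hθ1 : θ ≤ 1 / 100) (hεθ : 6 * ε ≤ θ)
    (hB : 1 ≤ B) (hx0 : 0 ≤ x) (hx1 : x ≤ 1 + θ) (hG : 0 < G) (c : O → ℂ)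
    (hc : ∀ n ∈ PB B, ‖c n‖ ≤ G) (T : Finset (O × O))
    (hT : ∀ p ∈ T, Primary p.1 ∧ Primary p.2 ∧ Squarefree (p.1 * p.2) ∧
      (N p.1 : ℝ) * (N p.2 : ℝ) ^ 2 ≤ B ^ x ∧ (N p.1 : ℝ) ≤ B ^ (x / 3 - 4 * θ)) :
    ∑ p ∈ T, ‖FF B c p‖ ^ 2 ≤ 18 * (G ^ 2 * C * B ^ (θ / 2) * B ^ (x / 3 + 2 - 2 * θ)) := by
  have hB0 : 0 < B := by linarith
  set H : ℝ := B ^ x with hH
  have hH1 : 1 ≤ H := Real.one_le_rpow hB hx0
  set L : ℝ := B ^ (x / 3 - 4 * θ) with hL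
  have hL0 : 0 < L := by positivity
  have hLH : L ≤ H := rle hB (by linarith)
  have hstep : ∀ k ∈ SPB L, ∑ l ∈ SPB (Real.sqrt (H / N k)), ‖FF B c (k, l)‖ ^ 2 ≤
      G ^ 2 * C * B ^ (θ / 2) * (B ^ 2 + H ^ (1 / 2 : ℝ) * B * (N k : ℝ) ^ (-(1 / 2) : ℝ) +
        H ^ (1 / 3 : ℝ) * B ^ (5 / 3 : ℝ) * (N k : ℝ) ^ (-(1 / 3) : ℝ)) := by
    intro k hk
    rw [mem_SPB] at hk
    have hk1 : (1 : ℝ) ≤ N k := hk.1.1.one_le_N'
    have hk0 : (0 : ℝ) < N k := by linarith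
    have hHk1 : 1 ≤ H / N k := by rw [one_le_div hk0]; linarith [hk.1.2]
    set K : ℝ := Real.sqrt (H / N k) with hK
    have hK1 : 1 ≤ K := by rw [hK]; exact Real.one_le_sqrt.2 hHk1
    have hKr : K = (H / N k) ^ (1 / 2 : ℝ) := by rw [hK, Real.sqrt_eq_rpow]
    have hKle : K ≤ B ^ (2 : ℝ) := by
      rw [hKr]
      calc (H / N k) ^ (1 / 2 : ℝ) ≤ H ^ (1 / 2 : ℝ) := by
            apply Real.rpow_le_rpow (by positivity) (div_le_self (by linarith) hk1) (by norm_num)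
        _ = B ^ (x * (1 / 2)) := by rw [hH, ← Real.rpow_mul hB0.le]
        _ ≤ B ^ (2 : ℝ) := rle hB (by linarith)
    have h1 := ls4_fst (fun c' hc' => hLS K B hK1 hB c' hc') hG c hc k
    refine h1.trans ?_
    have h2 : (K * B) ^ ε ≤ B ^ (θ / 2) := by
      calc (K * B) ^ ε ≤ (B ^ (2 : ℝ) * B) ^ ε := by
            apply Real.rpow_le_rpow (by positivity) _ hε.le
            exact mul_le_mul_of_nonneg_right hKle hB0.le
        _ = B ^ (3 * ε) := by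
            rw [show B ^ (2 : ℝ) * B = B ^ (3 : ℝ) by
              rw [← Real.rpow_add_one hB0.ne']; norm_num, ← Real.rpow_mul hB0.le]
        _ ≤ B ^ (θ / 2) := rle hB (by linarith)
    have h3 : K * B = H ^ (1 / 2 : ℝ) * B * (N k : ℝ) ^ (-(1 / 2) : ℝ) := by
      rw [hKr, div_rpow' (by linarith) hk0.le]; ring
    have h4 : K ^ (2 / 3 : ℝ) * B ^ (5 / 3 : ℝ) =
        H ^ (1 / 3 : ℝ) * B ^ (5 / 3 : ℝ) * (N k : ℝ) ^ (-(1 / 3) : ℝ) := by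
      rw [hKr, ← Real.rpow_mul (by positivity), show (1 / 2 : ℝ) * (2 / 3) = 1 / 3 by norm_num,
        div_rpow' (by linarith) hk0.le]; ring
    have h5 : 0 ≤ B ^ 2 + K * B + K ^ (2 / 3 : ℝ) * B ^ (5 / 3 : ℝ) := by positivity
    rw [← h3, ← h4]
    calc G ^ 2 * (C * (K * B) ^ ε * (B ^ 2 + K * B + K ^ (2 / 3 : ℝ) * B ^ (5 / 3 : ℝ)))
        ≤ G ^ 2 * (C * B ^ (θ / 2) * (B ^ 2 + K * B + K ^ (2 / 3 : ℝ) * B ^ (5 / 3 : ℝ))) := by
          apply mul_le_mul_of_nonneg_left _ (by positivity)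
          apply mul_le_mul_of_nonneg_right _ h5
          exact mul_le_mul_of_nonneg_left h2 hC
      _ = _ := by ring
  have hcover := sum_pairs_le_fst T (fun p => ‖FF B c p‖ ^ 2) (fun p => by positivity)
    (SPB L) (fun k => SPB (Real.sqrt (H / N k))) (by
      intro p hp
      obtain ⟨h1, h2, h3, h4, h5⟩ := hT p hp
      rw [squarefree_mul_iff] at h3
      have hk1 : (1 : ℝ) ≤ N p.1 := h1.one_le_N'
      have hk0 : (0 : ℝ) < N p.1 := by linarith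
      rw [mem_SPB, mem_SPB]
      refine ⟨⟨⟨h1, h5⟩, h3.2.1⟩, ⟨⟨h2, ?_⟩, h3.2.2⟩⟩
      apply Real.le_sqrt_of_sq_le
      rw [le_div_iff₀ hk0]; linarith)
  refine hcover.trans ((sum_le_sum hstep).trans ?_)
  rw [← mul_sum]
  have hsum : ∑ k ∈ SPB L, (B ^ 2 + H ^ (1 / 2 : ℝ) * B * (N k : ℝ) ^ (-(1 / 2) : ℝ) +
        H ^ (1 / 3 : ℝ) * B ^ (5 / 3 : ℝ) * (N k : ℝ) ^ (-(1 / 3) : ℝ)) ≤
      18 * B ^ (x / 3 + 2 - 2 * θ) := by
    rw [sum_add_distrib, sum_add_distrib, sum_const, nsmul_eq_mul, ← mul_sum, ← mul_sum]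
    have s1 : ∑ k ∈ SPB L, (N k : ℝ) ^ (-(1 / 2) : ℝ) ≤ 8 * L ^ (1 / 2 : ℝ) := by
      refine (sum_SPB_le_PB _ (fun n => by positivity)).trans ?_
      have := sum_PB_rpow_neg_le (s := 1 / 2) (by norm_num) (by norm_num) hL0.le
      norm_num at this ⊢
      exact this
    have s2 : ∑ k ∈ SPB L, (N k : ℝ) ^ (-(1 / 3) : ℝ) ≤ 6 * L ^ (2 / 3 : ℝ) := by
      refine (sum_SPB_le_PB _ (fun n => by positivity)).trans ?_
      have := sum_PB_rpow_neg_le (s := 1 / 3) (by norm_num) (by norm_num) hL0.le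
      norm_num at this ⊢
      exact this
    have t1 : ((SPB L).card : ℝ) * B ^ 2 ≤ 4 * B ^ (x / 3 + 2 - 2 * θ) := by
      calc ((SPB L).card : ℝ) * B ^ 2 ≤ (4 * L) * B ^ 2 :=
            mul_le_mul_of_nonneg_right (SPB_card_le hL0.le) (by positivity)
        _ = 4 * B ^ (x / 3 - 4 * θ + 2) := by
            rw [hL, Real.rpow_add hB0, Real.rpow_two]; ring
        _ ≤ 4 * B ^ (x / 3 + 2 - 2 * θ) := by
            apply mul_le_mul_of_nonneg_left _ (by norm_num)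
            exact rle hB (by linarith)
    have t2 : H ^ (1 / 2 : ℝ) * B * ∑ k ∈ SPB L, (N k : ℝ) ^ (-(1 / 2) : ℝ) ≤
        8 * B ^ (x / 3 + 2 - 2 * θ) := by
      calc H ^ (1 / 2 : ℝ) * B * ∑ k ∈ SPB L, (N k : ℝ) ^ (-(1 / 2) : ℝ)
          ≤ H ^ (1 / 2 : ℝ) * B * (8 * L ^ (1 / 2 : ℝ)) :=
            mul_le_mul_of_nonneg_left s1 (by positivity)
        _ = 8 * B ^ (x * (1 / 2) + 1 + (x / 3 - 4 * θ) * (1 / 2)) := by
            rw [hH, hL, ← Real.rpow_mul hB0.le, ← Real.rpow_mul hB0.le, Real.rpow_add hB0,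
              Real.rpow_add_one hB0.ne']; ring
        _ ≤ 8 * B ^ (x / 3 + 2 - 2 * θ) := by
            apply mul_le_mul_of_nonneg_left _ (by norm_num)
            exact rle hB (by linarith)
    have t3 : H ^ (1 / 3 : ℝ) * B ^ (5 / 3 : ℝ) * ∑ k ∈ SPB L, (N k : ℝ) ^ (-(1 / 3) : ℝ) ≤
        6 * B ^ (x / 3 + 2 - 2 * θ) := by
      calc H ^ (1 / 3 : ℝ) * B ^ (5 / 3 : ℝ) * ∑ k ∈ SPB L, (N k : ℝ) ^ (-(1 / 3) : ℝ)
          ≤ H ^ (1 / 3 : ℝ) * B ^ (5 / 3 : ℝ) * (6 * L ^ (2 / 3 : ℝ)) :=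
            mul_le_mul_of_nonneg_left s2 (by positivity)
        _ = 6 * B ^ (x * (1 / 3) + 5 / 3 + (x / 3 - 4 * θ) * (2 / 3)) := by
            rw [hH, hL, ← Real.rpow_mul hB0.le, ← Real.rpow_mul hB0.le, Real.rpow_add hB0,
              Real.rpow_add hB0]; ring
        _ ≤ 6 * B ^ (x / 3 + 2 - 2 * θ) := by
            apply mul_le_mul_of_nonneg_left _ (by norm_num)
            exact rle hB (by linarith)
    linarith
  calc G ^ 2 * C * B ^ (θ / 2) * _ ≤ G ^ 2 * C * B ^ (θ / 2) * (18 * B ^ (x / 3 + 2 - 2 * θ)) :=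
        mul_le_mul_of_nonneg_left hsum (by positivity)
    _ = _ := by ring

/-- the pointwise (in `k₂`) bound used for the ranges with `N k₂` small -/
theorem step_a {C ε θ B x G : ℝ} (hLS : LS4At C ε) (hC : 0 ≤ C) (hε : 0 < ε)
    (hεθ : 6 * ε ≤ θ) (hθ1 : θ ≤ 1 / 100)
    (hB : 1 ≤ B) (hx1 : x ≤ 1 + θ) (hG : 0 < G) (c : O → ℂ)
    (hc : ∀ n ∈ PB B, ‖c n‖ ≤ G) {k : O} (hk1 : (1 : ℝ) ≤ N k)
    (hk2 : (N k : ℝ) ^ 2 ≤ B ^ x) :
    ∑ l ∈ SPB (B ^ x / (N k : ℝ) ^ 2), ‖FF B c (l, k)‖ ^ 2 ≤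
      G ^ 2 * C * B ^ (θ / 2) * (B ^ 2 + B ^ x * B * (N k : ℝ) ^ (-2 : ℝ) +
        B ^ (x * (2 / 3)) * B ^ (5 / 3 : ℝ) * (N k : ℝ) ^ (-(4 / 3) : ℝ)) := by
  have hB0 : 0 < B := by linarith
  have hk0 : (0 : ℝ) < N k := by linarith
  set K : ℝ := B ^ x / (N k : ℝ) ^ 2 with hK
  have hK1 : 1 ≤ K := by rw [hK, one_le_div (by positivity)]; exact hk2
  have hKle : K ≤ B ^ (2 : ℝ) := by
    calc K ≤ B ^ x := div_le_self (by positivity) (one_le_pow₀ hk1)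
      _ ≤ B ^ (2 : ℝ) := rle hB (by linarith)
  have h1 := ls4_snd (fun c' hc' => hLS K B hK1 hB c' hc') hG c hc k
  refine h1.trans ?_
  have h2 : (K * B) ^ ε ≤ B ^ (θ / 2) := by
    calc (K * B) ^ ε ≤ (B ^ (2 : ℝ) * B) ^ ε := by
          apply Real.rpow_le_rpow (by positivity) _ hε.le
          exact mul_le_mul_of_nonneg_right hKle hB0.le
      _ = B ^ (3 * ε) := by
          rw [show B ^ (2 : ℝ) * B = B ^ (3 : ℝ) by
            rw [← Real.rpow_add_one hB0.ne']; norm_num, ← Real.rpow_mul hB0.le]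
      _ ≤ B ^ (θ / 2) := rle hB (by linarith)
  have hN2 : ((N k : ℝ) ^ 2) = (N k : ℝ) ^ (2 : ℝ) := by norm_num
  have h3 : K * B = B ^ x * B * (N k : ℝ) ^ (-2 : ℝ) := by
    rw [hK, hN2, Real.rpow_neg hk0.le]; field_simp
  have h4 : K ^ (2 / 3 : ℝ) * B ^ (5 / 3 : ℝ) =
      B ^ (x * (2 / 3)) * B ^ (5 / 3 : ℝ) * (N k : ℝ) ^ (-(4 / 3) : ℝ) := by
    rw [hK, hN2, Real.div_rpow (by positivity) (by positivity), ← Real.rpow_mul hB0.le,
      ← Real.rpow_mul hk0.le, Real.rpow_neg hk0.le]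
    norm_num
    field_simp
  have h5 : 0 ≤ B ^ 2 + K * B + K ^ (2 / 3 : ℝ) * B ^ (5 / 3 : ℝ) := by positivity
  rw [← h3, ← h4]
  calc G ^ 2 * (C * (K * B) ^ ε * (B ^ 2 + K * B + K ^ (2 / 3 : ℝ) * B ^ (5 / 3 : ℝ)))
      ≤ G ^ 2 * (C * B ^ (θ / 2) * (B ^ 2 + K * B + K ^ (2 / 3 : ℝ) * B ^ (5 / 3 : ℝ))) := by
        apply mul_le_mul_of_nonneg_left _ (by positivity)
        apply mul_le_mul_of_nonneg_right _ h5
        exact mul_le_mul_of_nonneg_left h2 hC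
    _ = _ := by ring

/-- range `N k₂` small; either `x` is not too close to `1` or `N k₂` is not too small -/
theorem part_a {C ε θ B x G : ℝ} (hLS : LS4At C ε) (hC : 0 ≤ C) (hε : 0 < ε)
    (hθ0 : 0 < θ) (hθ1 : θ ≤ 1 / 100) (hεθ : 6 * ε ≤ θ)
    (hB : 1 ≤ B) (hx0 : 0 ≤ x) (hx1 : x ≤ 1 + θ) (hG : 0 < G) (c : O → ℂ)
    (hc : ∀ n ∈ PB B, ‖c n‖ ≤ G) (T : Finset (O × O))
    (hT : ∀ p ∈ T, Primary p.1 ∧ Primary p.2 ∧ Squarefree (p.1 * p.2) ∧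
      (N p.1 : ℝ) * (N p.2 : ℝ) ^ 2 ≤ B ^ x ∧ (N p.2 : ℝ) ≤ B ^ (x / 3 - 4 * θ))
    (hT2 : x ≤ 1 - 24 * θ ∨ ∀ p ∈ T, B ^ (48 * θ) ≤ (N p.2 : ℝ)) :
    ∑ p ∈ T, ‖FF B c p‖ ^ 2 ≤ 40 * (G ^ 2 * C * B ^ (θ / 2) * B ^ (x / 3 + 2 - 2 * θ)) := by
  classical
  have hB0 : 0 < B := by linarith
  set L : ℝ := B ^ (x / 3 - 4 * θ) with hL
  have hL0 : 0 < L := by positivity
  set A : Finset O := (SPB L).filter (fun k => x ≤ 1 - 24 * θ ∨ B ^ (48 * θ) ≤ (N k : ℝ)) with hA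
  have hAsub : A ⊆ SPB L := filter_subset _ _
  have hN : ∀ k ∈ A, (1 : ℝ) ≤ N k := by
    intro k hk
    have := hAsub hk
    rw [mem_SPB] at this
    exact this.1.1.one_le_N'
  have hstep : ∀ k ∈ A, ∑ l ∈ SPB (B ^ x / (N k : ℝ) ^ 2), ‖FF B c (l, k)‖ ^ 2 ≤
      G ^ 2 * C * B ^ (θ / 2) * (B ^ 2 + B ^ x * B * (N k : ℝ) ^ (-2 : ℝ) +
        B ^ (x * (2 / 3)) * B ^ (5 / 3 : ℝ) * (N k : ℝ) ^ (-(4 / 3) : ℝ)) := by
    intro k hk
    apply step_a hLS hC hε hεθ hθ1 hB hx1 hG c hc (hN k hk)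
    have := hAsub hk
    rw [mem_SPB] at this
    calc (N k : ℝ) ^ 2 ≤ L ^ 2 := pow_le_pow_left₀ (by positivity) this.1.2 2
      _ = B ^ ((x / 3 - 4 * θ) * 2) := by
          rw [hL, ← Real.rpow_natCast, ← Real.rpow_mul hB0.le]; norm_num
      _ ≤ B ^ x := rle hB (by linarith)
  have hcover := sum_pairs_le_snd T (fun p => ‖FF B c p‖ ^ 2) (fun p => by positivity)
    A (fun k => SPB (B ^ x / (N k : ℝ) ^ 2)) (by
      intro p hp
      obtain ⟨h1, h2, h3, h4, h5⟩ := hT p hp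
      rw [squarefree_mul_iff] at h3
      have hk1 : (1 : ℝ) ≤ N p.2 := h2.one_le_N'
      have hk0 : (0 : ℝ) < N p.2 := by linarith
      rw [hA, mem_filter, mem_SPB, mem_SPB]
      refine ⟨⟨⟨⟨h2, h5⟩, h3.2.2⟩, ?_⟩, ⟨⟨h1, ?_⟩, h3.2.1⟩⟩
      · rcases hT2 with h | h
        · exact Or.inl h
        · exact Or.inr (h p hp)
      · rw [le_div_iff₀ (by positivity)]; exact h4)
  refine hcover.trans ((sum_le_sum hstep).trans ?_)
  rw [← mul_sum]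
  have hsum : ∑ k ∈ A, (B ^ 2 + B ^ x * B * (N k : ℝ) ^ (-2 : ℝ) +
        B ^ (x * (2 / 3)) * B ^ (5 / 3 : ℝ) * (N k : ℝ) ^ (-(4 / 3) : ℝ)) ≤
      40 * B ^ (x / 3 + 2 - 2 * θ) := by
    rw [sum_add_distrib, sum_add_distrib, sum_const, nsmul_eq_mul, ← mul_sum, ← mul_sum]
    have s1 : ∑ k ∈ A, (N k : ℝ) ^ (-2 : ℝ) ≤ 8 := by
      refine (sum_le_sum_of_subset_of_nonneg hAsub (fun n _ _ => by positivity)).trans ?_
      refine (sum_SPB_le_PB _ (fun n => by positivity)).trans ?_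
      have := sum_PB_rpow_neg_le' (s := 2) (by norm_num) L
      norm_num at this ⊢
      exact this
    have t1 : (A.card : ℝ) * B ^ 2 ≤ 4 * B ^ (x / 3 + 2 - 2 * θ) := by
      calc (A.card : ℝ) * B ^ 2 ≤ (4 * L) * B ^ 2 := by
            apply mul_le_mul_of_nonneg_right _ (by positivity)
            exact le_trans (by exact_mod_cast card_le_card hAsub) (SPB_card_le hL0.le)
        _ = 4 * B ^ (x / 3 - 4 * θ + 2) := by
            rw [hL, Real.rpow_add hB0, Real.rpow_two]; ring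
        _ ≤ 4 * B ^ (x / 3 + 2 - 2 * θ) := by
            apply mul_le_mul_of_nonneg_left _ (by norm_num)
            exact rle hB (by linarith)
    have t2 : B ^ x * B * ∑ k ∈ A, (N k : ℝ) ^ (-2 : ℝ) ≤ 8 * B ^ (x / 3 + 2 - 2 * θ) := by
      calc B ^ x * B * ∑ k ∈ A, (N k : ℝ) ^ (-2 : ℝ) ≤ B ^ x * B * 8 :=
            mul_le_mul_of_nonneg_left s1 (by positivity)
        _ = 8 * B ^ (x + 1) := by rw [Real.rpow_add_one hB0.ne']; ring
        _ ≤ 8 * B ^ (x / 3 + 2 - 2 * θ) := by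
            apply mul_le_mul_of_nonneg_left _ (by norm_num)
            exact rle hB (by linarith)
    have t3 : B ^ (x * (2 / 3)) * B ^ (5 / 3 : ℝ) * ∑ k ∈ A, (N k : ℝ) ^ (-(4 / 3) : ℝ) ≤
        28 * B ^ (x / 3 + 2 - 2 * θ) := by
      by_cases hx : x ≤ 1 - 24 * θ
      · have s2 : ∑ k ∈ A, (N k : ℝ) ^ (-(4 / 3) : ℝ) ≤ 16 := by
          refine (sum_le_sum_of_subset_of_nonneg hAsub (fun n _ _ => by positivity)).trans ?_
          refine (sum_SPB_le_PB _ (fun n => by positivity)).trans ?_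
          have := sum_PB_rpow_neg_le' (s := 4 / 3) (by norm_num) L
          norm_num at this ⊢
          exact this
        calc B ^ (x * (2 / 3)) * B ^ (5 / 3 : ℝ) * ∑ k ∈ A, (N k : ℝ) ^ (-(4 / 3) : ℝ)
            ≤ B ^ (x * (2 / 3)) * B ^ (5 / 3 : ℝ) * 16 :=
              mul_le_mul_of_nonneg_left s2 (by positivity)
          _ = 16 * B ^ (x * (2 / 3) + 5 / 3) := by rw [Real.rpow_add hB0]; ring
          _ ≤ 16 * B ^ (x / 3 + 2 - 2 * θ) := by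
              apply mul_le_mul_of_nonneg_left _ (by norm_num)
              exact rle hB (by linarith)
          _ ≤ 28 * B ^ (x / 3 + 2 - 2 * θ) := by
              apply mul_le_mul_of_nonneg_right _ (by positivity)
              norm_num
      · have s2 : ∑ k ∈ A, (N k : ℝ) ^ (-(4 / 3) : ℝ) ≤ 28 * B ^ (-(8 * θ)) := by
          have e1 : ∀ k ∈ A, (N k : ℝ) ^ (-(4 / 3) : ℝ) ≤
              B ^ (-(8 * θ)) * (N k : ℝ) ^ (-(7 / 6) : ℝ) := by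
            intro k hk
            have hk1 := hN k hk
            have hk0 : (0 : ℝ) < N k := by linarith
            rw [hA, mem_filter] at hk
            have h6 : B ^ (48 * θ) ≤ (N k : ℝ) := hk.2.resolve_left hx
            have h7 : (N k : ℝ) ^ (-(4 / 3) : ℝ) =
                (N k : ℝ) ^ (-(1 / 6) : ℝ) * (N k : ℝ) ^ (-(7 / 6) : ℝ) := by
              rw [← Real.rpow_add hk0]; norm_num
            rw [h7]
            apply mul_le_mul_of_nonneg_right _ (by positivity)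
            calc (N k : ℝ) ^ (-(1 / 6) : ℝ) ≤ (B ^ (48 * θ)) ^ (-(1 / 6) : ℝ) :=
                  Real.rpow_le_rpow_of_nonpos (by positivity) h6 (by norm_num)
              _ = B ^ (-(8 * θ)) := by
                  rw [← Real.rpow_mul hB0.le]; congr 1; ring
          refine (sum_le_sum e1).trans ?_
          rw [← mul_sum, mul_comm (28 : ℝ)]
          apply mul_le_mul_of_nonneg_left _ (by positivity)
          refine (sum_le_sum_of_subset_of_nonneg hAsub (fun n _ _ => by positivity)).trans ?_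
          refine (sum_SPB_le_PB _ (fun n => by positivity)).trans ?_
          have := sum_PB_rpow_neg_le' (s := 7 / 6) (by norm_num) L
          norm_num at this ⊢
          exact this
        calc B ^ (x * (2 / 3)) * B ^ (5 / 3 : ℝ) * ∑ k ∈ A, (N k : ℝ) ^ (-(4 / 3) : ℝ)
            ≤ B ^ (x * (2 / 3)) * B ^ (5 / 3 : ℝ) * (28 * B ^ (-(8 * θ))) :=
              mul_le_mul_of_nonneg_left s2 (by positivity)
          _ = 28 * B ^ (x * (2 / 3) + 5 / 3 + -(8 * θ)) := by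
              rw [Real.rpow_add hB0, Real.rpow_add hB0]; ring
          _ ≤ 28 * B ^ (x / 3 + 2 - 2 * θ) := by
              apply mul_le_mul_of_nonneg_left _ (by norm_num)
              exact rle hB (by linarith)
    linarith
  calc G ^ 2 * C * B ^ (θ / 2) * _ ≤ G ^ 2 * C * B ^ (θ / 2) * (40 * B ^ (x / 3 + 2 - 2 * θ)) :=
        mul_le_mul_of_nonneg_left hsum (by positivity)
    _ = _ := by ring

/-- when both norms are not small, the product is at most `B^{2x/3+10θ}` -/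
theorem prod_bound {θ dl B x : ℝ} (hθ0 : 0 < θ) (hB : 1 ≤ B) (T : Finset (O × O))
    (hT : ∀ p ∈ T, Primary p.1 ∧ Primary p.2 ∧ Squarefree (p.1 * p.2) ∧
      (N p.1 : ℝ) * (N p.2 : ℝ) ^ 2 ≤ B ^ x ∧ B ^ dl ≤ (N (p.1 * p.2) : ℝ) ∧
      B ^ (x / 3 - 4 * θ) ≤ (N p.1 : ℝ) ∧ B ^ (x / 3 - 4 * θ) ≤ (N p.2 : ℝ)) :
    ∀ p ∈ T, (N (p.1 * p.2) : ℝ) ≤ B ^ (2 * x / 3 + 10 * θ) := by
  intro p hp
  have hB0 : 0 < B := by linarith
  obtain ⟨h1, h2, _, h4, _, h6, h7⟩ := hT p hp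
  have hn1 := h1.one_le_N'
  have hn2 := h2.one_le_N'
  rw [N_mul]; push_cast
  set u : ℝ := (N p.1 : ℝ) with hu
  set v : ℝ := (N p.2 : ℝ) with hv
  set L : ℝ := B ^ (x / 3 - 4 * θ) with hL
  have hL0 : 0 < L := by positivity
  -- `(u v)² = (u v²) u ≤ H u`, `u ≤ H / L²`
  have e1 : u * L ^ 2 ≤ B ^ x := by
    refine le_trans ?_ h4
    apply mul_le_mul_of_nonneg_left _ (by linarith)
    exact pow_le_pow_left₀ hL0.le h7 2
  have e2 : (u * v) ^ 2 * L ^ 2 ≤ B ^ x * B ^ x := by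
    calc (u * v) ^ 2 * L ^ 2 = (u * v ^ 2) * (u * L ^ 2) := by ring
      _ ≤ B ^ x * B ^ x := mul_le_mul h4 e1 (by positivity) (by positivity)
  have e3 : (u * v * L) ^ 2 ≤ (B ^ x) ^ 2 := by nlinarith
  have e4 : u * v * L ≤ B ^ x := by
    exact (sq_le_sq₀ (by positivity) (by positivity)).1 e3
  calc u * v = (u * v * L) / L := by field_simp
    _ ≤ B ^ x / L := div_le_div_of_nonneg_right e4 hL0.le
    _ = B ^ (x - (x / 3 - 4 * θ)) := by rw [hL, ← Real.rpow_sub hB0]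
    _ ≤ B ^ (2 * x / 3 + 10 * θ) := rle hB (by linarith)

/-- both `N k₁` and `N k₂` not small, `x` not too close to `1`: the classical large sieve -/
theorem part_c {θ dl B x G : ℝ}
    (hθ0 : 0 < θ) (hθ1 : θ ≤ 1 / 100) (hdl : 100 * θ ≤ dl)
    (hB : 1 ≤ B) (hx0 : 0 ≤ x) (hx1 : x ≤ 1 - 24 * θ) (hG : 0 < G) (c : O → ℂ)
    (hc : ∀ n ∈ PB B, ‖c n‖ ≤ G) (T : Finset (O × O))
    (hT : ∀ p ∈ T, Primary p.1 ∧ Primary p.2 ∧ Squarefree (p.1 * p.2) ∧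
      (N p.1 : ℝ) * (N p.2 : ℝ) ^ 2 ≤ B ^ x ∧ B ^ dl ≤ (N (p.1 * p.2) : ℝ) ∧
      B ^ (x / 3 - 4 * θ) ≤ (N p.1 : ℝ) ∧ B ^ (x / 3 - 4 * θ) ≤ (N p.2 : ℝ)) :
    ∑ p ∈ T, ‖FF B c p‖ ^ 2 ≤ 8 * (CLS.cLS2 * G ^ 2 * B ^ (x / 3 + 2 - 2 * θ)) := by
  have hB0 : 0 < B := by linarith
  have hc0 := CLS.cLS2_nonneg
  rcases T.eq_empty_or_nonempty with h0 | ⟨p0, hp0⟩
  · rw [h0, sum_empty]; positivity
  have hxdl : B ^ dl ≤ B ^ x := by
    obtain ⟨h1, h2, h3, h4, h5, _⟩ := hT p0 hp0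
    refine h5.trans (le_trans ?_ h4)
    rw [N_mul]; push_cast
    have := h2.one_le_N'
    have h6 : (0 : ℝ) ≤ N p0.1 := Nat.cast_nonneg _
    nlinarith [mul_nonneg h6 (mul_nonneg (show (0 : ℝ) ≤ N p0.2 by linarith)
      (show (0 : ℝ) ≤ N p0.2 - 1 by linarith))]
  set Q : ℝ := B ^ (2 * x / 3 + 10 * θ) with hQ
  have hQ1 : 1 ≤ Q := Real.one_le_rpow hB (by linarith)
  have hTQ := prod_bound hθ0 hB T hT
  have h1 := CLS.large_sieve hQ1 hB T (fun p hp => ⟨(hT p hp).1, (hT p hp).2.1, (hT p hp).2.2.1,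
    hTQ p hp⟩) (PB B) (fun n hn => (mem_PB.1 hn).2) c
  have h2 : ∑ n ∈ PB B, ‖c n‖ ^ 2 ≤ G ^ 2 * (4 * B) := by
    calc ∑ n ∈ PB B, ‖c n‖ ^ 2 ≤ ∑ n ∈ PB B, G ^ 2 :=
          sum_le_sum (fun n hn => pow_le_pow_left₀ (norm_nonneg _) (hc n hn) 2)
      _ = ((PB B).card : ℝ) * G ^ 2 := by rw [sum_const, nsmul_eq_mul]
      _ ≤ (4 * B) * G ^ 2 := mul_le_mul_of_nonneg_right (card_PB_le hB0.le) (by positivity)
      _ = _ := by ring
  have h3 : (B + Q ^ 2) * B ≤ 2 * B ^ (x / 3 + 2 - 2 * θ) := by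
    have e1 : B * B ≤ B ^ (x / 3 + 2 - 2 * θ) := by
      have e2 : B ^ (dl / 3) ≤ B ^ (x / 3) := by
        have := Real.rpow_le_rpow (by positivity) hxdl (show (0 : ℝ) ≤ 1 / 3 by norm_num)
        rw [← Real.rpow_mul hB0.le, ← Real.rpow_mul hB0.le] at this
        rwa [show dl * (1 / 3) = dl / 3 by ring, show x * (1 / 3) = x / 3 by ring] at this
      calc B * B = B ^ (dl / 3) * B ^ (2 - dl / 3) := by
            rw [← Real.rpow_add hB0, show dl / 3 + (2 - dl / 3) = 2 by ring, Real.rpow_two]; ring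
        _ ≤ B ^ (x / 3) * B ^ (2 - 2 * θ) := by
            apply mul_le_mul e2 (rle hB (by linarith)) (by positivity) (by positivity)
        _ = _ := by rw [← Real.rpow_add hB0]; congr 1; ring
    have e3 : Q ^ 2 * B ≤ B ^ (x / 3 + 2 - 2 * θ) := by
      calc Q ^ 2 * B = B ^ ((2 * x / 3 + 10 * θ) * 2 + 1) := by
            rw [hQ, ← Real.rpow_natCast, ← Real.rpow_mul hB0.le, Real.rpow_add_one hB0.ne']
            norm_num
        _ ≤ _ := rle hB (by linarith)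
    linarith
  calc ∑ p ∈ T, ‖FF B c p‖ ^ 2 ≤ CLS.cLS2 * (B + Q ^ 2) * ∑ n ∈ PB B, ‖c n‖ ^ 2 := h1
    _ ≤ CLS.cLS2 * (B + Q ^ 2) * (G ^ 2 * (4 * B)) :=
        mul_le_mul_of_nonneg_left h2 (by positivity)
    _ = 4 * (CLS.cLS2 * G ^ 2 * ((B + Q ^ 2) * B)) := by ring
    _ ≤ 4 * (CLS.cLS2 * G ^ 2 * (2 * B ^ (x / 3 + 2 - 2 * θ))) := by
        apply mul_le_mul_of_nonneg_left _ (by norm_num)
        exact mul_le_mul_of_nonneg_left h3 (by positivity)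
    _ = _ := by ring

end Vale.Agent.P006.LVC
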