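import Vale.Agent.P006.CLS.Recip
import Vale.Agent.P006.H845.Order

/-!
# P006, block LV-C, part 1: powers of character sums and the large sieve moments (family K₁ ~ K₂)
-/

namespace Vale.Agent.P006.LVC

open Finset

/-- the coefficient of `m` in the `j`-th (Dirichlet) power of `a` restricted to `S` -/
noncomputable def powCoef (S : Finset O) (a : O → ℂ) (j : ℕ) (m : O) : ℂ :=
  ∑ v ∈ (Fintype.piFinset (fun _ : Fin j => S)).filter (fun v => ∏ i, v i = m), ∏ i, a (v i)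

/-- the support of `powCoef` -/
noncomputable def powSupp (S : Finset O) (j : ℕ) : Finset O :=
  (Fintype.piFinset (fun _ : Fin j => S)).image (fun v => ∏ i, v i)

theorem pow_sum_eq (S : Finset O) (a : O → ℂ) (j : ℕ) (ψ : O →* ℂ) :
    (∑ n ∈ S, a n * ψ n) ^ j = ∑ m ∈ powSupp S j, powCoef S a j m * ψ m := by
  have h1 : (∑ n ∈ S, a n * ψ n) ^ j = ∏ _i : Fin j, ∑ n ∈ S, a n * ψ n := by
    rw [prod_const, card_univ, Fintype.card_fin]
  rw [h1, Finset.prod_univ_sum]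
  rw [← Finset.sum_fiberwise_of_maps_to (t := powSupp S j) (g := fun v => ∏ i, v i)]
  · refine sum_congr rfl (fun m _ => ?_)
    rw [powCoef, sum_mul]
    refine sum_congr rfl (fun v hv => ?_)
    rw [mem_filter] at hv
    rw [prod_mul_distrib, ← hv.2, map_prod]
  · intro v hv
    exact mem_image_of_mem _ hv

theorem primary_prod {j : ℕ} {v : Fin j → O} (hv : ∀ i, Primary (v i)) : Primary (∏ i, v i) := by
  refine Finset.prod_induction _ Primary (fun _ _ h h' => h.mul h') primary_one (fun i _ => hv i)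

theorem N_prod {j : ℕ} (v : Fin j → O) : N (∏ i, v i) = ∏ i, N (v i) := by
  have : ∀ s : Finset (Fin j), N (∏ i ∈ s, v i) = ∏ i ∈ s, N (v i) := by
    intro s
    induction s using Finset.cons_induction with
    | empty => simp
    | cons i s hi ih => rw [prod_cons, prod_cons, N_mul, ih]
  exact this univ

theorem N_prod_le {j : ℕ} {v : Fin j → O} {Y : ℝ} (hv : ∀ i, (N (v i) : ℝ) ≤ Y) :
    (N (∏ i, v i) : ℝ) ≤ Y ^ j := by
  rw [N_prod]
  push_cast
  calc ∏ i, (N (v i) : ℝ) ≤ ∏ _i : Fin j, Y :=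
        prod_le_prod (fun i _ => Nat.cast_nonneg _) (fun i _ => hv i)
    _ = Y ^ j := by rw [prod_const, card_univ, Fintype.card_fin]

theorem mem_powSupp {S : Finset O} {Y : ℝ} (hS : ∀ n ∈ S, Primary n ∧ (N n : ℝ) ≤ Y) {j : ℕ}
    {m : O} (hm : m ∈ powSupp S j) : Primary m ∧ (N m : ℝ) ≤ Y ^ j := by
  rw [powSupp, mem_image] at hm
  obtain ⟨v, hv, rfl⟩ := hm
  rw [Fintype.mem_piFinset] at hv
  exact ⟨primary_prod (fun i => (hS _ (hv i)).1), N_prod_le (fun i => (hS _ (hv i)).2)⟩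

/-- number of factorisations -/
theorem card_fiber_le {S : Finset O} (hS : ∀ n ∈ S, Primary n) (j : ℕ) (m : O) (hm : Primary m) :
    ((Fintype.piFinset (fun _ : Fin j => S)).filter (fun v => ∏ i, v i = m)).card ≤ tau m ^ j := by
  have h : ((Fintype.piFinset (fun _ : Fin j => S)).filter (fun v => ∏ i, v i = m)) ⊆
      Fintype.piFinset (fun _ : Fin j => dvs m) := by
    intro v hv
    rw [mem_filter, Fintype.mem_piFinset] at hv
    rw [Fintype.mem_piFinset]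
    intro i
    rw [mem_dvs hm.ne_zero]
    exact ⟨hS _ (hv.1 i), hv.2 ▸ Finset.dvd_prod_of_mem v (mem_univ i)⟩
  refine (card_le_card h).trans ?_
  rw [Fintype.card_piFinset_const, tau]

theorem norm_powCoef_le {S : Finset O} {a : O → ℂ} (ha : ∀ n, ‖a n‖ ≤ 1) (j : ℕ) (m : O) :
    ‖powCoef S a j m‖ ≤
      ((Fintype.piFinset (fun _ : Fin j => S)).filter (fun v => ∏ i, v i = m)).card := by
  rw [powCoef]
  refine (norm_sum_le _ _).trans ?_
  rw [card_eq_sum_ones]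
  push_cast
  refine sum_le_sum (fun v _ => ?_)
  rw [norm_prod]
  exact prod_le_one (fun i _ => norm_nonneg _) (fun i _ => ha _)

/-- the second moment of the coefficients of a `j`-th power -/
theorem sum_powCoef_sq_le (j : ℕ) {ε : ℝ} (hε : 0 < ε) :
    ∃ C : ℝ, 1 ≤ C ∧ ∀ (Y : ℝ), 1 ≤ Y → ∀ (S : Finset O), (∀ n ∈ S, Primary n ∧ (N n : ℝ) ≤ Y) →
      ∀ (a : O → ℂ), (∀ n, ‖a n‖ ≤ 1) →
      ∑ m ∈ powSupp S j, ‖powCoef S a j m‖ ^ 2 ≤ C * Y ^ ((j : ℝ) + ε) := by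
  set ε' : ℝ := ε / (j * j + 1) with hε'
  have hε'0 : 0 < ε' := by positivity
  obtain ⟨C1, hC1, hC⟩ := exists_tau_le hε'0
  refine ⟨C1 ^ j * 4 ^ j, one_le_mul_of_one_le_of_one_le (one_le_pow₀ hC1)
    (one_le_pow₀ (by norm_num)), ?_⟩
  intro Y hY S hS a ha
  have hY0 : 0 < Y := by linarith
  set F : O → Finset (Fin j → O) := fun m =>
    (Fintype.piFinset (fun _ : Fin j => S)).filter (fun v => ∏ i, v i = m) with hF
  have hmax : ∀ m ∈ powSupp S j, ((F m).card : ℝ) ≤ C1 ^ j * Y ^ ε := by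
    intro m hm
    obtain ⟨hm1, hm2⟩ := mem_powSupp hS hm
    have h1 : ((F m).card : ℝ) ≤ (tau m : ℝ) ^ j := by
      exact_mod_cast card_fiber_le (fun n hn => (hS n hn).1) j m hm1
    have h2 : (N m : ℝ) ^ ε' ≤ (Y ^ j) ^ ε' :=
      Real.rpow_le_rpow (Nat.cast_nonneg _) hm2 hε'0.le
    have h3 : (tau m : ℝ) ≤ C1 * (Y ^ j) ^ ε' :=
      (hC m hm1).trans (mul_le_mul_of_nonneg_left h2 (by linarith))
    have h4 : (tau m : ℝ) ^ j ≤ (C1 * (Y ^ j) ^ ε') ^ j :=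
      pow_le_pow_left₀ (Nat.cast_nonneg _) h3 j
    have h5 : (C1 * (Y ^ j) ^ ε') ^ j = C1 ^ j * Y ^ ((j : ℝ) * ε' * j) := by
      rw [mul_pow]
      congr 1
      rw [← Real.rpow_natCast Y j, ← Real.rpow_mul hY0.le, ← Real.rpow_natCast _ j,
        ← Real.rpow_mul hY0.le]
    have h6 : Y ^ ((j : ℝ) * ε' * j) ≤ Y ^ ε := by
      apply Real.rpow_le_rpow_of_exponent_le hY
      rw [hε']
      have : (j : ℝ) * (ε / (j * j + 1)) * j = ε * (j * j / (j * j + 1)) := by ring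
      rw [this]
      have h7 : (j : ℝ) * j / (j * j + 1) ≤ 1 := by
        rw [div_le_one (by positivity)]; linarith
      nlinarith
    calc ((F m).card : ℝ) ≤ C1 ^ j * Y ^ ((j : ℝ) * ε' * j) := by rw [← h5]; exact h1.trans h4
      _ ≤ C1 ^ j * Y ^ ε := mul_le_mul_of_nonneg_left h6 (by positivity)
  have hcard : ∑ m ∈ powSupp S j, ((F m).card : ℝ) = (S.card : ℝ) ^ j := by
    rw [← Nat.cast_sum, ← Nat.cast_pow]
    congr 1
    have h9 : Set.MapsTo (fun v : Fin j → O => ∏ i, v i)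
        (Fintype.piFinset (fun _ : Fin j => S) : Finset (Fin j → O)) (powSupp S j) := by
      intro v hv
      exact mem_coe.2 (mem_image_of_mem _ (mem_coe.1 hv))
    have := Finset.card_eq_sum_card_fiberwise h9
    rw [← this, Fintype.card_piFinset_const]
  have hScard : (S.card : ℝ) ≤ 4 * Y := by
    have h1 : S ⊆ PB Y := fun n hn => by rw [mem_PB]; exact hS n hn
    have h2 : (S.card : ℝ) ≤ ((PB Y).card : ℝ) := by exact_mod_cast card_le_card h1
    exact h2.trans (card_PB_le hY0.le)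
  calc ∑ m ∈ powSupp S j, ‖powCoef S a j m‖ ^ 2
      ≤ ∑ m ∈ powSupp S j, (C1 ^ j * Y ^ ε) * ((F m).card : ℝ) := by
        refine sum_le_sum (fun m hm => ?_)
        have h1 := norm_powCoef_le (S := S) ha j m
        have h2 := hmax m hm
        calc ‖powCoef S a j m‖ ^ 2 ≤ ((F m).card : ℝ) ^ 2 :=
              pow_le_pow_left₀ (norm_nonneg _) h1 2
          _ = ((F m).card : ℝ) * ((F m).card : ℝ) := by ring
          _ ≤ _ := mul_le_mul_of_nonneg_right h2 (Nat.cast_nonneg _)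
    _ = (C1 ^ j * Y ^ ε) * (S.card : ℝ) ^ j := by rw [← mul_sum, hcard]
    _ ≤ (C1 ^ j * Y ^ ε) * (4 * Y) ^ j := by
        apply mul_le_mul_of_nonneg_left _ (by positivity)
        exact pow_le_pow_left₀ (Nat.cast_nonneg _) hScard j
    _ = C1 ^ j * 4 ^ j * Y ^ ((j : ℝ) + ε) := by
        rw [mul_pow, Real.rpow_add hY0, Real.rpow_natCast]; ring

/-- the character `n ↦ (n/k₁)(n/k₂)²` as a monoid homomorphism -/
noncomputable def psi2 (p : O × O) : O →* ℂ where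
  toFun n := toC (sym n p.1) * toC (sym n p.2) ^ 2
  map_one' := by simp [sym_one_left]
  map_mul' x y := by rw [sym_mul_left, sym_mul_left]; simp only [map_mul]; ring

theorem psi2_apply (p : O × O) (n : O) : psi2 p n = toC (sym n p.1) * toC (sym n p.2) ^ 2 := rfl

/-- **Moments from the classical large sieve.** -/
theorem moment (j : ℕ) {ε : ℝ} (hε : 0 < ε) :
    ∃ C : ℝ, 1 ≤ C ∧ ∀ (Y Q : ℝ), 1 ≤ Y → 1 ≤ Q → ∀ (P : Finset (O × O)),
      (∀ p ∈ P, Primary p.1 ∧ Primary p.2 ∧ Squarefree (p.1 * p.2) ∧ (N (p.1 * p.2) : ℝ) ≤ Q) →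
      ∀ (S : Finset O), (∀ n ∈ S, Primary n ∧ (N n : ℝ) ≤ Y) →
      ∀ (a : O → ℂ), (∀ n, ‖a n‖ ≤ 1) →
      ∑ p ∈ P, ‖∑ n ∈ S, a n * psi2 p n‖ ^ (2 * j)
        ≤ C * ((Y ^ (j : ℝ) + Q ^ 2) * Y ^ ((j : ℝ) + ε)) := by
  obtain ⟨C1, hC1, hC⟩ := sum_powCoef_sq_le j hε
  refine ⟨(CLS.cLS2 + 1) * C1, ?_, ?_⟩
  · have := CLS.cLS2_nonneg
    nlinarith
  intro Y Q hY hQ P hP S hS a ha
  have hY0 : 0 < Y := by linarith
  have h1 : ∀ p ∈ P, ‖∑ n ∈ S, a n * psi2 p n‖ ^ (2 * j) =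
      ‖∑ m ∈ powSupp S j, powCoef S a j m * (toC (sym m p.1) * toC (sym m p.2) ^ 2)‖ ^ 2 := by
    intro p _
    rw [mul_comm 2 j, pow_mul, ← norm_pow, pow_sum_eq]
    rfl
  rw [sum_congr rfl h1]
  have h2 := CLS.large_sieve hQ (one_le_pow₀ (n := j) hY) P hP (powSupp S j)
    (fun m hm => (mem_powSupp hS hm).2) (powCoef S a j)
  refine h2.trans ?_
  have h3 := hC Y hY S hS a ha
  have h4 := CLS.cLS2_nonneg
  rw [Real.rpow_natCast]
  have h5 : 0 ≤ Y ^ j + Q ^ 2 := by positivity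
  calc CLS.cLS2 * (Y ^ j + Q ^ 2) * ∑ m ∈ powSupp S j, ‖powCoef S a j m‖ ^ 2
      ≤ CLS.cLS2 * (Y ^ j + Q ^ 2) * (C1 * Y ^ ((j : ℝ) + ε)) :=
        mul_le_mul_of_nonneg_left h3 (by positivity)
    _ ≤ (CLS.cLS2 + 1) * (Y ^ j + Q ^ 2) * (C1 * Y ^ ((j : ℝ) + ε)) := by
        apply mul_le_mul_of_nonneg_right _ (by positivity)
        apply mul_le_mul_of_nonneg_right _ h5
        linarith
    _ = _ := by ring

end Vale.Agent.P006.LVC
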