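import Vale.Agent.P006.LVC.ProdPairs
import Vale.Agent.P006.SV.Sep

/-!
# P006, block LV-C, part 7: separation of variables and Abel summation in mean square
-/

namespace Vale.Agent.P006.LVC

open Finset

/-- **separation in mean square** -/
theorem sepL2 {σ ι : Type*} (S : Finset σ) (P : Finset ι) (F : ι → σ → ℂ) {T : ℝ} (hT0 : 0 ≤ T)
    (L : ℕ) (i j : σ → ℕ) (hij : ∀ s ∈ S, i s < 2 ^ L ∧ j s < 2 ^ L)
    (hT : ∀ u v : ℕ → ℂ, (∀ n, ‖u n‖ ≤ 1) → (∀ n, ‖v n‖ ≤ 1) →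
      ∑ k ∈ P, ‖∑ s ∈ S, F k s * (u (i s) * v (j s))‖ ^ 2 ≤ T) :
    ∑ k ∈ P, ‖∑ s ∈ S, if i s < j s then F k s else 0‖ ^ 2 ≤ (L : ℝ) ^ 2 * T := by
  set x : ι → ℂ := fun k => ∑ s ∈ S, if i s < j s then F k s else 0 with hx
  set D : ℝ := ∑ k ∈ P, ‖x k‖ ^ 2 with hD
  have hD0 : 0 ≤ D := sum_nonneg (fun k _ => by positivity)
  have h1 := SV.sep S (fun s => ∑ k ∈ P, (starRingEnd ℂ) (x k) * F k s)
    (Real.sqrt D * Real.sqrt T) L i j hij (by
      intro u v hu hv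
      have e1 : ∑ s ∈ S, (∑ k ∈ P, (starRingEnd ℂ) (x k) * F k s) * (u (i s) * v (j s)) =
          ∑ k ∈ P, (starRingEnd ℂ) (x k) * ∑ s ∈ S, F k s * (u (i s) * v (j s)) := by
        simp only [sum_mul, mul_sum]
        rw [sum_comm]
        refine sum_congr rfl (fun k _ => sum_congr rfl (fun s _ => by ring))
      rw [e1]
      calc ‖∑ k ∈ P, (starRingEnd ℂ) (x k) * ∑ s ∈ S, F k s * (u (i s) * v (j s))‖
          ≤ ∑ k ∈ P, ‖x k‖ * ‖∑ s ∈ S, F k s * (u (i s) * v (j s))‖ := by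
            refine (norm_sum_le _ _).trans (le_of_eq (sum_congr rfl (fun k _ => ?_)))
            rw [norm_mul, RCLike.norm_conj]
        _ ≤ Real.sqrt (∑ k ∈ P, ‖x k‖ ^ 2) *
            Real.sqrt (∑ k ∈ P, ‖∑ s ∈ S, F k s * (u (i s) * v (j s))‖ ^ 2) :=
            Real.sum_mul_le_sqrt_mul_sqrt _ _ _
        _ ≤ Real.sqrt D * Real.sqrt T := by
            apply mul_le_mul_of_nonneg_left _ (Real.sqrt_nonneg _)
            exact Real.sqrt_le_sqrt (hT u v hu hv))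
  have e2 : (∑ s ∈ S, if i s < j s then ∑ k ∈ P, (starRingEnd ℂ) (x k) * F k s else 0) =
      (D : ℂ) := by
    have : ∀ s ∈ S, (if i s < j s then ∑ k ∈ P, (starRingEnd ℂ) (x k) * F k s else 0) =
        ∑ k ∈ P, (starRingEnd ℂ) (x k) * (if i s < j s then F k s else 0) := by
      intro s _
      split_ifs <;> simp
    rw [sum_congr rfl this, sum_comm, hD]
    push_cast
    refine sum_congr rfl (fun k _ => ?_)
    rw [← mul_sum]
    change (starRingEnd ℂ) (x k) * x k = _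
    rw [mul_comm, Complex.mul_conj, Complex.normSq_eq_norm_sq]
    push_cast; rfl
  rw [e2, Complex.norm_real, Real.norm_of_nonneg hD0] at h1
  rcases hD0.eq_or_lt with h0 | h0
  · rw [← h0]; positivity
  have hs : 0 < Real.sqrt D := Real.sqrt_pos.2 h0
  have h2 : Real.sqrt D * Real.sqrt D ≤ Real.sqrt D * (L * Real.sqrt T) := by
    rw [Real.mul_self_sqrt hD0]; linarith
  have h3 : Real.sqrt D ≤ L * Real.sqrt T := le_of_mul_le_mul_left h2 hs
  calc D = Real.sqrt D ^ 2 := (Real.sq_sqrt hD0).symm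
    _ ≤ (L * Real.sqrt T) ^ 2 := pow_le_pow_left₀ hs.le h3 2
    _ = (L : ℝ) ^ 2 * T := by rw [mul_pow, Real.sq_sqrt hT0]

/-- weighted Cauchy -/
theorem norm_sum_sq_le {σ : Type*} (S : Finset σ) (c : σ → ℂ) (z : σ → ℂ) :
    ‖∑ s ∈ S, c s * z s‖ ^ 2 ≤ (∑ s ∈ S, ‖c s‖) * ∑ s ∈ S, ‖c s‖ * ‖z s‖ ^ 2 := by
  have h1 : ‖∑ s ∈ S, c s * z s‖ ≤ ∑ s ∈ S, Real.sqrt ‖c s‖ * (Real.sqrt ‖c s‖ * ‖z s‖) := by
    refine (norm_sum_le _ _).trans (le_of_eq (sum_congr rfl (fun s _ => ?_)))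
    rw [norm_mul, ← mul_assoc, Real.mul_self_sqrt (norm_nonneg _)]
  have h2 := sum_mul_sq_le_sq_mul_sq S (fun s => Real.sqrt ‖c s‖)
    (fun s => Real.sqrt ‖c s‖ * ‖z s‖)
  calc _ ≤ (∑ s ∈ S, Real.sqrt ‖c s‖ * (Real.sqrt ‖c s‖ * ‖z s‖)) ^ 2 :=
        pow_le_pow_left₀ (norm_nonneg _) h1 2
    _ ≤ _ := h2
    _ = _ := by
        congr 1
        · exact sum_congr rfl (fun s _ => Real.sq_sqrt (norm_nonneg _))
        · exact sum_congr rfl (fun s _ => by rw [mul_pow, Real.sq_sqrt (norm_nonneg _)])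

/-- **Abel summation in mean square** -/
theorem bvL2 {ι : Type*} (P : Finset ι) (S : Finset O) (x : ι → O → ℂ) {D G : ℝ} (hG : 0 ≤ G)
    (w : ℕ → ℂ) (hw : ∀ n, ‖w n‖ + ∑ j ∈ range n, ‖w j - w (j + 1)‖ ≤ G)
    (hD : ∀ n : ℕ, ∑ k ∈ P, ‖∑ c ∈ S.filter (fun c => N c ≤ n), x k c‖ ^ 2 ≤ D) :
    ∑ k ∈ P, ‖∑ c ∈ S, w (N c) * x k c‖ ^ 2 ≤ G ^ 2 * D := by
  classical
  have hD0 : 0 ≤ D := (sum_nonneg (fun k _ => by positivity)).trans (hD 0)
  obtain ⟨n, hn⟩ : ∃ n : ℕ, ∀ c ∈ S, N c ≤ n :=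
    ⟨S.sup (fun c => N c), fun c hc => Finset.le_sup (f := fun c => N c) hc⟩
  -- the coefficients
  set c' : ℕ → ℂ := fun j => if j = n then w n else w j - w (j + 1) with hc'
  have habel : ∀ k, ∑ c ∈ S, w (N c) * x k c =
      ∑ j ∈ range (n + 1), c' j * ∑ c ∈ S.filter (fun c => N c ≤ j), x k c := by
    intro k
    have h1 : ∀ m, m ≤ n → w m = ∑ j ∈ range (n + 1), if m ≤ j then c' j else 0 := by
      intro m hm
      rw [sum_range_succ, if_pos hm]
      have h2 : ∑ j ∈ range n, (if m ≤ j then c' j else 0) = w m - w n := by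
        rw [← sum_filter]
        have h3 : (range n).filter (fun j => m ≤ j) = Ico m n := by
          ext j; simp [mem_filter, mem_range, mem_Ico]; tauto
        rw [h3]
        have h4 : ∑ j ∈ Ico m n, c' j = ∑ j ∈ Ico m n, (w j - w (j + 1)) := by
          refine sum_congr rfl (fun j hj => ?_)
          rw [mem_Ico] at hj
          simp only [hc']
          rw [if_neg (by omega)]
        rw [h4, sum_Ico_eq_sub _ hm, sum_range_sub', sum_range_sub']
        ring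
      rw [h2]; simp [hc']
    calc ∑ c ∈ S, w (N c) * x k c
        = ∑ c ∈ S, ∑ j ∈ range (n + 1), (if N c ≤ j then c' j * x k c else 0) := by
          refine sum_congr rfl (fun c hc => ?_)
          rw [h1 _ (hn c hc), sum_mul]
          refine sum_congr rfl (fun j _ => ?_)
          split_ifs <;> simp
      _ = ∑ j ∈ range (n + 1), ∑ c ∈ S, (if N c ≤ j then c' j * x k c else 0) := sum_comm
      _ = _ := by
          refine sum_congr rfl (fun j _ => ?_)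
          rw [mul_sum, sum_filter]
  have hc : ∑ j ∈ range (n + 1), ‖c' j‖ ≤ G := by
    rw [sum_range_succ]
    have h4 : ∑ j ∈ range n, ‖c' j‖ = ∑ j ∈ range n, ‖w j - w (j + 1)‖ := by
      refine sum_congr rfl (fun j hj => ?_)
      rw [mem_range] at hj
      simp only [hc']
      rw [if_neg (by omega)]
    rw [h4]
    have := hw n
    simp only [hc', if_true]
    linarith
  calc ∑ k ∈ P, ‖∑ c ∈ S, w (N c) * x k c‖ ^ 2
      ≤ ∑ k ∈ P, G * ∑ j ∈ range (n + 1), ‖c' j‖ *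
          ‖∑ c ∈ S.filter (fun c => N c ≤ j), x k c‖ ^ 2 := by
        refine sum_le_sum (fun k _ => ?_)
        rw [habel k]
        refine (norm_sum_sq_le _ _ _).trans ?_
        exact mul_le_mul_of_nonneg_right hc (sum_nonneg (fun j _ => by positivity))
    _ = G * ∑ j ∈ range (n + 1), ‖c' j‖ * ∑ k ∈ P,
          ‖∑ c ∈ S.filter (fun c => N c ≤ j), x k c‖ ^ 2 := by
        rw [← mul_sum, sum_comm]
        congr 1
        exact sum_congr rfl (fun j _ => by rw [mul_sum])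
    _ ≤ G * ∑ j ∈ range (n + 1), ‖c' j‖ * D := by
        apply mul_le_mul_of_nonneg_left _ hG
        exact sum_le_sum (fun j _ => mul_le_mul_of_nonneg_left (hD j) (norm_nonneg _))
    _ = G * ((∑ j ∈ range (n + 1), ‖c' j‖) * D) := by rw [sum_mul]
    _ ≤ G * (G * D) := by
        apply mul_le_mul_of_nonneg_left _ hG
        exact mul_le_mul_of_nonneg_right hc hD0
    _ = _ := by ring

end Vale.Agent.P006.LVC
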